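import Vale.Agent.P002.Surf.Split

/-!
P002, surface groups: every semisimple representation is a limit of irreducible ones whose chosen
pair lies in a given open dense set, in the general and in the special linear group.
-/

namespace Vale.Agent.P002.Surf

open Matrix Module Filter
open scoped Matrix.Norms.Operator Topology

variable {g r : ℕ}

/-- Semisimplicity passes to an invariantly embedded tuple. -/
theorem semisimplePt_of_embedding {n : ℕ} {x : Pt g r} {y : Pt g n} (hs : SemisimplePt x)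
    (ι : (Fin n → ℂ) →ₗ[ℂ] Fin r → ℂ) (hinj : Function.Injective ι)
    (h : ∀ i v, ι ((y i).1 *ᵥ v) = (x i).1 *ᵥ ι v ∧ ι ((y i).2 *ᵥ v) = (x i).2 *ᵥ ι v) :
    SemisimplePt y := by
  intro W hW
  obtain ⟨U', hU', hc⟩ := hs (W.map ι) fun i u hu => by
    obtain ⟨v, hv, rfl⟩ := hu
    exact ⟨⟨_, (hW i v hv).1, (h i v).1⟩, ⟨_, (hW i v hv).2, (h i v).2⟩⟩
  refine ⟨U'.comap ι, fun i v hv => ?_, ?_, ?_⟩
  · have := hU' i (ι v) hv
    rw [← (h i v).1, ← (h i v).2] at this
    exact this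
  · rw [Submodule.disjoint_def]
    intro v hv hv'
    have := Submodule.disjoint_def.1 hc.1 (ι v) ⟨v, hv, rfl⟩ hv'
    exact (injective_iff_map_eq_zero ι).1 hinj v this
  · rw [codisjoint_iff, eq_top_iff]
    intro v _
    obtain ⟨_, ⟨w, hw, rfl⟩, u, hu, hsum⟩ :=
      Submodule.mem_sup.1 ((codisjoint_iff.1 hc.2).ge (Submodule.mem_top (x := ι v)))
    refine Submodule.mem_sup.2 ⟨w, hw, v - w, ?_, add_sub_cancel _ _⟩
    change ι (v - w) ∈ U'
    rw [map_sub, ← hsum, add_sub_cancel_left]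
    exact hu

/-- A reducible semisimple tuple is conjugate to a block sum. -/
theorem exists_split {x : Pt g r} (hx : IsRep x) (hs : SemisimplePt x) (hi : ¬ Irred x) :
    ∃ (a b : ℕ) (e : Fin a ⊕ Fin b ≃ Fin r) (S : Mat r) (x₁ : Pt g a) (x₂ : Pt g b),
      0 < a ∧ 0 < b ∧ IsUnit S.det ∧ IsRep x₁ ∧ IsRep x₂ ∧ SemisimplePt x₁ ∧ SemisimplePt x₂ ∧
        x = cj S (tri e x₁ x₂ 0) := by
  simp only [Irred, not_forall, not_or] at hi
  obtain ⟨W, hW, hbot, htop⟩ := hi
  obtain ⟨W', hW', hc⟩ := hs W hW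
  have hW'bot : W' ≠ ⊥ := fun h => htop (by simpa [h] using hc.sup_eq_top)
  let a := finrank ℂ W
  let b := finrank ℂ W'
  let bW : Basis (Fin a) ℂ W := Module.finBasis ℂ W
  let bW' : Basis (Fin b) ℂ W' := Module.finBasis ℂ W'
  let bas : Basis (Fin a ⊕ Fin b) ℂ (Fin r → ℂ) :=
    (bW.prod bW').map (Submodule.prodEquivOfIsCompl W W' hc)
  have hbl : ∀ j, bas (.inl j) = (bW j : Fin r → ℂ) := fun j => by simp [bas]
  have hbr : ∀ j, bas (.inr j) = (bW' j : Fin r → ℂ) := fun j => by simp [bas]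
  let e : Fin a ⊕ Fin b ≃ Fin r := bas.indexEquiv (Pi.basisFun ℂ (Fin r))
  let bas' : Basis (Fin r) ℂ (Fin r → ℂ) := bas.reindex e
  let S : Mat r := (Pi.basisFun ℂ (Fin r)).toMatrix bas'
  have hS : IsUnit S.det :=
    isUnit_det_of_right_inverse ((Pi.basisFun ℂ (Fin r)).toMatrix_mul_toMatrix_flip bas')
  have hScol : ∀ k l, S k l = bas (e.symm l) k := fun k l => by
    simp [S, bas', Basis.toMatrix_apply, Pi.basisFun_repr]
  -- the matrix of a map preserving both summands
  have hres : ∀ A : Mat r, (∀ v ∈ W, A *ᵥ v ∈ W) → (∀ v ∈ W', A *ᵥ v ∈ W') →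
      ∃ (A₁ : Mat a) (A₂ : Mat b), A = S * blk e A₁ 0 A₂ * S⁻¹ ∧
        (∀ j, A *ᵥ (bW j : Fin r → ℂ) = ∑ i, A₁ i j • (bW i : Fin r → ℂ)) ∧
        ∀ j, A *ᵥ (bW' j : Fin r → ℂ) = ∑ i, A₂ i j • (bW' i : Fin r → ℂ) := by
    intro A hA hA'
    let A₁ : Mat a := of fun i j => bW.repr ⟨_, hA _ (bW j).2⟩ i
    let A₂ : Mat b := of fun i j => bW'.repr ⟨_, hA' _ (bW' j).2⟩ i
    have h1 : ∀ j, A *ᵥ (bW j : Fin r → ℂ) = ∑ i, A₁ i j • (bW i : Fin r → ℂ) := fun j => by
      have := congrArg Subtype.val (bW.sum_repr ⟨_, hA _ (bW j).2⟩)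
      rw [Submodule.coe_sum] at this
      simpa [A₁] using this.symm
    have h2 : ∀ j, A *ᵥ (bW' j : Fin r → ℂ) = ∑ i, A₂ i j • (bW' i : Fin r → ℂ) := fun j => by
      have := congrArg Subtype.val (bW'.sum_repr ⟨_, hA' _ (bW' j).2⟩)
      rw [Submodule.coe_sum] at this
      simpa [A₂] using this.symm
    refine ⟨A₁, A₂, ?_, h1, h2⟩
    have key : A * S = S * blk e A₁ 0 A₂ := by
      ext k l
      obtain ⟨l', rfl⟩ := e.surjective l
      have lhs : (A * S) k (e l') = (A *ᵥ bas l') k := by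
        simp [mul_apply, mulVec, dotProduct, hScol]
      rw [lhs, mul_apply, ← e.sum_comp, Fintype.sum_sum_type]
      rcases l' with j | j
      · rw [hbl, h1]
        simp [hScol, blk, hbl, hbr, Finset.sum_apply, mul_comm]
      · rw [hbr, h2]
        simp [hScol, blk, hbl, hbr, Finset.sum_apply, mul_comm]
    rw [← key, mul_assoc, mul_inv_self' hS, mul_one]
  choose A₁ A₂ hA hAW hAW' using fun i => hres (x i).1 (fun v hv => (hW i v hv).1)
    fun v hv => (hW' i v hv).1
  choose B₁ B₂ hB hBW hBW' using fun i => hres (x i).2 (fun v hv => (hW i v hv).2)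
    fun v hv => (hW' i v hv).2
  set x₁ : Pt g a := fun i => (A₁ i, B₁ i)
  set x₂ : Pt g b := fun i => (A₂ i, B₂ i)
  have hxe : x = cj S (tri e x₁ x₂ 0) := funext fun i => Prod.ext (hA i) (hB i)
  have hrep : IsRep (tri e x₁ x₂ 0) := by
    have hS' : IsUnit (S⁻¹).det := Matrix.isUnit_nonsing_inv_det S hS
    have : tri e x₁ x₂ 0 = cj S⁻¹ x := by
      rw [hxe]
      funext i
      simp only [cj, nonsing_inv_nonsing_inv _ hS, mul_assoc, inv_mul_self' hS, mul_one]
      simp only [← mul_assoc, inv_mul_self' hS, one_mul]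
    rw [this]
    exact isRep_cj hS' hx
  obtain ⟨h₁, h₂⟩ := isRep_of_tri_zero hrep
  -- semisimplicity of the summands
  have hss : ∀ {n : ℕ} (bb : Fin n → Fin r → ℂ), LinearIndependent ℂ bb → ∀ (y : Pt g n),
      (∀ i j, (x i).1 *ᵥ bb j = ∑ k, (y i).1 k j • bb k ∧
        (x i).2 *ᵥ bb j = ∑ k, (y i).2 k j • bb k) → SemisimplePt y := by
    intro n bb hli y hy
    refine semisimplePt_of_embedding hs (Fintype.linearCombination ℂ bb) ?_ fun i v => ?_
    · exact hli.fintypeLinearCombination_injective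
    · have key : ∀ (A : Mat r) (M : Mat n), (∀ j, A *ᵥ bb j = ∑ k, M k j • bb k) →
          Fintype.linearCombination ℂ bb (M *ᵥ v) = A *ᵥ Fintype.linearCombination ℂ bb v := by
        intro A M hM
        simp only [Fintype.linearCombination_apply, mulVec_sum, mulVec_smul, hM, Finset.smul_sum,
          smul_smul]
        rw [Finset.sum_comm]
        refine Finset.sum_congr rfl fun k _ => ?_
        simp [mulVec, dotProduct, Finset.sum_smul, mul_comm]
      exact ⟨key _ _ fun j => (hy i j).1, key _ _ fun j => (hy i j).2⟩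
  refine ⟨a, b, e, S, x₁, x₂, ?_, ?_, hS, h₁, h₂, ?_, ?_, hxe⟩
  · exact Nat.pos_of_ne_zero fun h => hbot (Submodule.finrank_eq_zero.1 h)
  · exact Nat.pos_of_ne_zero fun h => hW'bot (Submodule.finrank_eq_zero.1 h)
  · exact hss (fun j => (bW j : Fin r → ℂ))
      (bW.linearIndependent.map' W.subtype W.ker_subtype) x₁ fun i j => ⟨hAW i j, hBW i j⟩
  · exact hss (fun j => (bW' j : Fin r → ℂ))
      (bW'.linearIndependent.map' W'.subtype W'.ker_subtype) x₂ fun i j => ⟨hAW' i j, hBW' i j⟩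

theorem dens_comm_smul {p : Pair r} {s t : ℂ} (hs : s ≠ 0) (ht : t ≠ 0) (hA : IsUnit p.1.det)
    (hB : IsUnit p.2.det) : comm (s • p.1, t • p.2) = comm p := by
  have h1 : (s • p.1)⁻¹ = s⁻¹ • p.1⁻¹ := by
    refine Matrix.inv_eq_right_inv ?_
    rw [smul_mul_smul_comm, mul_inv_cancel₀ hs, mul_inv_self' hA, one_smul]
  have h2 : (t • p.2)⁻¹ = t⁻¹ • p.2⁻¹ := by
    refine Matrix.inv_eq_right_inv ?_
    rw [smul_mul_smul_comm, mul_inv_cancel₀ ht, mul_inv_self' hB, one_smul]
  simp only [comm, h1, h2, Matrix.smul_mul, Matrix.mul_smul, smul_smul]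
  field_simp
  simp

/-- Scaling every generator. -/
noncomputable def scalePt (s t : Fin g → ℂ) (x : Pt g r) : Pt g r :=
  fun i => (s i • (x i).1, t i • (x i).2)

theorem isRep_scalePt {x : Pt g r} (hx : IsRep x) {s t : Fin g → ℂ} (hs : ∀ i, s i ≠ 0)
    (ht : ∀ i, t i ≠ 0) : IsRep (scalePt s t x) := by
  have hgl : IsGL (scalePt s t x) := fun i => by
    simp only [scalePt, det_smul]
    exact ⟨(IsUnit.pow _ (isUnit_iff_ne_zero.2 (hs i))).mul (hx.1 i).1,
      (IsUnit.pow _ (isUnit_iff_ne_zero.2 (ht i))).mul (hx.1 i).2⟩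
  refine ⟨hgl, ?_⟩
  conv_rhs => rw [← hx.2]
  exact congrArg List.prod (congrArg List.ofFn
    (funext fun i => dens_comm_smul (hs i) (ht i) (hx.1 i).1 (hx.1 i).2))

theorem irred_scalePt {x : Pt g r} (hi : Irred x) {s t : Fin g → ℂ} (hs : ∀ i, s i ≠ 0)
    (ht : ∀ i, t i ≠ 0) : Irred (scalePt s t x) := by
  intro W hW
  refine hi W fun i v hv => ?_
  obtain ⟨h1, h2⟩ := hW i v hv
  simp only [scalePt, smul_mulVec] at h1 h2
  exact ⟨(W.smul_mem_iff (hs i)).1 h1, (W.smul_mem_iff (ht i)).1 h2⟩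

/-- Every semisimple representation is a limit of irreducible ones with the chosen pair in `P`. -/
theorem mem_closure_of_semisimple' (PB : PairBound) (hg : 2 ≤ g) (i0 : Fin g) : ∀ r : ℕ,
    ∀ (P : Set (Pair r)), IsOpen P → Dense P → ∀ x : Pt g r, IsRep x → SemisimplePt x →
      x ∈ closure {y | IsRep y ∧ Irred y ∧ y i0 ∈ P} := by
  intro r
  induction r using Nat.strong_induction_on with
  | _ r ih =>
    intro P hPo hPd x hx hs
    rcases Nat.eq_zero_or_pos r with rfl | hr
    · refine subset_closure ⟨hx, fun W _ => Or.inl (Subsingleton.elim _ _), ?_⟩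
      obtain ⟨p, hp⟩ := hPd.nonempty
      rwa [Subsingleton.elim (x i0) p]
    have : NeZero r := ⟨hr.ne'⟩
    -- it is enough to reach bricks
    suffices h : x ∈ closure {y : Pt g r | IsRep y ∧ Brick y} from
      closure_minimal (fun y hy => mem_closure_of_brick PB hg i0 hPo hPd hy.1 hy.2)
        isClosed_closure h
    by_cases hi : Irred x
    · exact subset_closure ⟨hx, fun Z hZ => scalar_of_irred hr hi hZ⟩
    obtain ⟨a, b, e, S, x₁, x₂, ha, hb, hS, h₁, h₂, hs₁, hs₂, rfl⟩ := exists_split hx hs hi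
    have hab : a + b = r := by simpa using Fintype.card_congr e
    let F : Pt g a × Pt g b → Pt g r := fun p => cj S (tri e p.1 p.2 0)
    have hF : Continuous F := by
      unfold F cj tri blk
      simp only [reindexAlgEquiv_apply, reindex_apply, Pi.zero_apply, Prod.fst_zero, Prod.snd_zero]
      fun_prop
    have hmem : (x₁, x₂) ∈ closure ({y : Pt g a | IsRep y ∧ Irred y ∧ y i0 ∈ Set.univ} ×ˢ
        {y : Pt g b | IsRep y ∧ Irred y ∧ y i0 ∈ Set.univ}) := by
      rw [closure_prod_eq]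
      exact ⟨ih a (by omega) _ isOpen_univ dense_univ x₁ h₁ hs₁,
        ih b (by omega) _ isOpen_univ dense_univ x₂ h₂ hs₂⟩
    refine closure_minimal ?_ isClosed_closure
      (image_closure_subset_closure_image hF ⟨_, hmem, rfl⟩)
    rintro _ ⟨⟨y₁, y₂⟩, ⟨⟨hy₁, hi₁, -⟩, hy₂, hi₂, -⟩, rfl⟩
    -- scale one matrix to separate the determinants
    let t : ℂ → Pt g a := fun c => scalePt (Function.update 1 i0 c) 1 y₁
    have hcont : Continuous fun c => F (t c, y₂) := hF.comp
      ((continuous_pi fun i => by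
        simp only [t, scalePt, Function.update_apply, Pi.one_apply]
        split_ifs <;> fun_prop).prodMk continuous_const)
    let bad : Finset ℂ := insert 0 (Polynomial.nthRoots a
      ((y₂ i0).1.det / (y₁ i0).1.det)).toFinset
    have h1 : F (t 1, y₂) = F (y₁, y₂) := by
      have ht1 : t 1 = y₁ := by
        funext i
        simp [t, scalePt, Function.update_apply]
      rw [ht1]
    have hd : Dense ((bad : Set ℂ)ᶜ) := bad.finite_toSet.countable.dense_compl ℂ
    rw [← h1]
    refine closure_minimal (s := (fun c => F (t c, y₂)) '' (bad : Set ℂ)ᶜ) ?_ isClosed_closure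
      (image_closure_subset_closure_image hcont ⟨1, hd 1, rfl⟩)
    rintro _ ⟨c, hc, rfl⟩
    simp only [bad, Finset.coe_insert, Set.mem_compl_iff, Set.mem_insert_iff, not_or,
      Finset.mem_coe, Multiset.mem_toFinset, Polynomial.mem_nthRoots ha] at hc
    have hc0 : ∀ i, Function.update (1 : Fin g → ℂ) i0 c i ≠ 0 := fun i => by
      rw [Function.update_apply]
      split_ifs
      exacts [hc.1, one_ne_zero]
    refine mem_closure_brick_split hg ha hb (isRep_scalePt hy₁ hc0 fun _ => one_ne_zero) hy₂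
      (irred_scalePt hi₁ hc0 fun _ => one_ne_zero) hi₂ i0 ?_ hS
    intro hdet
    simp only [scalePt, Function.update_self, det_smul, Fintype.card_fin] at hdet
    exact hc.2 ((eq_div_iff (hy₁.1 i0).1.ne_zero).2 hdet)

/-- Semisimple special linear representations are limits of irreducible ones. -/
theorem mem_closure_sl' (PB : PairBound) (hg : 2 ≤ g) (i0 : Fin g) (P : Set (Pair r))
    (hPo : IsOpen P) (hPd : Dense P)
    (hPs : ∀ s t : ℂ, s ≠ 0 → t ≠ 0 → ∀ p ∈ P, (s • p.1, t • p.2) ∈ P)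
    {x : Pt g r} (hx : IsSLRep x) (hs : SemisimplePt x) :
    x ∈ closure {y | IsSLRep y ∧ Irred y ∧ y i0 ∈ P} := by
  have hxgl : IsGL x := fun i => ⟨by simp [(hx.1 i).1], by simp [(hx.1 i).2]⟩
  have hx' : IsRep x := ⟨hxgl, hx.2⟩
  let w : ℂ := -(r : ℂ)⁻¹
  let N : Pt g r → Pt g r := fun y =>
    scalePt (fun i => (y i).1.det ^ w) (fun i => (y i).2.det ^ w) y
  have hNx : N x = x := by
    funext i
    simp [N, scalePt, (hx.1 i).1, (hx.1 i).2]
  have hNc : ContinuousAt N x := by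
    refine continuousAt_pi.2 fun i => ?_
    simp only [N, scalePt]
    have ha : ContinuousAt (fun y : Pt g r => (y i).1.det ^ w) x :=
      (continuousAt_cpow_const (by simp [(hx.1 i).1])).comp
        (f := fun y : Pt g r => (y i).1.det) (Continuous.continuousAt (by fun_prop))
    have hb : ContinuousAt (fun y : Pt g r => (y i).2.det ^ w) x :=
      (continuousAt_cpow_const (by simp [(hx.1 i).2])).comp
        (f := fun y : Pt g r => (y i).2.det) (Continuous.continuousAt (by fun_prop))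
    have ha' : ContinuousAt (fun y : Pt g r => (y i).1) x :=
      Continuous.continuousAt (by fun_prop)
    have hb' : ContinuousAt (fun y : Pt g r => (y i).2) x :=
      Continuous.continuousAt (by fun_prop)
    exact (ha.smul ha').prodMk (hb.smul hb')
  have hmem := mem_closure_image hNc (mem_closure_of_semisimple' PB hg i0 r P hPo hPd x hx' hs)
  rw [hNx] at hmem
  refine closure_mono ?_ hmem
  rintro _ ⟨y, ⟨hy, hi, hyP⟩, rfl⟩
  have h1 : ∀ i, (y i).1.det ^ w ≠ 0 := fun i => by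
    simp [Complex.cpow_eq_zero_iff, (hy.1 i).1.ne_zero]
  have h2 : ∀ i, (y i).2.det ^ w ≠ 0 := fun i => by
    simp [Complex.cpow_eq_zero_iff, (hy.1 i).2.ne_zero]
  refine ⟨⟨fun i => ?_, (isRep_scalePt hy h1 h2).2⟩, irred_scalePt hi h1 h2,
    hPs _ _ (h1 i0) (h2 i0) _ hyP⟩
  have key : ∀ A : Mat r, IsUnit A.det → (A.det ^ w • A).det = 1 := by
    intro A hA
    rcases Nat.eq_zero_or_pos r with rfl | hr
    · simp
    rw [det_smul, Fintype.card_fin, ← Complex.cpow_nat_mul,
      show (r : ℂ) * w = -1 by simp [w, Nat.cast_ne_zero.2 hr.ne'], Complex.cpow_neg_one,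
      inv_mul_cancel₀ hA.ne_zero]
  exact ⟨key _ (hy.1 i).1, key _ (hy.1 i).2⟩

end Vale.Agent.P002.Surf
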