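import Vale.Agent.P002.Surf.Base

/-!
P002, surface groups: the velocity of a flow through a handlebody point.
-/

namespace Vale.Agent.P002.Surf

open Matrix
open scoped Matrix.Norms.Operator Topology

variable {g r : ℕ}

theorem hasDerivAt_sl_inv {h : ℂ → Matrix.SpecialLinearGroup (Fin r) ℂ} (h0 : h 0 = 1) {Y : Mat r}
    (hd : HasDerivAt (fun t => (h t).1) Y 0) :
    HasDerivAt (fun t => ((h t)⁻¹).1) (-Y) 0 := by
  have h1 := hasFDerivAt_ringInverse (𝕜 := ℂ) (1 : (Mat r)ˣ)
  have h2 : ((1 : (Mat r)ˣ) : Mat r) = (h 0).1 := by simp [h0]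
  rw [h2] at h1
  have h3 := h1.comp_hasDerivAt (0 : ℂ) hd
  simp only [inv_one, Units.val_one, _root_.map_neg, ContinuousLinearMap.mulLeftRight_apply,
    one_mul, mul_one, Function.comp_def, ← Matrix.nonsing_inv_eq_ringInverse] at h3
  have e : (fun t => ((h t)⁻¹).1) = fun t => ((h t).1)⁻¹ := funext fun t => coe_inv_sl _
  rw [e]
  exact h3.congr_deriv (by simp)

theorem bridge_end {G : Type*} [Group G] (u a : G) (l : ℕ) :
    (u * a)⁻¹ * (u * (a * 1 * (a ^ (1 + l))⁻¹) * u⁻¹) * (u * a) ^ (1 + l) =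
      (a ^ l)⁻¹ * (u * a) ^ l := by
  rw [add_comm 1 l, pow_succ a l, pow_succ' (u * a) l, mul_one, _root_.mul_inv_rev (a ^ l) a,
    mul_inv_cancel_left]
  have h : a⁻¹ * (a ^ l)⁻¹ * a = (a ^ l)⁻¹ := by
    rw [mul_assoc, ((Commute.refl a).pow_left l).inv_left.eq, inv_mul_cancel_left]
  generalize (u * a) ^ l = z
  generalize (a ^ l)⁻¹ = w at h ⊢
  calc (u * a)⁻¹ * (u * w * u⁻¹) * (u * a * z) = a⁻¹ * w * a * z := by group
    _ = w * z := by rw [h]

/-- The right derivative of the second entry of a bridge at its far end. -/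
theorem hasDerivAt_bridge_power {h : ℂ → Matrix.SpecialLinearGroup (Fin r) ℂ} (h0 : h 0 = 1)
    {Y : Mat r} (hd : HasDerivAt (fun t => (h t).1) Y 0)
    (a : Matrix.SpecialLinearGroup (Fin r) ℂ) : ∀ l : ℕ,
    HasDerivAt (fun t => ((a ^ l)⁻¹ * ((h t)⁻¹ * a) ^ l).1)
      (-∑ u ∈ Finset.range l, (a.1 ^ (u + 1))⁻¹ * Y * a.1 ^ (u + 1)) 0
  | 0 => by
    simp only [pow_zero, inv_one, mul_one, Matrix.SpecialLinearGroup.coe_one, Finset.range_zero,
      Finset.sum_empty, neg_zero]
    exact hasDerivAt_const (0 : ℂ) (1 : Mat r)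
  | l + 1 => by
    have ih := hasDerivAt_bridge_power h0 hd a l
    have hstep : ∀ t, ((a ^ (l + 1))⁻¹ * ((h t)⁻¹ * a) ^ (l + 1)).1 =
        (a.1)⁻¹ * ((a ^ l)⁻¹ * ((h t)⁻¹ * a) ^ l).1 * (((h t)⁻¹).1 * a.1) := by
      intro t
      rw [← coe_inv_sl, ← Matrix.SpecialLinearGroup.coe_mul, ← Matrix.SpecialLinearGroup.coe_mul,
        ← Matrix.SpecialLinearGroup.coe_mul]
      rw [pow_succ, pow_succ, _root_.mul_inv_rev]
      simp only [mul_assoc]
    simp only [hstep]
    refine ((ih.const_mul (a.1)⁻¹).mul ((hasDerivAt_sl_inv h0 hd).mul_const a.1)).congr_deriv ?_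
    have hf : ((a ^ l)⁻¹ * ((h 0)⁻¹ * a) ^ l).1 = 1 := by simp [h0]
    have hi : ((h 0)⁻¹).1 = 1 := by simp [h0]
    rw [hf, hi, Finset.sum_range_succ']
    simp only [zero_add, pow_one, one_mul, mul_one, mul_neg, neg_mul, Finset.mul_sum,
      Finset.sum_mul, neg_add, Matrix.mul_assoc]
    congr 1
    congr 1
    refine Finset.sum_congr rfl fun u _ => ?_
    rw [pow_succ _ (u + 1), Matrix.mul_inv_rev]
    simp only [Matrix.mul_assoc]

/-- The velocity of a flow through a handlebody point. -/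
theorem hasDerivAt_flow_handle (c : Curve g) (A : Fin g → Matrix.SpecialLinearGroup (Fin r) ℂ)
    (h : ℂ → Matrix.SpecialLinearGroup (Fin r) ℂ) (h0 : h 0 = 1) (Y : Mat r)
    (hd : HasDerivAt (fun t => (h t).1) Y 0) :
    ∃ da : Fin g → Mat r, HasDerivAt (fun t => toPt (flow c (handlePt A) (h t)))
      (fun k => (da k, vel c (fun i => (A i).1) Y k)) 0 := by
  have hi := hasDerivAt_sl_inv h0 hd
  have hh0 : ((h 0)⁻¹).1 = 1 := by simp [h0]
  have hh1 : (h 0).1 = 1 := by simp [h0]
  cases c with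
  | twist j =>
    refine ⟨0, hasDerivAt_pi.2 fun k => ?_⟩
    by_cases hk : k = j
    · subst hk
      simpa [toPt, flow, handlePt, vel] using (hasDerivAt_const (0 : ℂ) (A k).1).prodMk hd
    · simp [toPt, flow, handlePt, vel, hk]
      exact (hasDerivAt_const (0 : ℂ) (A k).1).prodMk (hasDerivAt_const (0 : ℂ) (1 : Mat r))
  | bridge i j hij l =>
    refine ⟨fun k => if k = i then (A k).1 * Y else if k = j then -Y * (A k).1 else
      if i < k ∧ k < j then -Y * (A k).1 + (A k).1 * Y else 0, hasDerivAt_pi.2 fun k => ?_⟩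
    by_cases h1 : k = i
    · subst h1
      have hv : vel (.bridge k j hij l) (fun i => (A i).1) Y k = ((A k).1)⁻¹ * Y * (A k).1 := by
        simp [vel, Pi.single_eq_of_ne hij.ne]
      simp only [if_true, hv]
      have hb : HasDerivAt (fun t => ((h t)⁻¹).1 * ((A k)⁻¹).1 * (h t).1 * ((A k).1 * (h t).1))
          (((A k).1)⁻¹ * Y * (A k).1) 0 := by
        refine (((hi.mul_const _).mul hd).mul (hd.const_mul (A k).1)).congr_deriv ?_
        have h5 : ((A k).1)⁻¹ * (A k).1 = 1 := Matrix.nonsing_inv_mul _ (by simp [(A k).2])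
        simp only [Pi.mul_apply, hh1, coe_inv_sl, inv_one, one_mul, mul_one, add_mul, neg_mul,
          Matrix.mul_assoc, h5]
        simp only [← Matrix.mul_assoc, h5, one_mul]
        abel
      simpa [toPt, flow, handlePt, Matrix.mul_assoc] using (hd.const_mul (A k).1).prodMk hb
    by_cases h2 : k = j
    · subst h2
      have hv : vel (.bridge i k hij l) (fun i => (A i).1) Y k =
          -∑ u ∈ Finset.range l, ((A k).1 ^ (u + 1))⁻¹ * Y * (A k).1 ^ (u + 1) := by
        simp [vel, Pi.single_eq_of_ne h1]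
      simp only [if_neg h1, if_true, hv]
      have hflow : ∀ t, toPt (flow (.bridge i k hij l) (handlePt A) (h t)) k =
          (((h t)⁻¹).1 * (A k).1, ((A k ^ l)⁻¹ * ((h t)⁻¹ * A k) ^ l).1) := by
        intro t
        simp only [toPt, flow, handlePt, if_neg h1, if_true]
        have he := bridge_end (h t)⁻¹ (A k) l
        rw [inv_inv] at he
        exact Prod.ext (Matrix.SpecialLinearGroup.coe_mul _ _) (congrArg Subtype.val he)
      simp only [hflow]
      exact (hi.mul_const (A k).1).prodMk (hasDerivAt_bridge_power h0 hd (A k) l)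
    · have hv : vel (.bridge i j hij l) (fun i => (A i).1) Y k = 0 := by
        simp [vel, Pi.single_eq_of_ne h1, Pi.single_eq_of_ne h2]
      simp only [if_neg h1, if_neg h2, hv]
      by_cases h3 : i < k ∧ k < j
      · simp only [if_pos h3]
        have ha : HasDerivAt (fun t => ((h t)⁻¹).1 * (A k).1 * (h t).1)
            (-Y * (A k).1 + (A k).1 * Y) 0 := by
          refine ((hi.mul_const _).mul hd).congr_deriv ?_
          simp [hh0, hh1]
        have hflow : ∀ t, toPt (flow (.bridge i j hij l) (handlePt A) (h t)) k =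
            (((h t)⁻¹).1 * (A k).1 * (h t).1, 1) := by
          intro t
          simp [toPt, flow, handlePt, h1, h2, h3]
        simp only [hflow]
        exact ha.prodMk (hasDerivAt_const _ _)
      · simp only [if_neg h3]
        simp [toPt, flow, handlePt, h1, h2, h3]
        exact (hasDerivAt_const (0 : ℂ) (A k).1).prodMk (hasDerivAt_const (0 : ℂ) (1 : Mat r))

end Vale.Agent.P002.Surf
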