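import Vale.Agent.P002.Surf.Lines
import Vale.Agent.P002.Surf.Velocity

/-!
P002, surface groups: a neighbourhood of a generic handlebody point in the representation variety
consists of forced points.
-/

namespace Vale.Agent.P002.Surf

open Matrix Module Filter
open scoped Topology Matrix.Norms.Operator

variable {g r M : ℕ}

theorem vel_comb (c : Curve g) (A : Fin g → Mat r) (a b : ℂ) (Y Y' : Mat r) :
    vel c A (a • Y + b • Y') = a • vel c A Y + b • vel c A Y' := by
  funext k
  cases c with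
  | twist j => by_cases hk : k = j <;> simp [vel, hk]
  | bridge i j hij l =>
    by_cases hk : k = i
    · subst hk; simp [vel, ne_of_lt hij, Matrix.mul_add, Matrix.add_mul]
    · by_cases hk' : k = j
      · subst hk'
        simp [vel, hk, Matrix.mul_add, Matrix.add_mul, Finset.sum_add_distrib, Finset.smul_sum,
          add_comm]
      · simp [vel, hk, hk']

theorem vel_one (c : Curve g) {A : Fin g → Mat r} (hA : ∀ i, IsUnit (A i).det) :
    ∃ s : Fin g → ℂ, vel c A 1 = fun k => s k • (1 : Mat r) := by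
  cases c with
  | twist j =>
    refine ⟨fun k => if k = j then 1 else 0, funext fun k => ?_⟩
    by_cases hk : k = j <;> simp [vel, hk]
  | bridge i j hij l =>
    refine ⟨fun k => if k = i then 1 else if k = j then -(l : ℂ) else 0, funext fun k => ?_⟩
    have hpow : ∀ u, (A j ^ (u + 1))⁻¹ * A j ^ (u + 1) = 1 := fun u =>
      Matrix.nonsing_inv_mul _ (by rw [Matrix.det_pow]; exact (hA j).pow _)
    by_cases hk : k = i
    · subst hk; simp [vel, ne_of_lt hij, Matrix.nonsing_inv_mul _ (hA k)]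
    · by_cases hk' : k = j
      · subst hk'
        simp [vel, hk, hpow, ← Nat.cast_smul_eq_nsmul ℂ]
      · simp [vel, hk, hk']

variable (e : Fin r) (A0 : Fin g → Matrix.SpecialLinearGroup (Fin r) ℂ) (L : Fin M → Curve g)
variable {W : Submodule ℂ (Pt g r)} {T : Par g r M W →L[ℂ] Pt g r}

/-- The velocities of the chosen flows lie in the range. -/
theorem mem_range_vel [NeZero r] (hr : 2 ≤ r) (hT : HasStrictFDerivAt (theta e A0 L W) T 0)
    (m : Fin M) (n : ℕ) :
    (fun k => ((0 : Mat r), vel (L m) (fun i => (A0 i).1)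
      (baseCurve (L m) (fun i => (A0 i).1) ^ n) k)) ∈ LinearMap.range T.toLinearMap := by
  set R := LinearMap.range T.toLinearMap
  set An : Fin g → Mat r := fun i => (A0 i).1 with hAn
  set c := baseCurve (L m) An
  have hce : (curveElt (L m) (handlePt A0)).1 = c := curveElt_handlePt (L m) A0
  have hu : ∀ i, IsUnit (An i).det := fun i => by
    simp only [hAn]; rw [(A0 i).2]; exact isUnit_one
  obtain ⟨v, hv⟩ : ∃ v : Fin r → ℂ, c ^ n = ∑ k, v k • c ^ k.val := by
    have hd : (Polynomial.X ^ n %ₘ c.charpoly).natDegree < r := by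
      have h1 := Polynomial.natDegree_modByMonic_lt (Polynomial.X ^ n)
        (Matrix.charpoly_monic c) (fun h => by
          have h2 := congrArg Polynomial.natDegree h
          rw [Matrix.charpoly_natDegree_eq_dim, Fintype.card_fin,
            Polynomial.natDegree_one] at h2
          omega)
      rwa [Matrix.charpoly_natDegree_eq_dim, Fintype.card_fin] at h1
    refine ⟨fun k => (Polynomial.X ^ n %ₘ c.charpoly).coeff k.val, ?_⟩
    rw [Matrix.pow_eq_aeval_mod_charpoly, Polynomial.aeval_eq_sum_range' hd]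
    exact (Fin.sum_univ_eq_sum_range
      (fun k => (Polynomial.X ^ n %ₘ c.charpoly).coeff k • c ^ k) r).symm
  set Y := c ^ n
  let hcur : ℂ → Matrix.SpecialLinearGroup (Fin r) ℂ := fun t =>
    hFn (curveElt (L m) (handlePt A0)) (t • v)
  have hq : ∀ t : ℂ, qMat (curveElt (L m) (handlePt A0)).1 (t • v) = 1 + t • Y := fun t => by
    rw [qMat, hce, hv, Finset.smul_sum]
    simp [smul_smul]
  have hne : ∀ᶠ t in 𝓝 (0 : ℂ), (1 + t • Y).det ≠ 0 :=
    (Continuous.matrix_det (by fun_prop :
      Continuous fun t : ℂ => 1 + t • Y)).continuousAt.eventually_ne (by simp)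
  have hd : HasDerivAt (fun t => (hcur t).1) ((r : ℂ) • Y + (-Y.trace) • (1 : Mat r)) 0 := by
    refine ((((det_qMat_deriv Y).inv (by simp)).smul (pow_one_add_deriv Y r)
      ).congr_of_eventuallyEq ?_).congr_deriv (by simp)
    filter_upwards [hne] with t ht
    refine (hFn_coe (c := curveElt (L m) (handlePt A0)) (v := t • v) ?_).trans ?_
    · rw [hq]; exact ht
    · rw [hq]; rfl
  obtain ⟨da, hda⟩ := hasDerivAt_flow_handle (L m) A0 hcur
    (by simp [hcur, hFn_zero]) _ hd
  have hmem : (fun k => (da k, vel (L m) An ((r : ℂ) • Y + (-Y.trace) • (1 : Mat r)) k)) ∈ R := by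
    refine mem_range_of_line e A0 L hT (d := (dirQ m v, 0, 0)) ?_
    refine hda.congr_of_eventuallyEq (Eventually.of_forall fun t => ?_)
    have hs : stage e A0 L (t • dirQ m v) M = flow (L m) (handlePt A0) (hcur t) := by
      rw [stage_single e A0 L m (fun k hk => by rw [qPart_dirQ, if_neg hk]) M m.2, qPart_dirQ,
        if_pos rfl, show baseA e A0 (t • dirQ m v : Pix g r M → ℂ) = A0 from
          funext fun i => baseA_dirQ e A0 m v t i]
    funext i
    simp [theta, scaled, hs]
  let B : (Fin g → Mat r) →ₗ[ℂ] Pt g r :=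
    { toFun := fun w k => ((0 : Mat r), w k)
      map_add' := fun a b => by funext k; simp
      map_smul' := fun a b => by funext k; simp }
  have hB : B (vel (L m) An ((r : ℂ) • Y + (-Y.trace) • (1 : Mat r))) ∈ R := by
    have h := R.sub_mem hmem (mem_range_fst e A0 L hT da)
    convert h using 1
    funext k
    simp [B]
  obtain ⟨s, hs⟩ := vel_one (L m) hu
  have h1 : B (vel (L m) An 1) ∈ R := by
    have h := mem_range_scal e A0 L hT fun k => (0, s k)
    convert h using 1
    funext k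
    simp [B, hs]
  rw [vel_comb, map_add, map_smul, map_smul] at hB
  have h2 := R.sub_mem hB (R.smul_mem (-Y.trace) h1)
  rw [add_sub_cancel_right] at h2
  have h3 := R.smul_mem ((r : ℂ)⁻¹) h2
  rw [smul_smul, inv_mul_cancel₀ (Nat.cast_ne_zero.2 (NeZero.ne r)), one_smul] at h3
  exact h3

theorem delta_snd_of_dRel {v : Pt g r} (hv : dRel (toPt (handlePt A0)) v = 0) :
    delta (fun i => (A0 i).1) (fun i => (v i).2) = 0 := by
  have hu : ∀ i, IsUnit (A0 i).1.det := fun i => by rw [(A0 i).2]; exact isUnit_one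
  have hc : ∀ i, comm (toPt (handlePt A0) i) = 1 := fun i => by
    simp [comm, toPt, handlePt, Matrix.mul_nonsing_inv _ (hu i)]
  have hpre : ∀ k, pre (toPt (handlePt A0)) k = 1 := by
    intro k
    induction k with
    | zero => rfl
    | succ k ih =>
      rw [pre, ih]
      by_cases hk : k < g <;> simp [cm, hk, hc]
  rw [dRel_apply] at hv
  rw [← hv]
  simp only [delta, LinearMap.coe_mk, AddHom.coe_mk]
  refine Finset.sum_congr rfl fun i _ => ?_
  simp [relTerm, conjBy, ell, hpre, hc]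
  simp [dComm, toPt, handlePt, Matrix.mul_assoc, Matrix.mul_nonsing_inv _ (hu i)]

theorem relProd_scaled {p : Pix g r M → ℂ} {s : Fin g → ℂ × ℂ}
    (hs : ∀ i, 1 + (s i).1 ≠ 0 ∧ 1 + (s i).2 ≠ 0) : relProd (scaled e A0 L p s) = 1 := by
  have h := (isSLRep_stage e A0 L p M).2
  rw [relProd] at h ⊢
  refine (congrArg List.prod (congrArg List.ofFn (funext fun i => ?_))).trans h
  have hd1 : (toPt (stage e A0 L p M) i).1.det = 1 := (isSL_toPt _ i).1
  have hd2 : (toPt (stage e A0 L p M) i).2.det = 1 := (isSL_toPt _ i).2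
  have hinv : ∀ (w : ℂ) (X : Mat r), w ≠ 0 → X.det = 1 → (w • X)⁻¹ = w⁻¹ • X⁻¹ := by
    intro w X hw hX
    refine Matrix.inv_eq_right_inv ?_
    rw [Matrix.smul_mul, Matrix.mul_smul, smul_smul, mul_inv_cancel₀ hw, one_smul,
      Matrix.mul_nonsing_inv X (by rw [hX]; exact isUnit_one)]
  simp only [scaled, comm]
  rw [hinv _ _ (hs i).1 hd1, hinv _ _ (hs i).2 hd2]
  simp only [Matrix.smul_mul, Matrix.mul_smul, smul_smul]
  rw [show (1 + (s i).2)⁻¹ * ((1 + (s i).1)⁻¹ * ((1 + (s i).2) * (1 + (s i).1))) = 1 by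
    field_simp [(hs i).1, (hs i).2], one_smul]

theorem eventually_root [NeZero r] : ∀ᶠ s in 𝓝 (0 : ℂ), (1 + s) ^ r = 1 → s = 0 := by
  have hS : ∀ᶠ s in 𝓝 (0 : ℂ), 1 + s ∉ (Polynomial.nthRoots r (1 : ℂ)).toFinset.erase 1 :=
    (continuous_const.add continuous_id).continuousAt.eventually
      (p := fun w => w ∉ (Polynomial.nthRoots r (1 : ℂ)).toFinset.erase 1)
      (((Polynomial.nthRoots r (1 : ℂ)).toFinset.erase 1).finite_toSet.isClosed.isOpen_compl
        |>.eventually_mem (by simp))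
  filter_upwards [hS] with s hs1 hsr
  by_contra h0
  exact hs1 (Finset.mem_erase.2 ⟨fun h => h0 (by linear_combination h), Multiset.mem_toFinset.2
    ((Polynomial.mem_nthRoots (NeZero.pos r)).2 hsr)⟩)

theorem forced_nhds [NeZero r] {o z : Fin g} (hok : StageOK e A0 L o z M)
    (h0 : (0 : Pix g r M → ℂ) ∈ Dom e A0 L o z M) (hW : IsCompl (LinearMap.ker (dRel (toPt (handlePt A0)))) W)
    (hT : HasStrictFDerivAt (theta e A0 L W) T 0) (hsurj : LinearMap.range T.toLinearMap = ⊤) :
    ∀ᶠ y in 𝓝 (toPt (handlePt A0)), IsSLRep y → Forced y := by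
  set x0 := toPt (handlePt A0) with hx0
  have hx0R : IsRep x0 := ⟨fun i => ⟨by rw [(isSL_toPt (handlePt A0) i).1]; exact isUnit_one,
    by rw [(isSL_toPt (handlePt A0) i).2]; exact isUnit_one⟩,
    by rw [hx0, relProd_toPt, gpre_handle]; rfl⟩
  have : @CompleteSpace (Par g r M W) PseudoMetricSpace.toUniformSpace :=
    FiniteDimensional.complete ℂ _
  have : @CompleteSpace (Pt g r) PseudoMetricSpace.toUniformSpace :=
    FiniteDimensional.complete ℂ _
  have hmap : Filter.map (theta e A0 L W) (𝓝 0) = 𝓝 (theta e A0 L W 0) :=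
    hT.map_nhds_eq_of_surj hsurj
  obtain ⟨C, hC, hbound⟩ : ∃ C : ℝ, 0 < C ∧ ∀ w ∈ W, ‖w‖ ≤ C * ‖dRel x0 w‖ := by
    have hinj : LinearMap.ker ((dRel x0).comp W.subtype) = ⊥ := by
      rw [LinearMap.ker_eq_bot']
      intro w hw
      have h : (w : Pt g r) ∈ LinearMap.ker (dRel x0) ⊓ W := ⟨hw, w.2⟩
      rw [hW.inf_eq_bot] at h
      exact Subtype.ext ((Submodule.mem_bot ℂ).1 h)
    obtain ⟨K, hK, hant⟩ := LinearMap.exists_antilipschitzWith ((dRel x0).comp W.subtype) hinj
    exact ⟨K, hK, fun w hw => ZeroHomClass.bound_of_antilipschitz _ hant ⟨w, hw⟩⟩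
  have hlo := (hasStrictFDerivAt_relProd hx0R).isLittleO.def
    (show (0 : ℝ) < 1 / (2 * C) by positivity)
  have hu0 : ContinuousAt (fun u : Par g r M W => scaled e A0 L u.1 u.2.1) 0 := by
    have h : (fun u : Par g r M W => scaled e A0 L u.1 u.2.1) =
        fun u => theta e A0 L W (u.1, u.2.1, 0) := by
      funext u; simp [theta]
    rw [h]
    exact ContinuousAt.comp (g := theta e A0 L W) (f := fun u : Par g r M W => (u.1, u.2.1, (0 : W)))
      (by exact (contDiffAt_theta e A0 L hok h0 W).continuousAt) (by fun_prop)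
  rw [hx0, ← theta_zero e A0 L W, ← hmap, Filter.eventually_map]
  have hev1 : ∀ᶠ u in 𝓝 (0 : Par g r M W), u.1 ∈ Dom e A0 L o z M :=
    continuous_fst.continuousAt.eventually_mem (hok.isOpen.mem_nhds h0)
  have hev2 : ∀ᶠ u in 𝓝 (0 : Par g r M W),
      ∀ i, ((1 + (u.2.1 i).1) ^ r = 1 → (u.2.1 i).1 = 0) ∧
        ((1 + (u.2.1 i).2) ^ r = 1 → (u.2.1 i).2 = 0) ∧
        1 + (u.2.1 i).1 ≠ 0 ∧ 1 + (u.2.1 i).2 ≠ 0 := by
    refine eventually_all.2 fun i => ?_
    have h1 : Tendsto (fun u : Par g r M W => (u.2.1 i).1) (𝓝 0) (𝓝 0) :=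
      (by fun_prop : Continuous fun u : Par g r M W => (u.2.1 i).1).tendsto' 0 0 rfl
    have h2 : Tendsto (fun u : Par g r M W => (u.2.1 i).2) (𝓝 0) (𝓝 0) :=
      (by fun_prop : Continuous fun u : Par g r M W => (u.2.1 i).2).tendsto' 0 0 rfl
    have h3 : ∀ᶠ s in 𝓝 (0 : ℂ), 1 + s ≠ 0 :=
      (continuous_const.add continuous_id).continuousAt.eventually_ne (by simp)
    filter_upwards [h1.eventually (eventually_root (r := r)), h2.eventually (eventually_root (r := r)),
      h1.eventually h3, h2.eventually h3] with u a b c d using ⟨a, b, c, d⟩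
  have hpair : Tendsto (fun u => (theta e A0 L W u, scaled e A0 L u.1 u.2.1)) (𝓝 0)
      (𝓝 (x0, x0)) := by
    have h := ((contDiffAt_theta e A0 L hok h0 W).continuousAt.prodMk hu0).tendsto
    rwa [theta_zero, show scaled e A0 L ((0 : Par g r M W)).1 ((0 : Par g r M W)).2.1 = x0 from
      scaled_zero e A0 L] at h
  filter_upwards [hev1, hev2, hpair.eventually hlo] with u hD hsc hlo' hrep
  have hrel0 : relProd (scaled e A0 L u.1 u.2.1) = 1 :=
    relProd_scaled e A0 L fun i => ⟨(hsc i).2.2.1, (hsc i).2.2.2⟩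
  have hdiff : theta e A0 L W u - scaled e A0 L u.1 u.2.1 = (u.2.2 : Pt g r) := by
    simp [theta]
  have hw0 : (u.2.2 : Pt g r) = 0 := by
    simp only [hrep.2, hrel0, sub_self, zero_sub, norm_neg, hdiff] at hlo'
    have h2 : ‖(u.2.2 : Pt g r)‖ ≤ C * (1 / (2 * C) * ‖(u.2.2 : Pt g r)‖) :=
      (hbound _ u.2.2.2).trans (mul_le_mul_of_nonneg_left hlo' hC.le)
    rw [show C * (1 / (2 * C) * ‖(u.2.2 : Pt g r)‖) = ‖(u.2.2 : Pt g r)‖ / 2 by
      field_simp] at h2
    exact norm_le_zero_iff.1 (by linarith [norm_nonneg (u.2.2 : Pt g r)])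
  have hΦ : theta e A0 L W u = toPt (stage e A0 L u.1 M) := by
    funext i
    have hi := hrep.1 i
    have hΦi := isSL_toPt (stage e A0 L u.1 M) i
    have he : theta e A0 L W u i = scaled e A0 L u.1 u.2.1 i := by simp [theta, hw0]
    rw [he] at hi ⊢
    simp only [scaled, Matrix.det_smul, Fintype.card_fin, hΦi.1, hΦi.2, mul_one] at hi ⊢
    rw [(hsc i).1 hi.1, (hsc i).2.1 hi.2]
    simp
  rw [hΦ]
  exact hok.forced u.1 hD

/-- A neighbourhood of a generic handlebody point is forced. -/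
theorem exists_forced_open (hg : 2 ≤ g) (hr : 2 ≤ r) :
    ∃ x0 : Pt g r, IsSLRep x0 ∧ Irred x0 ∧ ∀ᶠ y in 𝓝 x0, IsSLRep y → Forced y := by
  have : NeZero r := ⟨by omega⟩
  obtain ⟨o, z, A0, M, L, n, hW, hI, hspan⟩ := exists_spanning hg hr
  let e : Fin r := ⟨0, by omega⟩
  refine ⟨toPt (handlePt A0), ⟨isSL_toPt _, by rw [relProd_toPt, gpre_handle]; rfl⟩,
    (forced_handlePt A0 hW).2, ?_⟩
  obtain ⟨W, hWc⟩ := Submodule.exists_isCompl (LinearMap.ker (dRel (toPt (handlePt A0))))
  have hok := stageOK e A0 L o z hW hI M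
  have h0D := zero_mem_dom e A0 L o z hW M
  have hT := (contDiffAt_theta e A0 L hok h0D W).hasStrictFDerivAt one_ne_zero
  refine forced_nhds e A0 L hok h0D hWc hT ?_
  rw [eq_top_iff, ← hWc.sup_eq_top]
  refine sup_le (fun v hv => ?_) fun w hw => mem_range_compl e A0 L hT hw
  let B : (Fin g → Mat r) →ₗ[ℂ] Pt g r :=
    { toFun := fun w k => ((0 : Mat r), w k)
      map_add' := fun a b => by funext k; simp
      map_smul' := fun a b => by funext k; simp }
  have hle : Submodule.span ℂ (Set.range fun m =>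
      vel (L m) (fun i => (A0 i).1) (baseCurve (L m) (fun i => (A0 i).1) ^ n m)) ≤
      (LinearMap.range (fderiv ℂ (theta e A0 L W) 0).toLinearMap).comap B :=
    Submodule.span_le.2 (Set.range_subset_iff.2 fun m => mem_range_vel e A0 L hr hT m (n m))
  have h2 := hle (hspan (LinearMap.mem_ker.2 (delta_snd_of_dRel A0 (LinearMap.mem_ker.1 hv))))
  have : v = (fun i => ((v i).1, (0 : Mat r))) + B (fun i => (v i).2) := by
    funext i; simp [B]
  rw [this]
  exact add_mem (mem_range_fst e A0 L hT _) h2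

end Vale.Agent.P002.Surf
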