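import Mathlib

/-!
P002, surface groups: rational functions on a parametrised domain, and the density of the common
non-vanishing set of countably many nonzero polynomials.
-/

namespace Vale.Agent.P002.Surf

open MvPolynomial

variable {α ι : Type*} {ev : α → ι → ℂ}

/-- The function is a quotient of polynomials in the coordinates, the denominator not vanishing
on the domain. -/
def RatFn (ev : α → ι → ℂ) (f : α → ℂ) : Prop :=
  ∃ P Q : MvPolynomial ι ℂ, ∀ a, eval (ev a) Q ≠ 0 ∧ f a = eval (ev a) P / eval (ev a) Q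

theorem RatFn.congr {f g : α → ℂ} (hf : RatFn ev f) (h : ∀ a, f a = g a) : RatFn ev g := by
  obtain rfl : f = g := funext h
  exact hf

theorem RatFn.poly (P : MvPolynomial ι ℂ) : RatFn ev fun a => eval (ev a) P :=
  ⟨P, 1, fun a => by simp⟩

theorem RatFn.const (c : ℂ) : RatFn ev fun _ => c :=
  (RatFn.poly (C c)).congr fun a => by simp

theorem RatFn.coord (i : ι) : RatFn ev fun a => ev a i :=
  (RatFn.poly (X i)).congr fun a => by simp

theorem RatFn.add {f g : α → ℂ} (hf : RatFn ev f) (hg : RatFn ev g) :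
    RatFn ev fun a => f a + g a := by
  obtain ⟨P, Q, h⟩ := hf
  obtain ⟨P', Q', h'⟩ := hg
  refine ⟨P * Q' + P' * Q, Q * Q', fun a => ⟨?_, ?_⟩⟩
  · rw [map_mul]; exact mul_ne_zero (h a).1 (h' a).1
  · dsimp only; rw [(h a).2, (h' a).2, map_add, map_mul, map_mul, map_mul,
      div_add_div _ _ (h a).1 (h' a).1]
    ring

theorem RatFn.mul {f g : α → ℂ} (hf : RatFn ev f) (hg : RatFn ev g) :
    RatFn ev fun a => f a * g a := by
  obtain ⟨P, Q, h⟩ := hf
  obtain ⟨P', Q', h'⟩ := hg
  refine ⟨P * P', Q * Q', fun a => ⟨?_, ?_⟩⟩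
  · rw [map_mul]; exact mul_ne_zero (h a).1 (h' a).1
  · dsimp only; rw [(h a).2, (h' a).2, map_mul, map_mul, div_mul_div_comm]

theorem RatFn.inv {f : α → ℂ} (hf : RatFn ev f) (h0 : ∀ a, f a ≠ 0) :
    RatFn ev fun a => (f a)⁻¹ := by
  obtain ⟨P, Q, h⟩ := hf
  refine ⟨Q, P, fun a => ⟨fun hP => h0 a ?_, ?_⟩⟩
  · rw [(h a).2, hP, zero_div]
  · dsimp only; rw [(h a).2, inv_div]

theorem RatFn.neg {f : α → ℂ} (hf : RatFn ev f) : RatFn ev fun a => -f a :=
  ((RatFn.const (-1)).mul hf).congr fun a => by simp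

theorem RatFn.sub {f g : α → ℂ} (hf : RatFn ev f) (hg : RatFn ev g) :
    RatFn ev fun a => f a - g a :=
  (hf.add hg.neg).congr fun a => by ring

theorem RatFn.sum {κ : Type*} (s : Finset κ) {f : κ → α → ℂ} (hf : ∀ k ∈ s, RatFn ev (f k)) :
    RatFn ev fun a => ∑ k ∈ s, f k a := by
  classical
  induction s using Finset.induction_on with
  | empty => simpa using RatFn.const (ev := ev) 0
  | insert k s hk ih =>
    simp_rw [Finset.sum_insert hk]
    exact (hf k (Finset.mem_insert_self k s)).add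
      (ih fun j hj => hf j (Finset.mem_insert_of_mem hj))

theorem RatFn.prod {κ : Type*} (s : Finset κ) {f : κ → α → ℂ} (hf : ∀ k ∈ s, RatFn ev (f k)) :
    RatFn ev fun a => ∏ k ∈ s, f k a := by
  classical
  induction s using Finset.induction_on with
  | empty => simpa using RatFn.const (ev := ev) 1
  | insert k s hk ih =>
    simp_rw [Finset.prod_insert hk]
    exact (hf k (Finset.mem_insert_self k s)).mul
      (ih fun j hj => hf j (Finset.mem_insert_of_mem hj))

/-- A polynomial in rational functions is rational. -/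
theorem RatFn.eval {κ : Type*} (F : MvPolynomial κ ℂ) {g : α → κ → ℂ}
    (hg : ∀ k, RatFn ev fun a => g a k) : RatFn ev fun a => eval (g a) F := by
  induction F using MvPolynomial.induction_on with
  | C c => exact (RatFn.const c).congr fun a => (eval_C c).symm
  | add p q hp hq => exact (hp.add hq).congr fun a => (map_add _ p q).symm
  | mul_X p k hp => exact (hp.mul (hg k)).congr fun a => by rw [map_mul, eval_X]

/-- Entrywise rationality of a matrix valued function. -/
def RatMat {m n : Type*} (ev : α → ι → ℂ) (M : α → Matrix m n ℂ) : Prop :=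
  ∀ i j, RatFn ev fun a => M a i j

variable {l m n : Type*}

theorem RatMat.congr {M N : α → Matrix m n ℂ} (hM : RatMat ev M) (h : ∀ a, M a = N a) :
    RatMat ev N := by
  obtain rfl : M = N := funext h
  exact hM

theorem RatMat.const (A : Matrix m n ℂ) : RatMat ev fun _ => A := fun i j => RatFn.const (A i j)

theorem RatMat.add {M N : α → Matrix m n ℂ} (hM : RatMat ev M) (hN : RatMat ev N) :
    RatMat ev fun a => M a + N a := fun i j => (hM i j).add (hN i j)

theorem RatMat.smul {f : α → ℂ} {M : α → Matrix m n ℂ} (hf : RatFn ev f) (hM : RatMat ev M) :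
    RatMat ev fun a => f a • M a := fun i j => hf.mul (hM i j)

theorem RatMat.mul [Fintype m] {M : α → Matrix l m ℂ} {N : α → Matrix m n ℂ}
    (hM : RatMat ev M) (hN : RatMat ev N) : RatMat ev fun a => M a * N a := fun i j =>
  (RatFn.sum Finset.univ fun k _ => (hM i k).mul (hN k j)).congr fun _ =>
    (Matrix.mul_apply).symm

theorem RatMat.pow [Fintype m] [DecidableEq m] {M : α → Matrix m m ℂ} (hM : RatMat ev M) :
    ∀ k : ℕ, RatMat ev fun a => M a ^ k
  | 0 => (RatMat.const 1).congr fun _ => (pow_zero _).symm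
  | k + 1 => ((hM.pow k).mul hM).congr fun _ => (pow_succ _ _).symm

theorem RatMat.sum {κ : Type*} (s : Finset κ) {M : κ → α → Matrix m n ℂ}
    (hM : ∀ k ∈ s, RatMat ev (M k)) : RatMat ev fun a => ∑ k ∈ s, M k a := fun i j =>
  (RatFn.sum s fun k hk => hM k hk i j).congr fun _ => (Matrix.sum_apply i j s _).symm

theorem RatMat.det [Fintype m] [DecidableEq m] {M : α → Matrix m m ℂ} (hM : RatMat ev M) :
    RatFn ev fun a => (M a).det :=
  (RatFn.sum Finset.univ fun σ _ => (RatFn.const ((Equiv.Perm.sign σ : ℤ) : ℂ)).mul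
    (RatFn.prod Finset.univ fun i _ => hM (σ i) i)).congr fun a => by
      rw [Matrix.det_apply']

theorem RatMat.adjugate [Fintype m] [DecidableEq m] {M : α → Matrix m m ℂ} (hM : RatMat ev M) :
    RatMat ev fun a => (M a).adjugate := by
  intro i j
  refine (RatMat.det (M := fun a => (M a).updateRow j (Pi.single i 1)) fun k l => ?_).congr
    fun a => (Matrix.adjugate_apply (M a) i j).symm
  by_cases hk : k = j
  · exact (RatFn.const ((Pi.single i 1 : m → ℂ) l)).congr fun a => by simp [hk]
  · exact (hM k l).congr fun a => by simp [Matrix.updateRow_ne hk]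

theorem RatFn.continuousOn {D : Set (ι → ℂ)} {f : (ι → ℂ) → ℂ}
    (hf : RatFn (fun a : D => (a : ι → ℂ)) fun a => f a) : ContinuousOn f D := by
  obtain ⟨P, Q, h⟩ := hf
  refine ContinuousOn.congr ((P.continuous_eval.continuousOn).div
    Q.continuous_eval.continuousOn fun x hx => (h ⟨x, hx⟩).1) fun x hx => ?_
  exact (h ⟨x, hx⟩).2

/-- The non-vanishing set of a nonzero polynomial is dense. -/
theorem dense_eval_ne_zero [Fintype ι] {P : MvPolynomial ι ℂ} (hP : P ≠ 0) :
    Dense {x : ι → ℂ | eval x P ≠ 0} := by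
  rw [dense_iff_inter_open]
  rintro U hU ⟨x, hx⟩
  by_contra hempty
  rw [Set.not_nonempty_iff_eq_empty] at hempty
  obtain ⟨ε, hε, hball⟩ := Metric.isOpen_iff.1 hU x hx
  refine hP (funext_set (fun i => Metric.ball (x i) ε) (fun i => ?_) fun y hy => ?_)
  · exact infinite_of_mem_nhds (x i) (Metric.ball_mem_nhds (x i) hε)
  · rw [map_zero]
    by_contra hne
    have hyb : y ∈ Metric.ball x ε := by
      rw [Metric.mem_ball, dist_pi_lt_iff hε]
      exact fun i => hy i (Set.mem_univ i)
    exact Set.notMem_empty y (hempty ▸ ⟨hball hyb, hne⟩)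

/-- On an open set the common non-vanishing set of countably many functions, each rational on
the set and somewhere nonzero there, is dense. -/
theorem dense_ratFn_ne_zero [Fintype ι] {D : Set (ι → ℂ)} (hD : IsOpen D) {κ : Type*}
    [Countable κ] (f : κ → (ι → ℂ) → ℂ)
    (hf : ∀ k, RatFn (fun a : D => (a : ι → ℂ)) fun a => f k a)
    (hne : ∀ k, ∃ x ∈ D, f k x ≠ 0) {U : Set (ι → ℂ)} (hU : IsOpen U) (hUD : (U ∩ D).Nonempty) :
    ∃ x ∈ U ∩ D, ∀ k, f k x ≠ 0 := by
  choose P Q h using hf
  have hP : ∀ k, P k ≠ 0 := by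
    intro k hk
    obtain ⟨x, hx, hfx⟩ := hne k
    apply hfx
    have h2 : f k x = eval x (P k) / eval x (Q k) := (h k ⟨x, hx⟩).2
    rw [h2, hk, map_zero, zero_div]
  have hdense : Dense (⋂ k, {x : ι → ℂ | eval x (P k) ≠ 0}) :=
    dense_iInter_of_isOpen (fun k => isOpen_ne.preimage (P k).continuous_eval)
      fun k => dense_eval_ne_zero (hP k)
  obtain ⟨x, hxU, hx⟩ := hdense.inter_open_nonempty _ (hU.inter hD) hUD
  refine ⟨x, hxU, fun k => ?_⟩
  have h2 : f k x = eval x (P k) / eval x (Q k) := (h k ⟨x, hxU.2⟩).2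
  rw [h2]
  exact div_ne_zero (Set.mem_iInter.1 hx k) (h k ⟨x, hxU.2⟩).1

end Vale.Agent.P002.Surf
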