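import Vale.Agent.P002.Surf.Torus
import Vale.Agent.P002.Surf.Rat

/-!
P002, surface groups: multiplicative independence of eigenvalues is the non-vanishing of countably
many polynomials in the entries; a witness is given by a diagonal matrix of primes.
-/

namespace Vale.Agent.P002.Surf

open Matrix

variable {r : ℕ}

/-- Exponent vectors that are not constant. -/
abbrev RelExp (r : ℕ) := {e : Fin r → ℤ // ∃ i j, e i ≠ e j}

/-- The product over all orderings of the difference of the two sides of a relation. -/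
noncomputable def relE (e : Fin r → ℤ) : MvPolynomial (Fin r) ℂ :=
  ∏ σ : Equiv.Perm (Fin r), (∏ i, MvPolynomial.X i ^ (e (σ i)).toNat -
    ∏ i, MvPolynomial.X i ^ (-e (σ i)).toNat)

theorem relE_isSymmetric (e : Fin r → ℤ) : (relE e).IsSymmetric := by
  intro τ
  simp only [relE, map_prod, map_sub, map_pow, MvPolynomial.rename_X]
  refine Fintype.prod_equiv (Equiv.mulRight τ.symm) _ _ fun σ => ?_
  congr 1 <;>
    exact Fintype.prod_equiv τ _ _ fun i => by simp [Equiv.Perm.mul_apply]

theorem exists_relQ (e : Fin r → ℤ) : ∃ Q : MvPolynomial (Fin r) ℂ,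
    MvPolynomial.aeval (fun i : Fin r => MvPolynomial.esymm (Fin r) ℂ (i + 1)) Q = relE e := by
  obtain ⟨Q, hQ⟩ := MvPolynomial.esymmAlgHom_fin_surjective ℂ (le_refl r) ⟨_, relE_isSymmetric e⟩
  exact ⟨Q, by rw [← MvPolynomial.esymmAlgHom_apply, hQ]⟩

/-- The relation polynomial evaluated on the coefficients of the characteristic polynomial. -/
noncomputable def relPoly (e : Fin r → ℤ) (c : Mat r) : ℂ :=
  MvPolynomial.eval (fun k : Fin r => (-1) ^ (k.val + 1) * c.charpoly.coeff (r - (k.val + 1)))
    (exists_relQ e).choose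

theorem ratFn_relPoly {α ι : Type*} {ev : α → ι → ℂ} {M : α → Mat r} (hM : RatMat ev M)
    (e : Fin r → ℤ) : RatFn ev fun a => relPoly e (M a) := by
  refine RatFn.eval _ fun k => (RatFn.const _).mul ?_
  refine (RatFn.eval ((Matrix.charpoly.univ ℂ (Fin r)).coeff (r - (k.val + 1)))
    (g := fun a x => M a x.1 x.2) fun x => hM x.1 x.2).congr fun a => ?_
  rw [← MvPolynomial.eval₂_id]
  exact Matrix.charpoly.univ_coeff_eval₂Hom (Fin r) (RingHom.id ℂ) (fun x => M a x.1 x.2) _

/-- An enumeration of the eigenvalues. -/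
theorem exists_eigen (c : Mat r) :
    ∃ l : Fin r → ℂ, c.charpoly.roots = Finset.univ.val.map l := by
  have hcard : c.charpoly.roots.card = r := by
    rw [Polynomial.splits_iff_card_roots.1 (IsAlgClosed.splits _),
      Matrix.charpoly_natDegree_eq_dim, Fintype.card_fin]
  generalize hs : c.charpoly.roots = s
  rw [hs] at hcard
  induction s using Quotient.inductionOn with
  | h L =>
    have hL : L.length = r := by simpa using hcard
    refine ⟨fun i => L.get (Fin.cast hL.symm i), ?_⟩
    rw [Fin.univ_val_map]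
    congr 1
    subst hL
    exact (List.ofFn_get L).symm

theorem relPoly_eq (e : Fin r → ℤ) {c : Mat r} {l : Fin r → ℂ}
    (hl : c.charpoly.roots = Finset.univ.val.map l) :
    relPoly e c = ∏ σ : Equiv.Perm (Fin r), (∏ i, l i ^ (e (σ i)).toNat -
      ∏ i, l i ^ (-e (σ i)).toNat) := by
  have key : MvPolynomial.eval l (relE e) = relPoly e c := by
    rw [relPoly]
    conv_lhs => rw [← (exists_relQ e).choose_spec]
    rw [← MvPolynomial.aeval_eq_eval, ← AlgHom.comp_apply, MvPolynomial.comp_aeval]
    rw [← MvPolynomial.aeval_eq_eval]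
    congr 1
    refine congrArg MvPolynomial.aeval (funext fun k => ?_)
    have hk : r - (k.val + 1) ≤ c.charpoly.natDegree := by
      rw [Matrix.charpoly_natDegree_eq_dim, Fintype.card_fin]; omega
    rw [MvPolynomial.aeval_esymm_eq_multiset_esymm, ← hl,
      Polynomial.coeff_eq_esymm_roots_of_card
        (Polynomial.splits_iff_card_roots.1 (IsAlgClosed.splits _)) hk,
      (Matrix.charpoly_monic c).leadingCoeff, one_mul, Matrix.charpoly_natDegree_eq_dim,
      Fintype.card_fin, show r - (r - (k.val + 1)) = k.val + 1 by omega, ← mul_assoc, ← mul_pow]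
    simp
  rw [← key, relE]
  simp [map_prod, map_sub, map_pow]

/-- Non-vanishing of every relation polynomial gives independence. -/
theorem indep_of_relPoly {c : Mat r} (hdet : c.det = 1)
    (h : ∀ e : RelExp r, relPoly e.1 c ≠ 0) : Indep c := by
  obtain ⟨l, hl⟩ := exists_eigen c
  have hprod : ∏ i, l i = 1 := by
    rw [← hdet, Matrix.det_eq_prod_roots_charpoly, hl]; rfl
  have hl0 : ∀ i, l i ≠ 0 := fun i hi =>
    absurd (Finset.prod_eq_zero (Finset.mem_univ i) hi) (by rw [hprod]; exact one_ne_zero)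
  have hind : ∀ e : Fin r → ℤ, ∏ i, l i ^ e i = 1 → ∀ i j, e i = e j := by
    intro e he i j
    by_contra hne
    refine h ⟨e, i, j, hne⟩ ?_
    rw [relPoly_eq e hl]
    refine Finset.prod_eq_zero (Finset.mem_univ 1) (sub_eq_zero.2 ?_)
    simp only [Equiv.Perm.one_apply]
    have : ∀ i, l i ^ e i = l i ^ (e i).toNat / l i ^ (-e i).toNat := fun i => by
      rw [← zpow_natCast, ← zpow_natCast, ← zpow_sub₀ (hl0 i), Int.toNat_sub_toNat_neg]
    simp_rw [this, Finset.prod_div_distrib] at he
    exact (div_eq_one_iff_eq (Finset.prod_ne_zero_iff.2 fun i _ => pow_ne_zero _ (hl0 i))).1 he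
  have hinj := Indep.injective hind hl0
  have hvec : ∀ i, ∃ v : Fin r → ℂ, v ≠ 0 ∧ c *ᵥ v = l i • v := by
    intro i
    have hroot : c.charpoly.IsRoot (l i) :=
      (Polynomial.mem_roots'.1 (hl ▸ Multiset.mem_map_of_mem l (Finset.mem_univ_val i))).2
    rw [Polynomial.IsRoot, Matrix.eval_charpoly] at hroot
    obtain ⟨v, hv, hv0⟩ := Matrix.exists_mulVec_eq_zero_iff.2 hroot
    refine ⟨v, hv, ?_⟩
    rw [Matrix.sub_mulVec, sub_eq_zero] at hv0
    rw [← hv0]
    funext j
    simp [Matrix.scalar_apply, Matrix.mulVec_diagonal]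
  choose v hv0 hv using hvec
  have hli : LinearIndependent ℂ v :=
    Module.End.eigenvectors_linearIndependent' (Matrix.toLin' c) l hinj v fun i =>
      ⟨Module.End.mem_eigenspace_iff.2 (by rw [Matrix.toLin'_apply]; exact hv i), hv0 i⟩
  let P : Mat r := Matrix.of fun j i => v i j
  have hP : IsUnit P := Matrix.linearIndependent_cols_iff_isUnit.1 hli
  have hPd : IsUnit P.det := (Matrix.isUnit_iff_isUnit_det P).1 hP
  refine ⟨P, l, hPd, ?_, hind⟩
  have hcP : c * P = P * diagonal l := by
    ext j i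
    have := congrFun (hv i) j
    simp only [Matrix.mulVec, dotProduct, Pi.smul_apply, smul_eq_mul] at this
    rw [Matrix.mul_diagonal, Matrix.mul_apply]
    simp only [P, Matrix.of_apply]
    rw [this, mul_comm]
  rw [← hcP, Matrix.mul_assoc, Matrix.mul_nonsing_inv P hPd, Matrix.mul_one]

theorem Indep.relPoly_ne_zero {c : Mat r} (hc : Indep c) (hdet : c.det = 1) (e : RelExp r) :
    relPoly e.1 c ≠ 0 := by
  obtain ⟨P, l, hP, rfl, hind⟩ := hc
  have hl : ∏ i, l i = 1 := by
    rwa [Matrix.det_conj ((Matrix.isUnit_iff_isUnit_det P).2 hP), det_diagonal] at hdet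
  have hl0 : ∀ i, l i ≠ 0 := fun i hi =>
    absurd (Finset.prod_eq_zero (Finset.mem_univ i) hi) (by rw [hl]; exact one_ne_zero)
  have hroots : (P * diagonal l * P⁻¹).charpoly.roots = Finset.univ.val.map l := by
    have h1 : (P * diagonal l * P⁻¹).charpoly = (diagonal l).charpoly := by
      rw [Matrix.charpoly_mul_comm, ← Matrix.mul_assoc, Matrix.nonsing_inv_mul P hP,
        Matrix.one_mul]
    rw [h1, Matrix.charpoly_diagonal, Polynomial.roots_prod]
    · simp
    · exact Finset.prod_ne_zero_iff.2 fun i _ => Polynomial.X_sub_C_ne_zero _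
  rw [relPoly_eq e.1 hroots, Finset.prod_ne_zero_iff]
  intro σ _ h0
  obtain ⟨i, j, hne⟩ := e.2
  have h1 : ∏ k, l k ^ (e.1 (σ k)) = 1 := by
    have : ∀ k, l k ^ e.1 (σ k) = l k ^ (e.1 (σ k)).toNat / l k ^ (-e.1 (σ k)).toNat := fun k => by
      rw [← zpow_natCast, ← zpow_natCast, ← zpow_sub₀ (hl0 k), Int.toNat_sub_toNat_neg]
    simp_rw [this, Finset.prod_div_distrib]
    exact (div_eq_one_iff_eq (Finset.prod_ne_zero_iff.2 fun k _ => pow_ne_zero _ (hl0 k))).2
      (sub_eq_zero.1 h0)
  apply hne
  simpa using hind (fun k => e.1 (σ k)) h1 (σ.symm i) (σ.symm j)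

/-- Rational eigenvalues with a product equal to one and no other relation: distinct primes and
the inverse of their product. -/
theorem exists_indep_diagonal (hr : 1 ≤ r) :
    ∃ l : Fin r → ℂ, (∏ i, l i = 1) ∧ Indep (diagonal l) := by
  classical
  obtain ⟨m, rfl⟩ : ∃ m, r = m + 1 := ⟨r - 1, by omega⟩
  let p : Fin m → ℕ := fun i => Nat.nth Nat.Prime i.val
  have hp : ∀ i, (p i).Prime := fun i => Nat.prime_nth_prime i.val
  have hpinj : Function.Injective p := fun i j h =>
    Fin.ext (Nat.nth_injective Nat.infinite_setOfPred_prime h)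
  let q : Fin (m + 1) → ℚ := Fin.snoc (fun i => (p i : ℚ)) (∏ i, (p i : ℚ))⁻¹
  have hq1 : ∏ i, q i = 1 := by
    rw [Fin.prod_univ_castSucc]
    simp only [q, Fin.snoc_castSucc, Fin.snoc_last]
    exact mul_inv_cancel₀ (Finset.prod_ne_zero_iff.2 fun i _ => Nat.cast_ne_zero.2 (hp i).ne_zero)
  refine ⟨fun i => (q i : ℂ), (by beta_reduce; exact_mod_cast hq1), 1, fun i => (q i : ℂ), by simp, by simp, ?_⟩
  intro e he
  beta_reduce at he
  have he' : ∏ i, q i ^ e i = 1 := by exact_mod_cast he
  rw [Fin.prod_univ_castSucc] at he'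
  simp only [q, Fin.snoc_castSucc, Fin.snoc_last, _root_.inv_zpow, ← Finset.prod_zpow,
    ← Finset.prod_inv_distrib] at he'
  rw [← Finset.prod_mul_distrib] at he'
  have h2 : ∏ i : Fin m, (p i : ℚ) ^ (e i.castSucc - e (Fin.last m)) = 1 := by
    rw [← he']
    refine Finset.prod_congr rfl fun i _ => ?_
    rw [zpow_sub₀ (Nat.cast_ne_zero.2 (hp i).ne_zero), div_eq_mul_inv]
  have h3 : ∀ j, e (Fin.castSucc j) = e (Fin.last m) := by
    intro j
    have : Fact (p j).Prime := ⟨hp j⟩
    have hval : ∀ s : Finset (Fin m), ∀ a : Fin m → ℤ,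
        padicValRat (p j) (∏ i ∈ s, (p i : ℚ) ^ a i) = if j ∈ s then a j else 0 := by
      intro s a
      induction s using Finset.induction_on with
      | empty => simp
      | insert i s hi ih =>
        have hne : ∀ k, (p k : ℚ) ^ a k ≠ 0 := fun k =>
          zpow_ne_zero _ (Nat.cast_ne_zero.2 (hp k).ne_zero)
        rw [Finset.prod_insert hi, padicValRat.mul (hne i)
          (Finset.prod_ne_zero_iff.2 fun k _ => hne k), padicValRat.zpow, ih, padicValRat.of_nat]
        by_cases hij : j = i
        · subst hij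
          simp [hi]
        · have : padicValNat (p j) (p i) = 0 := by
            refine padicValNat.eq_zero_of_not_dvd fun hd => hij (hpinj ?_)
            exact (Nat.prime_dvd_prime_iff_eq (hp j) (hp i)).1 hd
          simp [this, hij]
    have h4 := hval Finset.univ fun i => e i.castSucc - e (Fin.last m)
    rw [h2] at h4
    simp at h4
    omega
  have h5 : ∀ i, e i = e (Fin.last m) := Fin.lastCases rfl h3
  intro i j
  rw [h5 i, h5 j]

end Vale.Agent.P002.Surf
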