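import Vale.Agent.P002.Surf.Curve
import Vale.Agent.P002.Surf.Indep

/-!
P002, surface groups: the points forced by irreducible integral representations are stable under
the flows along curves with independent eigenvalues; they form a closed set.
-/

namespace Vale.Agent.P002.Surf

open Matrix

variable {g r : ℕ}

/-- Tuples in the special linear group. -/
abbrev SLPt (g r : ℕ) (R : Type) [CommRing R] :=
  Fin g → Matrix.SpecialLinearGroup (Fin r) R × Matrix.SpecialLinearGroup (Fin r) R

/-- A tuple in the special linear group as a tuple of matrices. -/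
def toPt (x : SLPt g r ℂ) : Pt g r := fun i => ((x i).1.1, (x i).2.1)

/-- The entries of a tuple in the special linear group. -/
def slEntry (x : SLPt g r ℂ) : Var g r → ℂ := entry (toPt x)

theorem coe_inv_sl (A : Matrix.SpecialLinearGroup (Fin r) ℂ) :
    (A⁻¹).1 = (A.1)⁻¹ := by
  refine (Matrix.inv_eq_right_inv ?_).symm
  exact congrArg Subtype.val (mul_inv_cancel A)

theorem comm_toPt (x : SLPt g r ℂ) (i : Fin g) : comm (toPt x i) = (gcomm (x i)).1 := by
  simp only [comm, toPt, gcomm, ← coe_inv_sl]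
  rfl

theorem gpre_eq_prod {G : Type*} [Group G] (x : Fin g → G × G) :
    gpre x g = (List.ofFn fun i => gcomm (x i)).prod := by
  have : ∀ k, k ≤ g → gpre x k = ((List.ofFn fun i => gcomm (x i)).take k).prod := by
    intro k
    induction k with
    | zero => simp [gpre]
    | succ k ih =>
      intro hk
      have hkg : k < g := hk
      rw [gpre_succ x ⟨k, hkg⟩, ih hkg.le, List.prod_take_succ _ k (by simpa using hkg)]
      simp
  rw [this g le_rfl, List.take_of_length_le (by simp)]

theorem relProd_toPt (x : SLPt g r ℂ) : relProd (toPt x) = (gpre x g).1 := by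
  rw [gpre_eq_prod]
  let ι : Matrix.SpecialLinearGroup (Fin r) ℂ →* Mat r :=
    { toFun := fun A => A.1, map_one' := rfl, map_mul' := fun _ _ => rfl }
  rw [relProd]
  show _ = ι _
  rw [map_list_prod, List.map_ofFn]
  exact congrArg List.prod (congrArg List.ofFn (funext fun i => comm_toPt x i))

/-- Every `SL` tuple comes from tuples in the group. -/
theorem exists_slPt {y : Pt g r} (hy : IsSL y) : ∃ x : SLPt g r ℂ, toPt x = y :=
  ⟨fun i => (⟨(y i).1, (hy i).1⟩, ⟨(y i).2, (hy i).2⟩), rfl⟩

theorem isSL_toPt (x : SLPt g r ℂ) : IsSL (toPt x) := fun i => ⟨(x i).1.2, (x i).2.2⟩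

/-- The inclusion of integer matrices of determinant one. -/
noncomputable def intHom (r : ℕ) :
    Matrix.SpecialLinearGroup (Fin r) ℤ →* Matrix.SpecialLinearGroup (Fin r) ℂ :=
  Matrix.SpecialLinearGroup.map (Int.castRingHom ℂ)

theorem exists_intPt {x : SLPt g r ℂ} (hx : IsIntPt (toPt x)) :
    ∃ x0 : SLPt g r ℤ, mapTuple (intHom r) x0 = x := by
  choose M hM using fun i k l => (hx i k l).1
  choose N hN using fun i k l => (hx i k l).2
  have key : ∀ (A : Matrix.SpecialLinearGroup (Fin r) ℂ) (B : Matrix (Fin r) (Fin r) ℤ),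
      (∀ k l, A.1 k l = (B k l : ℂ)) → ∃ B0, intHom r B0 = A := by
    intro A B h
    have hB : B.det = 1 := by
      have h1 : A.1 = B.map (Int.castRingHom ℂ) := by ext k l; exact h k l
      have h2 := A.2
      rw [h1, ← RingHom.mapMatrix_apply, ← RingHom.map_det] at h2
      exact Int.cast_injective (α := ℂ) (by simpa using h2)
    exact ⟨⟨B, hB⟩, Subtype.ext (by ext k l; exact (h k l).symm)⟩
  choose A0 hA0 using fun i => key (x i).1 (Matrix.of (M i)) fun k l => by simpa [toPt] using hM i k l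
  choose B0 hB0 using fun i => key (x i).2 (Matrix.of (N i)) fun k l => by simpa [toPt] using hN i k l
  exact ⟨fun i => (A0 i, B0 i), funext fun i => Prod.ext (hA0 i) (hB0 i)⟩

theorem isIntPt_map (x0 : SLPt g r ℤ) : IsIntPt (toPt (mapTuple (intHom r) x0)) :=
  fun i k l => ⟨⟨(x0 i).1.1 k l, rfl⟩, ⟨(x0 i).2.1 k l, rfl⟩⟩

section RatGroup

variable {α ι : Type*} {ev : α → ι → ℂ}
variable {f f' : α → Matrix.SpecialLinearGroup (Fin r) ℂ}

/-- Rationality of a function with values in the special linear group. -/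
def RatSL (ev : α → ι → ℂ) (f : α → Matrix.SpecialLinearGroup (Fin r) ℂ) : Prop :=
  RatMat ev fun a => (f a).1

theorem RatSL.mul (hf : RatSL ev f) (hf' : RatSL ev f') : RatSL ev fun a => f a * f' a :=
  (RatMat.mul hf hf').congr fun _ => rfl

theorem RatSL.inv (hf : RatSL ev f) : RatSL ev fun a => (f a)⁻¹ :=
  (RatMat.adjugate hf).congr fun _ => rfl

theorem RatSL.pow (hf : RatSL ev f) (n : ℕ) : RatSL ev fun a => f a ^ n :=
  (RatMat.pow hf n).congr fun a => (Matrix.SpecialLinearGroup.coe_pow (f a) n).symm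

theorem RatSL.const (A : Matrix.SpecialLinearGroup (Fin r) ℂ) :
    RatSL ev fun _ => A := RatMat.const A.1

theorem ratSL_pre {x : α → SLPt g r ℂ}
    (hx : ∀ i, RatSL ev (fun a => (x a i).1) ∧ RatSL ev fun a => (x a i).2) :
    ∀ k, RatSL ev fun a => gpre (x a) k
  | 0 => RatSL.const 1
  | k + 1 => by
    simp only [gpre]
    split
    · exact (ratSL_pre hx k).mul ((((hx _).1.mul (hx _).2).mul (hx _).1.inv).mul (hx _).2.inv)
    · exact ratSL_pre hx k

theorem ratSL_curveElt (c : Curve g) {x : α → SLPt g r ℂ}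
    (hx : ∀ i, RatSL ev (fun a => (x a i).1) ∧ RatSL ev fun a => (x a i).2) :
    RatSL ev fun a => curveElt c (x a) := by
  cases c with
  | twist j => exact (hx j).1
  | bridge i j hij l =>
    exact (((hx i).2.mul (hx i).1.inv).inv.mul ((ratSL_pre hx _).inv.mul (ratSL_pre hx _))).mul
      (((hx j).1.mul (hx j).2).mul ((hx j).1.pow _).inv)

theorem ratSL_flow (c : Curve g) {x : α → SLPt g r ℂ}
    (hx : ∀ i, RatSL ev (fun a => (x a i).1) ∧ RatSL ev fun a => (x a i).2) (hf : RatSL ev f)
    (k : Fin g) : RatSL ev (fun a => (flow c (x a) (f a) k).1) ∧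
      RatSL ev fun a => (flow c (x a) (f a) k).2 := by
  cases c with
  | twist j =>
    by_cases hk : k = j
    · simp only [flow, if_pos hk]; exact ⟨(hx k).1, (hx k).2.mul hf⟩
    · simp only [flow, if_neg hk]; exact hx k
  | bridge i j hij l =>
    have ha := (hx k).1
    have hb := (hx k).2
    by_cases h1 : k = i
    · simp only [flow, if_pos h1]
      exact ⟨ha.mul hf, ((hf.inv.mul (hb.mul ha.inv)).mul hf).mul (ha.mul hf)⟩
    · by_cases h2 : k = j
      · simp only [flow, if_neg h1, if_pos h2]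
        exact ⟨hf.inv.mul ha, ((hf.inv.mul ha).inv.mul
          ((hf.inv.mul ((ha.mul hb).mul (ha.pow _).inv)).mul hf)).mul ((hf.inv.mul ha).pow _)⟩
      · by_cases h3 : i < k ∧ k < j
        · simp only [flow, if_neg h1, if_neg h2, if_pos h3]
          exact ⟨(hf.inv.mul ha).mul hf, (hf.inv.mul hb).mul hf⟩
        · simp only [flow, if_neg h1, if_neg h2, if_neg h3]; exact hx k

theorem ratFn_evalPt {x : α → SLPt g r ℂ}
    (hx : ∀ i, RatSL ev (fun a => (x a i).1) ∧ RatSL ev fun a => (x a i).2)
    (F : MvPolynomial (Var g r) ℂ) : RatFn ev fun a => evalPt F (toPt (x a)) := by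
  refine RatFn.eval F fun v => ?_
  obtain ⟨i, b, k, l⟩ := v
  cases b
  · exact ((hx i).2 k l).congr fun a => by simp [entry, toPt]
  · exact ((hx i).1 k l).congr fun a => by simp [entry, toPt]

end RatGroup

theorem ratSL_coord (i : Fin g) :
    RatSL (slEntry (g := g) (r := r)) (fun y => (y i).1) ∧
      RatSL (slEntry (g := g) (r := r)) fun y => (y i).2 :=
  ⟨fun k l => (RatFn.coord (i, true, k, l)).congr fun y => by simp [slEntry, entry, toPt],
   fun k l => (RatFn.coord (i, false, k, l)).congr fun y => by simp [slEntry, entry, toPt]⟩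

/-- The stabiliser of a subspace. -/
def stab (W : Submodule ℂ (Fin r → ℂ)) :
    Subgroup (Matrix.SpecialLinearGroup (Fin r) ℂ) where
  carrier := {A | (∀ v ∈ W, A.1 *ᵥ v ∈ W) ∧ ∀ v ∈ W, (A⁻¹).1 *ᵥ v ∈ W}
  mul_mem' {A B} hA hB := ⟨fun v hv => by
      rw [Matrix.SpecialLinearGroup.coe_mul, ← Matrix.mulVec_mulVec]
      exact hA.1 _ (hB.1 v hv),
    fun v hv => by
      rw [_root_.mul_inv_rev, Matrix.SpecialLinearGroup.coe_mul, ← Matrix.mulVec_mulVec]
      exact hB.2 _ (hA.2 v hv)⟩
  one_mem' := ⟨fun v hv => by simpa using hv, fun v hv => by simpa using hv⟩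
  inv_mem' {A} hA := ⟨hA.2, fun v hv => by rw [inv_inv]; exact hA.1 v hv⟩

theorem mem_stab {W : Submodule ℂ (Fin r → ℂ)} {A : Matrix.SpecialLinearGroup (Fin r) ℂ}
    (h : ∀ v ∈ W, A.1 *ᵥ v ∈ W) : A ∈ stab W := by
  refine ⟨h, ?_⟩
  let T : W →ₗ[ℂ] W := (Matrix.toLin' A.1).restrict fun v hv => by
    rw [Matrix.toLin'_apply]; exact h v hv
  have hAi : ∀ v : Fin r → ℂ, (A⁻¹).1 *ᵥ (A.1 *ᵥ v) = v := fun v => by
    rw [Matrix.mulVec_mulVec, ← Matrix.SpecialLinearGroup.coe_mul, inv_mul_cancel,
      Matrix.SpecialLinearGroup.coe_one, Matrix.one_mulVec]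
  have hT : Function.Injective T := by
    intro v w hvw
    apply Subtype.ext
    have h2 : A.1 *ᵥ v.1 = A.1 *ᵥ w.1 := by simpa [T] using congrArg Subtype.val hvw
    rw [← hAi v.1, h2, hAi]
  intro v hv
  obtain ⟨w, hw⟩ := (LinearMap.injective_iff_surjective.1 hT) ⟨v, hv⟩
  have h2 : A.1 *ᵥ w.1 = v := by simpa [T] using congrArg Subtype.val hw
  rw [← h2, hAi]
  exact w.2

/-- Flows by powers of the curve keep irreducibility. -/
theorem irred_flow (c : Curve g) {x : SLPt g r ℂ} (hx : Irred (toPt x)) (n : ℕ) :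
    Irred (toPt (flow c x (curveElt c x ^ n))) := by
  intro W hW
  apply hx W
  set h := curveElt c x ^ n with hh
  set x' := flow c x h with hx'
  have hS : ∀ k, (x' k).1 ∈ stab W ∧ (x' k).2 ∈ stab W := fun k =>
    ⟨mem_stab fun v hv => (hW k v hv).1, mem_stab fun v hv => (hW k v hv).2⟩
  have hcomm : Commute h (curveElt c x) := (Commute.refl _).pow_left n
  have hhS : h⁻¹ ∈ stab W := by
    refine (stab W).inv_mem ?_
    rw [hh, ← curveElt_flow c x h hcomm]
    exact (stab W).pow_mem (curveElt_mem c hS) n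
  intro k v hv
  have h3 := flow_mem c hS hhS k
  rw [hx', flow_inv] at h3
  exact ⟨h3.1.1 v hv, h3.2.1 v hv⟩

/-- The forced set is stable under flows along curves with independent eigenvalues. -/
theorem forced_flow (c : Curve g) {x : SLPt g r ℂ} (hx : Forced (toPt x))
    (hc : Indep (curveElt c x).1) (h : Matrix.SpecialLinearGroup (Fin r) ℂ)
    (hh : Commute h (curveElt c x)) : Forced (toPt (flow c x h)) := by
  intro F hF
  have hpow : ∀ n : ℕ, evalPt F (toPt (flow c x (curveElt c x ^ n))) = 0 := by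
    intro n
    obtain ⟨P, Q, hPQ⟩ := ratFn_evalPt (ev := slEntry (g := g) (r := r))
      (fun k => ratSL_flow c (x := fun y => y) ratSL_coord
        ((ratSL_curveElt c (x := fun y => y) ratSL_coord).pow n) k) F
    have hP : ∀ y : Pt g r, IsSLRep y → IsIntPt y → Irred y → evalPt P y = 0 := by
      intro y hy hint hirr
      obtain ⟨y', rfl⟩ := exists_slPt hy.1
      obtain ⟨y0, rfl⟩ := exists_intPt hint
      have h0 : evalPt F (toPt (flow c (mapTuple (intHom r) y0)
          (curveElt c (mapTuple (intHom r) y0) ^ n))) = 0 := by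
        refine hF _ ⟨isSL_toPt _, ?_⟩ ?_ (irred_flow c hirr n)
        · rw [relProd_toPt, gpre_flow c _ _ ((Commute.refl _).pow_left n), ← relProd_toPt, hy.2]
        · rw [curveElt_map, ← map_pow, flow_map]
          exact isIntPt_map _
      have h1 := hPQ (mapTuple (intHom r) y0)
      beta_reduce at h1
      rw [h0] at h1
      have h2 := (div_eq_zero_iff.1 h1.2.symm).resolve_right h1.1
      exact h2
    have h1 := hPQ x
    beta_reduce at h1
    rw [h1.2]
    have : MvPolynomial.eval (slEntry x) P = 0 := hx P hP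
    rw [this, zero_div]
  obtain ⟨P, Q, hPQ⟩ := ratFn_evalPt
    (ev := fun (a : Matrix.SpecialLinearGroup (Fin r) ℂ) (v : Fin r × Fin r) => a.1 v.1 v.2)
    (fun k => ratSL_flow c (x := fun _ => x) (fun i => ⟨RatSL.const _, RatSL.const _⟩)
      (f := fun a => a) (fun p q => RatFn.coord (p, q)) k) F
  have hv : ∀ n : ℕ, MvPolynomial.eval (fun v => ((curveElt c x).1 ^ n) v.1 v.2) P = 0 := by
    intro n
    have h1 := hPQ (curveElt c x ^ n)
    beta_reduce at h1
    rw [hpow n, Matrix.SpecialLinearGroup.coe_pow] at h1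
    exact (div_eq_zero_iff.1 h1.2.symm).resolve_right h1.1
  have := hc.vanish (curveElt c x).2 P hv h.1 (congrArg Subtype.val hh.eq) h.2
  have h1 := (hPQ h).2
  beta_reduce at h1
  rw [h1, this, zero_div]

theorem isClosed_forced : IsClosed {x : Pt g r | Forced x} := by
  have hc : ∀ F : MvPolynomial (Var g r) ℂ, Continuous fun x : Pt g r => evalPt F x := by
    intro F
    refine F.continuous_eval.comp (continuous_pi fun v => ?_)
    unfold entry
    split <;> fun_prop
  have : {x : Pt g r | Forced x} = ⋂ (F : MvPolynomial (Var g r) ℂ)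
      (_ : ∀ y : Pt g r, IsSLRep y → IsIntPt y → Irred y → evalPt F y = 0),
      {x | evalPt F x = 0} := by
    ext x; simp [Forced]
  rw [this]
  exact isClosed_biInter fun F _ => isClosed_eq (hc F) continuous_const

end Vale.Agent.P002.Surf
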