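import Vale.Agent.P002.Surf.Good
import Vale.Agent.P002.Surf.ForcedFlow
import Vale.Agent.P002.Defs

/-!
P002, surface groups: every semisimple representation is forced, and the translation to
representations of the presented group.
-/

namespace Vale.Agent.P002.Surf

open Matrix Topology Filter
open scoped commutatorElement

/-- The fundamental group of the closed surface of genus `g`. -/
abbrev SurfaceGroup (g : ℕ) :=
  PresentedGroup ({(List.ofFn fun i : Fin g =>
    ⁅FreeGroup.of (i, true), FreeGroup.of (i, false)⁆).prod} : Set (FreeGroup (Fin g × Bool)))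

variable {g r : ℕ}

theorem semisimplePt_of_irred {x : Pt g r} (h : Irred x) : SemisimplePt x := by
  intro W hW
  rcases h W hW with rfl | rfl
  · exact ⟨⊤, fun i v _ => ⟨Submodule.mem_top, Submodule.mem_top⟩, isCompl_bot_top⟩
  · refine ⟨⊥, fun i v hv => ?_, isCompl_top_bot⟩
    rw [Submodule.mem_bot] at hv
    simp [hv]

/-- All semisimple representations are forced. -/
theorem forced_semisimple (hg : 2 ≤ g) (hr : 2 ≤ r)
    (hopen : ∃ x0 : Pt g r, IsSLRep x0 ∧ Irred x0 ∧ ∀ᶠ y in 𝓝 x0, IsSLRep y → Forced y)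
    (hclos : ∀ (i0 : Fin g) (P : Set (Pair r)), IsOpen P → Dense P →
      (∀ s t : ℂ, s ≠ 0 → t ≠ 0 → ∀ p ∈ P, (s • p.1, t • p.2) ∈ P) →
      ∀ x : Pt g r, IsSLRep x → SemisimplePt x →
        x ∈ closure {y | IsSLRep y ∧ Irred y ∧ y i0 ∈ P})
    (x : Pt g r) (hx : IsSLRep x) (hs : SemisimplePt x) : Forced x := by
  set i0 : Fin g := ⟨0, by omega⟩
  have hcl : ∀ z : Pt g r, IsSLRep z → SemisimplePt z →
      z ∈ closure {y : Pt g r | IsSLRep y ∧ Irred y ∧ y i0 ∈ {p : Pair r | GoodPair p}} :=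
    hclos i0 _ goodPair_isOpen (goodPair_dense hr) fun s t hs ht p hp => goodPair_smul hs ht hp
  obtain ⟨x0, hx0, hi0, hev⟩ := hopen
  obtain ⟨y1, hy1, hy1', -, hG⟩ := mem_closure_iff_nhds.1 (hcl x0 hx0 (semisimplePt_of_irred hi0)) _
    hev.eventually_nhds
  have hgood := forced_of_good hg hr i0 rfl y1 hy1' hG hy1
  exact closure_minimal (fun y hy => hgood y hy.1 hy.2.2) isClosed_forced (hcl x hx hs)

/-- The images of the standard generators. -/
noncomputable def genPt (ρ : SurfaceGroup g →* SLC r) : SLPt g r ℂ :=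
  fun i => (ρ (PresentedGroup.of (i, true)), ρ (PresentedGroup.of (i, false)))

theorem isSLRep_genPt (ρ : SurfaceGroup g →* SLC r) : IsSLRep (toPt (genPt ρ)) := by
  refine ⟨isSL_toPt _, ?_⟩
  rw [relProd_toPt, gpre_eq_prod]
  have h := congrArg ρ (PresentedGroup.one_of_mem (rels :=
    ({(List.ofFn fun i : Fin g => ⁅FreeGroup.of (i, true), FreeGroup.of (i, false)⁆).prod} :
      Set (FreeGroup (Fin g × Bool)))) (Set.mem_singleton _))
  rw [map_one, map_list_prod, map_list_prod, List.map_ofFn, List.map_ofFn] at h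
  rw [← Matrix.SpecialLinearGroup.coe_one, ← h]
  refine congrArg (fun l : List (SLC r) => (List.prod l).1) (congrArg List.ofFn (funext fun i => ?_))
  simp [gcomm, genPt, commutatorElement_def, PresentedGroup.of]

/-- A tuple satisfying the relation comes from a representation. -/
theorem exists_rep {x : SLPt g r ℂ} (hx : IsSLRep (toPt x)) :
    ∃ σ : SurfaceGroup g →* SLC r, genPt σ = x := by
  set f : Fin g × Bool → SLC r := fun a => cond a.2 (x a.1).1 (x a.1).2 with hf
  have h : ∀ w ∈ ({(List.ofFn fun i : Fin g =>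
      ⁅FreeGroup.of (i, true), FreeGroup.of (i, false)⁆).prod} : Set (FreeGroup (Fin g × Bool))),
      FreeGroup.lift f w = 1 := by
    rintro w rfl
    refine Subtype.ext ?_
    rw [Matrix.SpecialLinearGroup.coe_one, ← hx.2, relProd_toPt, gpre_eq_prod, map_list_prod,
      List.map_ofFn]
    refine congrArg (fun l : List (SLC r) => (List.prod l).1) (congrArg List.ofFn (funext fun i => ?_))
    simp [hf, gcomm, commutatorElement_def]
  exact ⟨PresentedGroup.toGroup h, funext fun i => Prod.ext (PresentedGroup.toGroup.of h)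
    (PresentedGroup.toGroup.of h)⟩

theorem semisimplePt_genPt {ρ : SurfaceGroup g →* SLC r} (h : Semisimple ρ) :
    SemisimplePt (toPt (genPt ρ)) := by
  intro W hW
  have hall : ∀ a, ρ a ∈ stab W := by
    intro a
    have ha : a ∈ Subgroup.closure (Set.range (PresentedGroup.of (α := Fin g × Bool))) := by
      rw [PresentedGroup.closure_range_of]
      trivial
    refine (Subgroup.closure_le ((stab W).comap ρ)).2 ?_ ha
    rintro _ ⟨⟨i, b⟩, rfl⟩
    cases b
    · exact mem_stab fun v hv => (hW i v hv).2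
    · exact mem_stab fun v hv => (hW i v hv).1
  obtain ⟨W', hW', hc⟩ := h W fun a v hv => (hall a).1 v hv
  exact ⟨W', fun i v hv => ⟨hW' _ v hv, hW' _ v hv⟩, hc⟩

theorem semisimple_of_irred {σ : SurfaceGroup g →* SLC r} (h : Irred (toPt (genPt σ))) :
    Semisimple σ := by
  intro W hW
  rcases h W (fun i v hv => ⟨hW _ v hv, hW _ v hv⟩) with rfl | rfl
  · exact ⟨⊤, fun _ v _ => Submodule.mem_top, isCompl_bot_top⟩
  · refine ⟨⊥, fun a v hv => ?_, isCompl_top_bot⟩
    rw [Submodule.mem_bot] at hv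
    simp [hv]

/-- The integral matrices inside the special linear group over `ℂ`. -/
theorem intEntries_genPt {σ : SurfaceGroup g →* SLC r} (h : IsIntPt (toPt (genPt σ)))
    (a : SurfaceGroup g) (i j : Fin r) : ∃ z : ℤ, (σ a).1 i j = z := by
  obtain ⟨x0, hx0⟩ := exists_intPt h
  have ha : σ a ∈ (intHom r).range := by
    have ha' : a ∈ Subgroup.closure (Set.range (PresentedGroup.of (α := Fin g × Bool))) := by
      rw [PresentedGroup.closure_range_of]
      trivial
    refine (Subgroup.closure_le ((intHom r).range.comap σ)).2 ?_ ha'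
    rintro _ ⟨⟨i, b⟩, rfl⟩
    cases b
    · exact ⟨(x0 i).2, congrArg Prod.snd (congrFun hx0 i)⟩
    · exact ⟨(x0 i).1, congrArg Prod.fst (congrFun hx0 i)⟩
  obtain ⟨A, hA⟩ := ha
  rw [← hA]
  exact ⟨A.1 i j, rfl⟩

/-- The entries of every group element are polynomials in the entries of the generators. -/
theorem exists_polyMat (a : SurfaceGroup g) :
    ∃ M : Matrix (Fin r) (Fin r) (MvPolynomial (Var g r) ℂ), ∀ ρ : SurfaceGroup g →* SLC r,
      (ρ a).1 = (MvPolynomial.eval (entry (toPt (genPt ρ)))).mapMatrix M := by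
  have ha : a ∈ Subgroup.closure (Set.range (PresentedGroup.of (α := Fin g × Bool))) := by
    rw [PresentedGroup.closure_range_of]
    trivial
  induction ha using Subgroup.closure_induction with
  | mem x hx =>
    obtain ⟨⟨i, b⟩, rfl⟩ := hx
    refine ⟨Matrix.of fun k l => MvPolynomial.X (i, b, k, l), fun ρ => ?_⟩
    ext k l
    cases b <;> simp [entry, toPt, genPt]
  | one => exact ⟨1, fun ρ => by simp⟩
  | mul x y _ _ hx hy =>
    obtain ⟨M, hM⟩ := hx
    obtain ⟨N, hN⟩ := hy
    exact ⟨M * N, fun ρ => by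
      rw [map_mul, Matrix.SpecialLinearGroup.coe_mul, hM, hN, map_mul]⟩
  | inv x _ hx =>
    obtain ⟨M, hM⟩ := hx
    exact ⟨M.adjugate, fun ρ => by
      rw [map_inv, Matrix.SpecialLinearGroup.coe_inv, hM, RingHom.map_adjugate]⟩

theorem eval_aeval {σ τ : Type*} (v : τ → ℂ) (φ : σ → MvPolynomial τ ℂ) (f : MvPolynomial σ ℂ) :
    MvPolynomial.eval v (MvPolynomial.aeval φ f) =
      MvPolynomial.eval (fun x => MvPolynomial.eval v (φ x)) f := by
  induction f using MvPolynomial.induction_on with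
  | C c => simp
  | add p q hp hq => simp only [map_add, hp, hq]
  | mul_X p x hp => simp only [map_mul, MvPolynomial.aeval_X, MvPolynomial.eval_X, hp]

/-- For genus at least two and every rank, a polynomial in the entries vanishing at the semisimple
representations by integer matrices vanishes at all semisimple representations. -/
theorem dense_surface (hg : 2 ≤ g) (hr : 2 ≤ r)
    (hopen : ∃ x0 : Pt g r, IsSLRep x0 ∧ Irred x0 ∧ ∀ᶠ y in 𝓝 x0, IsSLRep y → Forced y)
    (hclos : ∀ (i0 : Fin g) (P : Set (Pair r)), IsOpen P → Dense P →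
      (∀ s t : ℂ, s ≠ 0 → t ≠ 0 → ∀ p ∈ P, (s • p.1, t • p.2) ∈ P) →
      ∀ x : Pt g r, IsSLRep x → SemisimplePt x →
        x ∈ closure {y | IsSLRep y ∧ Irred y ∧ y i0 ∈ P})
    {n : ℕ} (s : Fin n → SurfaceGroup g) (f : MvPolynomial (Fin n × Fin r × Fin r) ℂ)
    (hf : ∀ ρ : SurfaceGroup g →* SLC r, Semisimple ρ →
      (∀ a i j, ∃ z : ℤ, (ρ a).1 i j = z) → evalRep s f ρ = 0)
    (ρ : SurfaceGroup g →* SLC r) (hρ : Semisimple ρ) : evalRep s f ρ = 0 := by
  choose M hM using fun k => exists_polyMat (r := r) (s k)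
  set F : MvPolynomial (Var g r) ℂ :=
    MvPolynomial.aeval (fun x : Fin n × Fin r × Fin r => M x.1 x.2.1 x.2.2) f with hF
  have hev : ∀ σ : SurfaceGroup g →* SLC r, evalPt F (toPt (genPt σ)) = evalRep s f σ := by
    intro σ
    rw [hF, evalPt, evalRep, eval_aeval]
    refine congrArg (MvPolynomial.eval · f) (funext fun x => ?_)
    rw [hM]
    rfl
  rw [← hev]
  refine forced_semisimple hg hr hopen hclos _ (isSLRep_genPt ρ) (semisimplePt_genPt hρ) F ?_
  intro y hy hint hirr
  obtain ⟨x, rfl⟩ := exists_slPt hy.1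
  obtain ⟨σ, rfl⟩ := exists_rep hy
  rw [hev]
  exact hf σ (semisimple_of_irred hirr) (intEntries_genPt hint)

end Vale.Agent.P002.Surf
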