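import Vale.Agent.P002.Surf.PairCount

/-!
P002, surface groups: for a continuous family of pairs without scalar commutant the velocities of
curves, on some nonempty open set, span a space of codimension at least the dimension of the
commutant.

The proof is an induction on the size.  After shrinking, either some commutant contains an
idempotent, and then nearby the pair splits in a moving frame, or none does, and then a nilpotent
element of the commutant gives an invariant subspace moving differentiably; in both cases the two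
blocks satisfy the bound by induction or are bricks.
-/

namespace Vale.Agent.P002.Surf

namespace PairLem

open Matrix Module Filter
open scoped Matrix.Norms.Operator Topology

variable {r : ℕ} {X : Type} [TopologicalSpace X]

/-- A frame adapted to two complementary subspaces. -/
theorem exists_adapted {K C : Submodule ℂ (Fin r → ℂ)} (h : IsCompl K C) :
    ∃ (k q : ℕ) (e : Fin k ⊕ Fin q ≃ Fin r) (S : Mat r), k = finrank ℂ K ∧ q = finrank ℂ C ∧
      IsUnit S ∧
      (∀ v : Fin r → ℂ, S *ᵥ v ∈ K ↔ ∀ j, v (e (.inr j)) = 0) ∧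
      ∀ v : Fin r → ℂ, S *ᵥ v ∈ C ↔ ∀ j, v (e (.inl j)) = 0 := by
  have hcard : finrank ℂ K + finrank ℂ C = r := by
    rw [Submodule.finrank_add_eq_of_isCompl h, Module.finrank_fintype_fun_eq_card, Fintype.card_fin]
  let e : Fin (finrank ℂ K) ⊕ Fin (finrank ℂ C) ≃ Fin r :=
    finSumFinEquiv.trans (finCongr hcard)
  let Φ : (Fin r → ℂ) ≃ₗ[ℂ] (Fin r → ℂ) :=
    ((LinearEquiv.funCongrLeft ℂ ℂ e).trans
      (LinearEquiv.sumArrowLequivProdArrow _ _ ℂ ℂ)).trans
        ((((Module.finBasis ℂ K).equivFun.symm).prodCongr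
          ((Module.finBasis ℂ C).equivFun.symm)).trans (Submodule.prodEquivOfIsCompl K C h))
  have hS : ∀ v, LinearMap.toMatrix' (Φ : (Fin r → ℂ) →ₗ[ℂ] (Fin r → ℂ)) *ᵥ v = Φ v := fun v =>
    LinearMap.toMatrix'_mulVec _ v
  refine ⟨_, _, e, LinearMap.toMatrix' (Φ : (Fin r → ℂ) →ₗ[ℂ] (Fin r → ℂ)), rfl, rfl,
    ?_, fun v => ?_,
    fun v => ?_⟩
  · have hu : IsUnit (Φ : (Fin r → ℂ) →ₗ[ℂ] (Fin r → ℂ)) :=
      (LinearMap.isUnit_iff_ker_eq_bot _).2 Φ.ker
    exact hu.map (LinearMap.toMatrixAlgEquiv' :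
      ((Fin r → ℂ) →ₗ[ℂ] (Fin r → ℂ)) ≃ₐ[ℂ] Mat r)
  · rw [hS]
    have : Φ v ∈ K ↔ (fun j => v (e (.inr j))) = 0 := by
      rw [← ((Module.finBasis ℂ C).equivFun.symm).map_eq_zero_iff,
        ← Submodule.prodEquivOfIsCompl_symm_apply_snd_eq_zero (h := h)]
      simp only [Φ, LinearEquiv.trans_apply, LinearEquiv.symm_apply_apply]
      rfl
    exact this.trans funext_iff
  · rw [hS]
    have : Φ v ∈ C ↔ (fun j => v (e (.inl j))) = 0 := by
      rw [← ((Module.finBasis ℂ K).equivFun.symm).map_eq_zero_iff,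
        ← Submodule.prodEquivOfIsCompl_symm_apply_fst_eq_zero (h := h)]
      simp only [Φ, LinearEquiv.trans_apply, LinearEquiv.symm_apply_apply]
      rfl
    exact this.trans funext_iff

theorem bl_lower {k q : ℕ} (e : Fin k ⊕ Fin q ≃ Fin r) {M : Mat r}
    (h : ∀ v : Fin r → ℂ, (∀ j, v (e (.inr j)) = 0) → ∀ j, (M *ᵥ v) (e (.inr j)) = 0) :
    (bl e M).2.2 = 0 := by
  ext i j
  have := h (Pi.single (e (.inl j)) 1) (fun j' => by simp) i
  simpa [bl_apply, Matrix.toBlocks₂₁, Matrix.mulVec_single] using this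

theorem bl_upper {k q : ℕ} (e : Fin k ⊕ Fin q ≃ Fin r) {M : Mat r}
    (h : ∀ v : Fin r → ℂ, (∀ j, v (e (.inl j)) = 0) → ∀ j, (M *ᵥ v) (e (.inl j)) = 0) :
    (bl e M).2.1 = 0 := by
  ext i j
  have := h (Pi.single (e (.inr j)) 1) (fun j' => by simp) i
  simpa [bl_apply, Matrix.toBlocks₁₂, Matrix.mulVec_single] using this

theorem mulVec_frame {T : Mat r} (hT : IsUnit T) (A : Mat r) (v : Fin r → ℂ) :
    T *ᵥ ((Ring.inverse T * A * T) *ᵥ v) = A *ᵥ (T *ᵥ v) := by
  rw [mulVec_mulVec, mulVec_mulVec, ← mul_assoc, ← mul_assoc, Ring.mul_inverse_cancel _ hT,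
    one_mul]

/-- Near a point whose commutant contains an idempotent the bound holds somewhere. -/
theorem idem_bound (ih : ∀ m < r, BoundAt m) {p : X → Pair r} {V : Set X} (hV : IsOpen V)
    (hp : ContinuousOn p V) {x₀ : X} (hx₀ : x₀ ∈ V)
    (hmin : ∀ x ∈ V, finrank ℂ (pairCommutant (p x₀)) ≤ finrank ℂ (pairCommutant (p x)))
    (hni : ¬ NoIdem (p x₀)) :
    ∃ U', IsOpen U' ∧ U'.Nonempty ∧ U' ⊆ V ∧ ∀ x ∈ U', Bound p x := by
  obtain ⟨Z, hZ, hZZ, hZ0, hZ1⟩ :
      ∃ Z, Z ∈ pairCommutant (p x₀) ∧ Z * Z = Z ∧ Z ≠ 0 ∧ Z ≠ 1 := by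
    simpa [NoIdem, not_or] using hni
  obtain ⟨V₁, hV₁, hx₁, h₁V, -, hext⟩ := exists_commFrame hV hp hx₀ hmin
  obtain ⟨ζ, hζ, hζ0, hζmem⟩ := hext Z hZ
  obtain ⟨O, Ψ, hO, heO, hΨ⟩ := exists_splitting hZZ
  set V₂ := V₁ ∩ ζ ⁻¹' O with hV₂d
  have hV₂ : IsOpen V₂ := hζ.1.isOpen_inter_preimage hV₁ hO
  have hx₂ : x₀ ∈ V₂ := ⟨hx₁, show ζ x₀ ∈ O by rwa [hζ0]⟩
  have hcompl : IsCompl (LinearMap.range (Matrix.mulVecLin Z))
      (LinearMap.ker (Matrix.mulVecLin Z)) := by
    have hi : IsIdempotentElem (Matrix.mulVecLin Z : Module.End ℂ (Fin r → ℂ)) := by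
      show (Matrix.mulVecLin Z).comp (Matrix.mulVecLin Z) = Matrix.mulVecLin Z
      rw [← Matrix.mulVecLin_mul, hZZ]
    exact LinearMap.IsIdempotentElem.isCompl hi
  obtain ⟨k, q, e, S, hk, hq', hS, hSK, hSC⟩ := exists_adapted hcompl
  have hr := card_eq e
  have hk0 : 0 < k := by
    refine Nat.pos_of_ne_zero fun h => hZ0 (ext_of_mulVec_single fun i => ?_)
    have hbot := Submodule.finrank_eq_zero.1 (hk.symm.trans h)
    have : Z *ᵥ Pi.single i 1 ∈ LinearMap.range (Matrix.mulVecLin Z) := ⟨_, rfl⟩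
    rw [hbot, Submodule.mem_bot] at this
    rw [this, zero_mulVec]
  have hq0 : 0 < q := by
    refine Nat.pos_of_ne_zero fun h => hZ1 (ext_of_mulVec_single fun i => ?_)
    have hbot := Submodule.finrank_eq_zero.1 (hq'.symm.trans h)
    have : Pi.single i 1 - Z *ᵥ Pi.single i 1 ∈ LinearMap.ker (Matrix.mulVecLin Z) := by
      rw [LinearMap.mem_ker, Matrix.mulVecLin_apply, mulVec_sub, mulVec_mulVec, hZZ, sub_self]
    rw [hbot, Submodule.mem_bot, sub_eq_zero] at this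
    rw [← this, one_mulVec]
  let T : X → Mat r := fun x => Ψ (ζ x) * S
  have hu : ∀ x ∈ V₂, IsUnit (T x) := fun x hx => ((hΨ _ hx.2).2.1).mul hS
  have hT : Along p V₂ T :=
    (hζ.mono Set.inter_subset_left).comp (Φ := fun M => Ψ M * S)
      fun x hx => (hΨ _ hx.2).1.mul_const S
  have hq := along_cjP (hp.mono (Set.inter_subset_left.trans h₁V)) hT hu
  have hshape : ∀ x ∈ V₂, (cjP (T x) (p x)).1 ∈ shape e ⊥ ∧ (cjP (T x) (p x)).2 ∈ shape e ⊥ := by
    intro x hx
    obtain ⟨-, hgu, hcomm⟩ := hΨ _ hx.2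
    have hZx := hζmem x hx.1
    have key : ∀ A, Commute A (ζ x) →
        Ring.inverse (T x) * A * T x ∈ shape e (⊥ : Submodule ℂ (Off k q)) := by
      intro A hA
      set B := Ring.inverse (Ψ (ζ x)) * A * Ψ (ζ x)
      have hTB : Ring.inverse (T x) * A * T x = Ring.inverse S * B * S := by
        obtain ⟨u, hu'⟩ := hgu
        obtain ⟨s, hs⟩ := hS
        simp only [T, B, ← hu', ← hs, ← Units.val_mul, Ring.inverse_unit, _root_.mul_inv_rev]
        simp only [Units.val_mul, mul_assoc]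
      have hBZ : B * Z = Z * B := hcomm A hA
      rw [hTB, mem_shape, Submodule.mem_bot]
      refine Prod.ext (bl_upper e fun v hv => (hSC _).1 ?_) (bl_lower e fun v hv => (hSK _).1 ?_)
      · rw [mulVec_frame hS]
        have h := (hSC v).2 hv
        rw [LinearMap.mem_ker, Matrix.mulVecLin_apply] at h ⊢
        rw [mulVec_mulVec _ Z B, ← hBZ, ← mulVec_mulVec _ B Z, h, mulVec_zero]
      · rw [mulVec_frame hS]
        obtain ⟨w, hw⟩ := (hSK v).2 hv
        rw [← hw]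
        exact ⟨B *ᵥ w, by simp only [Matrix.mulVecLin_apply, mulVec_mulVec, hBZ]⟩
    exact ⟨key _ hZx.1.symm, key _ hZx.2.symm⟩
  obtain ⟨U', hU', hne', hsub, hb⟩ := split_bound e hk0 hq0 (ih k (by omega)) (ih q (by omega))
    hV₂ ⟨x₀, hx₂⟩ hq.1 hshape
  exact ⟨U', hU', hne', hsub.trans (Set.inter_subset_left.trans h₁V),
    fun x hx => bound_of_frame hT hu (hsub hx) (hb x hx)⟩

/-- The action of a matrix on vectors, linearly in the matrix. -/
noncomputable def actC (r : ℕ) : Mat r →ₗ[ℂ] (Fin r → ℂ) →L[ℂ] (Fin r → ℂ) where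
  toFun M := (Matrix.mulVecLin M).toContinuousLinearMap
  map_add' M N := by ext v : 1; simp
  map_smul' c M := by ext v : 1; simp

/-- The matrix of an action on vectors. -/
noncomputable def matC (r : ℕ) : ((Fin r → ℂ) →L[ℂ] (Fin r → ℂ)) →ₗ[ℂ] Mat r where
  toFun A := LinearMap.toMatrix' A.toLinearMap
  map_add' A B := by simp
  map_smul' c A := by simp

/-- Without idempotents a nonscalar element of the commutant gives the bound somewhere. -/
theorem nil_bound (ih : ∀ m < r, BoundAt m) {p : X → Pair r} {V : Set X} (hV : IsOpen V)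
    (hp : ContinuousOn p V) {x₀ : X} (hx₀ : x₀ ∈ V)
    (hmin : ∀ x ∈ V, finrank ℂ (pairCommutant (p x₀)) ≤ finrank ℂ (pairCommutant (p x)))
    (hns : ¬ PairScalar (p x₀)) (hni : ∀ x ∈ V, NoIdem (p x)) :
    ∃ U', IsOpen U' ∧ U'.Nonempty ∧ U' ⊆ V ∧ ∀ x ∈ U', Bound p x := by
  have : NeZero r := ⟨fun h => hns (pairScalar_of_le_one (by omega) _)⟩
  simp only [PairScalar, not_forall, not_exists] at hns
  obtain ⟨Z, hZA, hZB, hZc⟩ := hns
  obtain ⟨V₁, hV₁, hx₁, h₁V, -, hext⟩ := exists_commFrame hV hp hx₀ hmin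
  obtain ⟨ζ, hζ, hζ0, hζmem⟩ := hext Z ⟨hZA, hZB⟩
  let tr0 : Mat r →ₗ[ℂ] Mat r :=
    LinearMap.id - ((r : ℂ)⁻¹ • traceLinearMap (Fin r) ℂ ℂ).smulRight (1 : Mat r)
  have htr : ∀ M : Mat r, tr0 M = M - ((r : ℂ)⁻¹ * M.trace) • (1 : Mat r) := fun M => by
    simp [tr0]
  have hs : Along p V₁ fun x => tr0 (ζ x) :=
    hζ.comp fun x _ => tr0.toContinuousLinearMap.differentiableAt
  set V₂ := V₁ ∩ (fun x => tr0 (ζ x)) ⁻¹' {M | M ≠ 0} with hV₂d
  have hV₂ : IsOpen V₂ := hs.1.isOpen_inter_preimage hV₁ isOpen_ne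
  have hne₂ : V₂.Nonempty := ⟨x₀, hx₁, fun h => hZc ((r : ℂ)⁻¹ * Z.trace) (sub_eq_zero.1 (by
    rw [← htr, ← hζ0]; exact h))⟩
  let s : X → Mat r := fun x => tr0 (ζ x)
  have hM : Along p V₂ fun x => actC r (s x) :=
    (hs.mono Set.inter_subset_left).comp fun x _ =>
      (actC r).toContinuousLinearMap.differentiableAt
  obtain ⟨x₁, hx₁', hmin'⟩ := exists_min hne₂ fun x =>
    finrank ℂ (LinearMap.ker (actC r (s x) : (Fin r → ℂ) →ₗ[ℂ] (Fin r → ℂ)))
  obtain ⟨V₃, Φ, hV₃, hx₃, h₃₂, hΦ, -, hker⟩ := exists_kerFrame hV₂ hM hx₁' hmin'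
  set K := LinearMap.ker (actC r (s x₁) : (Fin r → ℂ) →ₗ[ℂ] (Fin r → ℂ)) with hK
  obtain ⟨C, hC⟩ := Submodule.exists_isCompl K
  obtain ⟨k, q, e, S, hk, hq', hS, hSK, -⟩ := exists_adapted hC
  have hr := card_eq e
  have hn : IsNilpotent (s x₁) := by
    show IsNilpotent (tr0 (ζ x₁))
    rw [htr]
    exact isNilpotent_sub_trace (hni _ (h₁V hx₁'.1)) (hζmem _ hx₁'.1)
  have hk0 : 0 < k := by
    refine Nat.pos_of_ne_zero fun h => ?_
    have hbot : LinearMap.ker (Matrix.mulVecLin (s x₁)) = ⊥ :=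
      Submodule.finrank_eq_zero.1 (hk.symm.trans h)
    have hinj := LinearMap.ker_eq_bot.1 hbot
    rw [Matrix.coe_mulVecLin, Matrix.mulVec_injective_iff_isUnit] at hinj
    exact hn.not_isUnit hinj
  have hq0 : 0 < q := by
    refine Nat.pos_of_ne_zero fun h => hx₁'.2 (ext_of_mulVec_single fun i => ?_)
    have htop : K = ⊤ := by
      have := Submodule.finrank_eq_zero.1 (hq'.symm.trans h)
      simpa [this] using hC.sup_eq_top
    have : Pi.single i 1 ∈ K := htop.ge Submodule.mem_top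
    rw [hK, LinearMap.mem_ker] at this
    rw [zero_mulVec]
    exact this
  let T : X → Mat r := fun x => matC r (Φ x) * S
  have hu : ∀ x ∈ V₃, IsUnit (T x) := fun x hx => by
    have h1 : IsUnit (Φ x).toLinearMap :=
      (LinearMap.isUnit_iff_ker_eq_bot _).2 (LinearMap.ker_eq_bot.2 (hker x hx).1.injective)
    exact (h1.map (LinearMap.toMatrixAlgEquiv' :
      ((Fin r → ℂ) →ₗ[ℂ] (Fin r → ℂ)) ≃ₐ[ℂ] Mat r)).mul hS
  have hT : Along p V₃ T :=
    hΦ.comp (Φ := fun A => matC r A * S) fun x _ =>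
      ((matC r).toContinuousLinearMap.differentiableAt).mul_const S
  have h₃V : V₃ ⊆ V := h₃₂.trans (Set.inter_subset_left.trans h₁V)
  have hq := along_cjP (hp.mono h₃V) hT hu
  have hshape : ∀ x ∈ V₃, (bl e (cjP (T x) (p x)).1).2.2 = 0 ∧
      (bl e (cjP (T x) (p x)).2).2.2 = 0 := by
    intro x hx
    have hTK : ∀ v, s x *ᵥ (T x *ᵥ v) = 0 ↔ ∀ j, v (e (.inr j)) = 0 := by
      intro v
      rw [← hSK v]
      have hTv : T x *ᵥ v = Φ x (S *ᵥ v) := by
        rw [← mulVec_mulVec]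
        exact LinearMap.toMatrix'_mulVec _ _
      have hmem : Φ x (S *ᵥ v) ∈
          LinearMap.ker (actC r (s x) : (Fin r → ℂ) →ₗ[ℂ] (Fin r → ℂ)) ↔ S *ᵥ v ∈ K := by
        rw [(hker x hx).2]
        constructor
        · rintro ⟨w, hw, hwe⟩
          rwa [← (hker x hx).1.injective hwe]
        · exact fun hw => ⟨_, hw, rfl⟩
      rw [← hmem, hTv]
      rfl
    have hcs : ∀ A, Commute (ζ x) A → Commute (s x) A := fun A hA => by
      show Commute (tr0 (ζ x)) A
      rw [htr]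
      exact hA.sub_left ((Commute.one_left A).smul_left _)
    have key : ∀ A, Commute (ζ x) A → (bl e (Ring.inverse (T x) * A * T x)).2.2 = 0 := by
      intro A hA
      refine bl_lower e fun v hv => (hTK _).1 ?_
      rw [mulVec_frame (hu x hx), mulVec_mulVec, (hcs A hA).eq, ← mulVec_mulVec, (hTK v).2 hv,
        mulVec_zero]
    have hZx := hζmem x (h₃₂ hx).1
    exact ⟨key _ hZx.1, key _ hZx.2⟩
  obtain ⟨U', hU', hne', hsub, hb⟩ := upper_bound e hk0 hq0 (ih k (by omega)) (ih q (by omega))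
    hV₃ ⟨x₁, hx₃⟩ hq.1 hshape fun x hx => noIdem_cjP (hu x hx) (hni x (h₃V hx))
  exact ⟨U', hU', hne', hsub.trans h₃V, fun x hx => bound_of_frame hT hu (hsub hx) (hb x hx)⟩

/-- The velocity bound holds in every size. -/
theorem boundAt (r : ℕ) : BoundAt r := by
  induction r using Nat.strong_induction_on with
  | _ r ih =>
    intro X _ p U hU hne hp hns
    obtain ⟨x₀, hx₀, hmin⟩ := exists_min hne fun x => finrank ℂ (pairCommutant (p x))
    obtain ⟨V, hV, hxV, hVU, hdim, -⟩ := exists_commFrame hU hp hx₀ hmin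
    have hminV : ∀ x₁ ∈ V, ∀ x ∈ V,
        finrank ℂ (pairCommutant (p x₁)) ≤ finrank ℂ (pairCommutant (p x)) := fun a ha b hb => by
      rw [hdim a ha, hdim b hb]
    by_cases h : ∀ x ∈ V, NoIdem (p x)
    · obtain ⟨U', h1, h2, h3, h4⟩ :=
        nil_bound ih hV (hp.mono hVU) hxV (hminV x₀ hxV) (hns x₀ hx₀) h
      exact ⟨U', h1, h2, h3.trans hVU, h4⟩
    · push Not at h
      obtain ⟨x₁, hx₁, hx₁'⟩ := h
      obtain ⟨U', h1, h2, h3, h4⟩ :=
        idem_bound ih hV (hp.mono hVU) hx₁ (hminV x₁ hx₁) hx₁'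
      exact ⟨U', h1, h2, h3.trans hVU, h4⟩

end PairLem

open Module in
open scoped Matrix.Norms.Operator in
/-- Generically on an open set without scalar commutant, the velocities of a continuous family of
pairs span at most `2 r ^ 2` minus the dimension of the commutant. -/
theorem pair_velocity_bound {r : ℕ} {X : Type} [TopologicalSpace X] (p : X → Pair r)
    (hp : Continuous p) {U : Set X} (hU : IsOpen U) (hne : U.Nonempty)
    (hns : ∀ x ∈ U, ¬ PairScalar (p x)) :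
    ∃ U', IsOpen U' ∧ U'.Nonempty ∧ U' ⊆ U ∧ ∀ x ∈ U', ∀ T : Submodule ℂ (Pair r),
      (∀ v ∈ T, ∃ γ : ℂ → X, γ 0 = x ∧ ContinuousAt γ 0 ∧ HasDerivAt (p ∘ γ) v 0) →
      finrank ℂ T + finrank ℂ (pairCommutant (p x)) ≤ 2 * r * r := by
  obtain ⟨U', h1, h2, h3, h4⟩ := PairLem.boundAt r X p U hU hne hp.continuousOn hns
  refine ⟨U', h1, h2, h3, fun x hx T hT => ?_⟩
  have hle : T ≤ PairLem.Tan p x := fun v hv =>
    Submodule.mem_sup_left (Submodule.subset_span (hT v hv))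
  exact (Nat.add_le_add_right (Submodule.finrank_mono hle) _).trans (h4 x hx)

end Vale.Agent.P002.Surf
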