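import Vale.Agent.P002.Surf.Defs

/-!
P002, surface groups, tools for the good locus: analytic matrix valued functions of one variable and
countability of the zeros of such functions.
-/

namespace Vale.Agent.P002.Surf

open Matrix Topology Filter

variable {r : ℕ}

/-- All entries are analytic at the point. -/
def AM (M : ℂ → Mat r) (s : ℂ) : Prop := ∀ a b, AnalyticAt ℂ (fun t => M t a b) s

/-- All coordinates are analytic at the point. -/
def AV (v : ℂ → Fin r → ℂ) (s : ℂ) : Prop := ∀ a, AnalyticAt ℂ (fun t => v t a) s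

variable {M N : ℂ → Mat r} {v w : ℂ → Fin r → ℂ} {s : ℂ}

theorem am_const (A : Mat r) : AM (fun _ => A) s := fun _ _ => analyticAt_const

theorem av_const (u : Fin r → ℂ) : AV (fun _ => u) s := fun _ => analyticAt_const

theorem AM.add (hM : AM M s) (hN : AM N s) : AM (fun t => M t + N t) s :=
  fun a b => (hM a b).add (hN a b)

theorem AM.sub (hM : AM M s) (hN : AM N s) : AM (fun t => M t - N t) s :=
  fun a b => (hM a b).sub (hN a b)

theorem AM.smul {c : ℂ → ℂ} (hc : AnalyticAt ℂ c s) (hM : AM M s) : AM (fun t => c t • M t) s :=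
  fun a b => hc.mul (hM a b)

theorem AV.add (hv : AV v s) (hw : AV w s) : AV (fun t => v t + w t) s :=
  fun a => (hv a).add (hw a)

theorem AV.sub (hv : AV v s) (hw : AV w s) : AV (fun t => v t - w t) s :=
  fun a => (hv a).sub (hw a)

theorem AV.smul {c : ℂ → ℂ} (hc : AnalyticAt ℂ c s) (hv : AV v s) : AV (fun t => c t • v t) s :=
  fun a => hc.mul (hv a)

theorem AM.mul (hM : AM M s) (hN : AM N s) : AM (fun t => M t * N t) s := by
  intro a b
  simp only [Matrix.mul_apply]
  exact Finset.analyticAt_fun_sum _ fun j _ => (hM a j).mul (hN j b)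

theorem AM.mulVec (hM : AM M s) (hv : AV v s) : AV (fun t => M t *ᵥ v t) s := by
  intro a
  simp only [Matrix.mulVec, dotProduct]
  exact Finset.analyticAt_fun_sum _ fun j _ => (hM a j).mul (hv j)

theorem AM.det (hM : AM M s) : AnalyticAt ℂ (fun t => (M t).det) s := by
  simp only [Matrix.det_apply', mul_comm]
  exact Finset.analyticAt_fun_sum _ fun σ _ =>
    (Finset.analyticAt_fun_prod _ fun j _ => hM _ _).mul analyticAt_const

theorem AM.updateCol (hM : AM M s) (j : Fin r) (hv : AV v s) :
    AM (fun t => (M t).updateCol j (v t)) s := by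
  intro a b
  by_cases h : b = j
  · simp only [h, Matrix.updateCol_self]
    exact hv a
  · simp only [Matrix.updateCol_ne h]
    exact hM a b

theorem AM.updateRow (hM : AM M s) (j : Fin r) (hv : AV v s) :
    AM (fun t => (M t).updateRow j (v t)) s := by
  intro a b
  by_cases h : a = j
  · simp only [h, Matrix.updateRow_self]
    exact hv b
  · simp only [Matrix.updateRow_ne h]
    exact hM a b

theorem AM.adjugate (hM : AM M s) : AM (fun t => (M t).adjugate) s := by
  intro a b
  simp only [Matrix.adjugate_apply]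
  exact (hM.updateRow b (av_const _)).det

theorem AM.inv (hM : AM M s) (h : (M s).det ≠ 0) : AM (fun t => (M t)⁻¹) s := by
  intro a b
  simp only [Matrix.inv_def, Ring.inverse_eq_inv']
  exact (hM.det.inv h).mul (hM.adjugate a b)

theorem AM.pow (hM : AM M s) : ∀ n : ℕ, AM (fun t => M t ^ n) s
  | 0 => by simpa using am_const 1
  | n + 1 => by simpa [pow_succ] using (AM.pow hM n).mul hM

theorem am_prod_ofFn : ∀ {n : ℕ} (F : Fin n → ℂ → Mat r), (∀ i, AM (F i) s) →
    AM (fun t => (List.ofFn fun i => F i t).prod) s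
  | 0, F, _ => by simpa using am_const 1
  | n + 1, F, hF => by
    simp only [List.ofFn_succ, List.prod_cons]
    exact (hF 0).mul (am_prod_ofFn (fun i => F i.succ) fun i => hF i.succ)

theorem analyticAt_eval {g : ℕ} (F : MvPolynomial (Var g r) ℂ) {p : ℂ → Pt g r}
    (h : ∀ i, AM (fun t => (p t i).1) s ∧ AM (fun t => (p t i).2) s) :
    AnalyticAt ℂ (fun t => evalPt F (p t)) s := by
  induction F using MvPolynomial.induction_on with
  | C a => simpa [evalPt] using analyticAt_const
  | add P Q hP hQ =>
    simp only [evalPt, map_add] at hP hQ ⊢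
    exact hP.add hQ
  | mul_X P v hP =>
    simp only [evalPt, map_mul, MvPolynomial.eval_X] at hP ⊢
    refine hP.mul ?_
    unfold entry
    cases v.2.1
    · simpa using (h v.1).2 v.2.2.1 v.2.2.2
    · simpa using (h v.1).1 v.2.2.1 v.2.2.2

theorem preconnected_of_countable_compl {W : Set ℂ} (hW : Wᶜ.Countable) : IsPreconnected W := by
  have h := hW.isPathConnected_compl_of_one_lt_rank (by simp [Complex.rank_real_complex])
  rw [compl_compl] at h
  exact h.isConnected.isPreconnected

/-- Removing the zeros of a nonzero analytic function keeps an open set with countable complement. -/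
theorem layer {W : Set ℂ} (hWo : IsOpen W) (hW : Wᶜ.Countable) {g : ℂ → ℂ}
    (hg : AnalyticOnNhd ℂ g W) {p : ℂ} (hp : p ∈ W) (hgp : g p ≠ 0) :
    IsOpen (W ∩ {t | g t ≠ 0}) ∧ (W ∩ {t | g t ≠ 0})ᶜ.Countable := by
  refine ⟨hg.continuousOn.isOpen_inter_preimage hWo isOpen_ne, ?_⟩
  set Z := W ∩ {t | g t = 0}
  have hiso : ∀ z ∈ Z, ({z} : Set ℂ) ∈ 𝓝[Z] z := by
    rintro z ⟨hzW, hz⟩
    rcases (hg z hzW).eventually_eq_zero_or_eventually_ne_zero with h | h
    · exact absurd (hg.eqOn_zero_of_preconnected_of_eventuallyEq_zero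
        (preconnected_of_countable_compl hW) hzW h hp) hgp
    · rw [mem_nhdsWithin_iff_eventually]
      rw [eventually_nhdsWithin_iff] at h
      filter_upwards [h] with t ht htZ
      by_contra hne
      exact ht hne htZ.2
  obtain ⟨T, hTZ, hT, hcov⟩ := TopologicalSpace.countable_cover_nhdsWithin hiso
  refine (hW.union hT).mono ?_
  intro t ht
  by_cases htW : t ∈ W
  · refine Or.inr ?_
    have hz : t ∈ Z := ⟨htW, by_contra fun h => ht ⟨htW, h⟩⟩
    obtain ⟨u, hu, hut⟩ := Set.mem_iUnion₂.1 (hcov hz)
    rw [Set.mem_singleton_iff] at hut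
    exact hut ▸ hu
  · exact Or.inl htW

/-- The identity theorem on a set with countable complement. -/
theorem eqOn_zero {W : Set ℂ} (hW : Wᶜ.Countable) {g : ℂ → ℂ} (hg : AnalyticOnNhd ℂ g W)
    {p : ℂ} (hp : p ∈ W) (h : g =ᶠ[𝓝 p] 0) {q : ℂ} (hq : q ∈ W) : g q = 0 :=
  hg.eqOn_zero_of_preconnected_of_eventuallyEq_zero (preconnected_of_countable_compl hW) hp h hq

end Vale.Agent.P002.Surf
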