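import Vale.Agent.P002.Surf.GoodAlg
import Vale.Agent.P002.Surf.GoodTools

/-!
P002, surface groups: the good pairs form a scale invariant open dense set of irreducible pairs.
-/

namespace Vale.Agent.P002.Surf

open Matrix Topology Filter
open Fin.NatCast

variable {r : ℕ}

/-- Both matrices of the pair are invertible. -/
def InvP (p : Pair r) : Prop := p.1.det ≠ 0 ∧ p.2.det ≠ 0

/-- The matrix of the words `C^i A C^j`. -/
noncomputable def wordMat (p : Pair r) : Matrix (Fin r × Fin r) (Fin r × Fin r) ℂ :=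
  Matrix.of fun a b => (p.2 ^ (b.1 : ℕ) * p.1 * p.2 ^ (b.2 : ℕ)) a.1 a.2

/-- The chart in which the column `o` of `C` and the intertwiner `A` are rational. -/
def Chart (o : Fin r) (p : Pair r) : Prop :=
  InvP p ∧ (hankel p.2).det ≠ 0 ∧ (kry p.2 (unitVec o)).det ≠ 0 ∧
    (lmat o (comm p) p.2).det ≠ 0

/-- The chart together with irreducibility by words. -/
def GoodAt (o : Fin r) (p : Pair r) : Prop := Chart o p ∧ (wordMat p).det ≠ 0

/-- The good pairs. -/
def GoodPair (p : Pair r) : Prop := ∃ o : Fin r, o.val = 0 ∧ GoodAt o p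

theorem det_comm_eq {p : Pair r} (h : InvP p) : (comm p).det = 1 := by
  simp only [comm, Matrix.det_mul, Matrix.det_nonsing_inv, Ring.inverse_eq_inv']
  have := h.1
  have := h.2
  field_simp

theorem kry_smul (C : Mat r) (v : Fin r → ℂ) (t : ℂ) :
    kry (t • C) v = kry C v * Matrix.diagonal fun k : Fin r => t ^ (k : ℕ) := by
  ext a k
  rw [Matrix.mul_diagonal]
  simp [kry, smul_pow, Matrix.smul_mulVec, mul_comm]

theorem hankel_smul (C : Mat r) (t : ℂ) : hankel (t • C) =
    Matrix.diagonal (fun k : Fin r => t ^ (k : ℕ)) * hankel C *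
      Matrix.diagonal fun k : Fin r => t ^ (k : ℕ) := by
  ext i j
  rw [Matrix.mul_diagonal, Matrix.diagonal_mul]
  simp [hankel, smul_pow, Matrix.trace_smul, pow_add]
  ring

theorem det_diag_pow_ne {t : ℂ} (ht : t ≠ 0) :
    (Matrix.diagonal fun k : Fin r => t ^ (k : ℕ)).det ≠ 0 := by
  rw [Matrix.det_diagonal]
  exact Finset.prod_ne_zero_iff.2 fun k _ => pow_ne_zero _ ht

theorem comm_smul {s t : ℂ} (hs : s ≠ 0) (ht : t ≠ 0) {p : Pair r} (h : InvP p) :
    comm (s • p.1, t • p.2) = comm p := by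
  have e : ∀ (c : ℂ) (X : Mat r), c ≠ 0 → X.det ≠ 0 → (c • X)⁻¹ = c⁻¹ • X⁻¹ := by
    intro c X hc hX
    refine Matrix.inv_eq_right_inv ?_
    rw [Matrix.smul_mul, Matrix.mul_smul, smul_smul, mul_inv_cancel₀ hc, one_smul,
      Matrix.mul_nonsing_inv _ (isUnit_iff_ne_zero.2 hX)]
  simp only [comm, e s p.1 hs h.1, e t p.2 ht h.2, Matrix.smul_mul, Matrix.mul_smul, smul_smul]
  rw [show t⁻¹ * (s⁻¹ * (t * s)) = 1 by field_simp, one_smul]

theorem goodPair_smul {s t : ℂ} {p : Pair r} (hs : s ≠ 0) (ht : t ≠ 0) (h : GoodPair p) :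
    GoodPair (s • p.1, t • p.2) := by
  obtain ⟨o, ho, ⟨hI, hH, hK, hL⟩, hW⟩ := h
  refine ⟨o, ho, ⟨⟨?_, ?_⟩, ?_, ?_, ?_⟩, ?_⟩
  · simpa [Matrix.det_smul, pow_ne_zero _ hs] using hI.1
  · simpa [Matrix.det_smul, pow_ne_zero _ ht] using hI.2
  · simp only [hankel_smul, Matrix.det_mul]
    exact mul_ne_zero (mul_ne_zero (det_diag_pow_ne ht) hH) (det_diag_pow_ne ht)
  · simp only [kry_smul, Matrix.det_mul]
    exact mul_ne_zero hK (det_diag_pow_ne ht)
  · rw [comm_smul hs ht hI]
    exact lmat_smul (det_comm_eq hI) ht hL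
  · have e : wordMat (s • p.1, t • p.2) =
        wordMat p * Matrix.diagonal fun b : Fin r × Fin r => s * t ^ ((b.1 : ℕ) + (b.2 : ℕ)) := by
      ext a b
      rw [Matrix.mul_diagonal]
      simp only [wordMat, Matrix.of_apply, smul_pow, Matrix.smul_mul, Matrix.mul_smul, smul_smul,
        Matrix.smul_apply, smul_eq_mul, pow_add]
      ring
    rw [e, Matrix.det_mul, Matrix.det_diagonal]
    exact mul_ne_zero hW (Finset.prod_ne_zero_iff.2 fun b _ => mul_ne_zero hs (pow_ne_zero _ ht))

theorem goodPair_irred {p : Pair r} (h : GoodPair p) : IrredPair p := by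
  obtain ⟨o, -, -, hW⟩ := h
  intro S hS
  refine or_iff_not_imp_left.2 fun hne => ?_
  obtain ⟨v, hv, hv0⟩ := (Submodule.ne_bot_iff S).1 hne
  obtain ⟨l, hl⟩ := Function.ne_iff.1 hv0
  have hpow : ∀ (n : ℕ) (w : Fin r → ℂ), w ∈ S → p.2 ^ n *ᵥ w ∈ S := by
    intro n
    induction n with
    | zero => intro w hw; simpa using hw
    | succ n ih =>
      intro w hw
      rw [pow_succ, ← Matrix.mulVec_mulVec]
      exact ih _ (hS w hw).2
  have hword : ∀ b : Fin r × Fin r, (p.2 ^ (b.1 : ℕ) * p.1 * p.2 ^ (b.2 : ℕ)) *ᵥ v ∈ S := by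
    intro b
    rw [← Matrix.mulVec_mulVec, ← Matrix.mulVec_mulVec]
    exact hpow _ _ (hS _ (hpow _ _ hv)).1
  have hsingle : ∀ k, Pi.single k (1 : ℂ) ∈ S := by
    intro k
    set c := (wordMat p)⁻¹ *ᵥ Pi.single (k, l) (1 : ℂ)
    have hc : wordMat p *ᵥ c = Pi.single (k, l) (1 : ℂ) := by
      rw [Matrix.mulVec_mulVec, Matrix.mul_nonsing_inv _ (isUnit_iff_ne_zero.2 hW),
        Matrix.one_mulVec]
    have he : ∑ b, c b • (p.2 ^ (b.1 : ℕ) * p.1 * p.2 ^ (b.2 : ℕ)) =
        Matrix.single k l (1 : ℂ) := by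
      ext a a'
      have h1 := congrFun hc (a, a')
      simp only [Matrix.mulVec, dotProduct, wordMat, Matrix.of_apply] at h1
      rw [Matrix.sum_apply]
      simp only [Matrix.smul_apply, smul_eq_mul]
      simp_rw [mul_comm (c _)]
      rw [h1]
      simp [Matrix.single_apply, Pi.single_apply, eq_comm]
    have h2 : Matrix.single k l (1 : ℂ) *ᵥ v ∈ S := by
      rw [← he, Matrix.sum_mulVec]
      exact Submodule.sum_mem _ fun b _ => by
        rw [Matrix.smul_mulVec]; exact S.smul_mem _ (hword b)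
    rw [Matrix.single_mulVec] at h2
    have h3 := S.smul_mem (v l)⁻¹ h2
    convert h3 using 1
    funext a
    by_cases ha : a = k
    · subst ha
      simp [inv_mul_cancel₀ hl]
    · simp [ha]
  rw [eq_top_iff]
  intro w _
  rw [pi_eq_sum_univ w]
  exact Submodule.sum_mem _ fun i _ => S.smul_mem _ (by
    convert hsingle i using 1
    funext a
    simp [Pi.single_apply, eq_comm])

theorem continuous_kry (v : Fin r → ℂ) : Continuous fun C : Mat r => kry C v :=
  continuous_matrix fun a k => (continuous_apply a).comp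
    ((continuous_id.pow (k : ℕ)).matrix_mulVec continuous_const)

theorem continuous_hankel : Continuous fun C : Mat r => hankel C :=
  continuous_matrix fun _ _ => (continuous_id.pow _).matrix_trace

theorem continuous_wordMat : Continuous fun p : Pair r => wordMat p :=
  continuous_matrix fun a b =>
    (((continuous_snd.pow (b.1 : ℕ)).matrix_mul continuous_fst).matrix_mul
      (continuous_snd.pow (b.2 : ℕ))).matrix_elem a.1 a.2

theorem continuous_lmat (o : Fin r) : Continuous fun q : Mat r × Mat r => lmat o q.1 q.2 := by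
  refine continuous_matrix fun k j => ?_
  simp only [lmat, Matrix.of_apply]
  split_ifs
  · exact continuous_snd.matrix_adjugate.matrix_elem o j
  · unfold diffMat
    exact (((continuous_const.sub (continuous_fst.matrix_mul continuous_snd)).matrix_adjugate
      |>.matrix_mul continuous_fst).sub
        (continuous_const.sub continuous_snd).matrix_adjugate).matrix_elem o j

theorem continuousAt_comm {p : Pair r} (h : InvP p) : ContinuousAt comm p := by
  have hi : ∀ X : Mat r, X.det ≠ 0 → ContinuousAt (fun Y : Mat r => Y⁻¹) X := by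
    intro X hX
    refine continuousAt_matrix_inv X ?_
    rw [Ring.inverse_eq_inv']
    exact continuousAt_inv₀ hX
  have h1 : ContinuousAt (fun q : Pair r => q.1⁻¹) p := (hi _ h.1).comp continuousAt_fst
  have h2 : ContinuousAt (fun q : Pair r => q.2⁻¹) p := (hi _ h.2).comp continuousAt_snd
  exact (((continuousAt_fst.mul continuousAt_snd).mul h1).mul h2)

theorem eventually_invP {p : Pair r} (h : InvP p) : ∀ᶠ q in 𝓝 p, InvP q :=
  ((continuous_fst.matrix_det.continuousAt).eventually_ne h.1).and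
    ((continuous_snd.matrix_det.continuousAt).eventually_ne h.2)

theorem eventually_lmat {o : Fin r} {p : Pair r} (h : InvP p)
    (hL : (lmat o (comm p) p.2).det ≠ 0) : ∀ᶠ q in 𝓝 p, (lmat o (comm q) q.2).det ≠ 0 :=
  (((continuous_lmat o).matrix_det).continuousAt.comp
    ((continuousAt_comm h).prodMk continuousAt_snd)).eventually_ne hL

theorem goodPair_isOpen : IsOpen {p : Pair r | GoodPair p} := by
  rw [isOpen_iff_mem_nhds]
  rintro p ⟨o, ho, ⟨hI, hH, hK, hL⟩, hW⟩
  filter_upwards [eventually_invP hI, eventually_lmat hI hL,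
    ((continuous_hankel.comp continuous_snd).matrix_det.continuousAt (x := p)).eventually_ne hH,
    (((continuous_kry (unitVec o)).comp continuous_snd).matrix_det.continuousAt
      (x := p)).eventually_ne hK,
    (continuous_wordMat.matrix_det.continuousAt (x := p)).eventually_ne hW]
    with q h1 h2 h3 h4 h5
  exact ⟨o, ho, ⟨h1, h3, h4, h2⟩, h5⟩

/-- A function analytic along curves that is nonzero at one invertible pair is nonzero densely. -/
theorem dense_cond (G : Pair r → ℂ)
    (hG : ∀ (γ : ℂ → Pair r) (s : ℂ), AM (fun t => (γ t).1) s → AM (fun t => (γ t).2) s →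
      InvP (γ s) → AnalyticAt ℂ (fun t => G (γ t)) s)
    {q : Pair r} (hq : InvP q) (hGq : G q ≠ 0) : Dense {p | InvP p ∧ G p ≠ 0} := by
  intro p
  set γ : ℂ → Pair r := fun t => p + t • (q - p) with hγ
  have h1 : γ 1 = q := by simp [hγ]
  have h0 : γ 0 = p := by simp [hγ]
  have hA : ∀ s, AM (fun t => (γ t).1) s :=
    fun s => (am_const p.1).add (AM.smul analyticAt_id (am_const (q - p).1))
  have hC : ∀ s, AM (fun t => (γ t).2) s :=
    fun s => (am_const p.2).add (AM.smul analyticAt_id (am_const (q - p).2))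
  obtain ⟨o1, c1⟩ := layer isOpen_univ (by simp)
    (g := fun t => (γ t).1.det * (γ t).2.det) (fun s _ => (hA s).det.mul (hC s).det)
    (Set.mem_univ (1 : ℂ)) (by rw [h1]; exact mul_ne_zero hq.1 hq.2)
  obtain ⟨-, c2⟩ := layer o1 c1 (g := fun t => G (γ t))
    (fun s hs => hG γ s (hA s) (hC s) ⟨left_ne_zero_of_mul hs.2, right_ne_zero_of_mul hs.2⟩)
    (p := 1) ⟨Set.mem_univ _, by simp only [Set.mem_ofPred_eq, h1]; exact mul_ne_zero hq.1 hq.2⟩
    (by rw [h1]; exact hGq)
  have hd := c2.dense_compl ℝ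
  rw [compl_compl] at hd
  have hc : Continuous γ := by fun_prop
  have := map_mem_closure hc (hd 0) (t := {p | InvP p ∧ G p ≠ 0})
    (fun t ht => ⟨⟨left_ne_zero_of_mul ht.1.2, right_ne_zero_of_mul ht.1.2⟩, ht.2⟩)
  rwa [h0] at this

/-- The distinct numbers used in the witnesses. -/
def cvec (r : ℕ) : Fin r → ℂ := fun k => ((k : ℕ) : ℂ) + 1

theorem cvec_injective : Function.Injective (cvec r) :=
  fun _ _ h => Fin.ext (Nat.cast_injective (add_right_cancel h))

theorem cvec_ne (k : Fin r) : cvec r k ≠ 0 := Nat.cast_add_one_ne_zero _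

theorem det_cvec : (Matrix.diagonal (cvec r)).det ≠ 0 := by
  rw [Matrix.det_diagonal]
  exact Finset.prod_ne_zero_iff.2 fun k _ => cvec_ne k

theorem witness_hankel : (hankel (Matrix.diagonal (cvec r))).det ≠ 0 := by
  have e : hankel (Matrix.diagonal (cvec r)) =
      (Matrix.vandermonde (cvec r))ᵀ * Matrix.vandermonde (cvec r) := by
    ext i j
    simp [hankel, Matrix.diagonal_pow, Matrix.trace_diagonal, Matrix.mul_apply,
      Matrix.vandermonde_apply, pow_add]
  rw [e, Matrix.det_mul, Matrix.det_transpose]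
  exact mul_ne_zero (Matrix.det_vandermonde_ne_zero_iff.2 cvec_injective)
    (Matrix.det_vandermonde_ne_zero_iff.2 cvec_injective)

theorem witness_word : ∃ p : Pair r, InvP p ∧ (wordMat p).det ≠ 0 := by
  refine ⟨((1 : Mat r) +
      Matrix.replicateCol Unit (fun _ : Fin r => (1 : ℂ)) * Matrix.replicateRow Unit fun _ : Fin r => (1 : ℂ),
    Matrix.diagonal (cvec r)), ⟨?_, det_cvec⟩, ?_⟩
  · simp only [Matrix.det_one_add_replicateCol_mul_replicateRow, dotProduct, mul_one,
      Finset.sum_const, Finset.card_univ, Fintype.card_fin, nsmul_eq_mul]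
    rw [add_comm]
    exact Nat.cast_add_one_ne_zero r
  · set A : Mat r :=
      (1 : Mat r) + Matrix.replicateCol Unit (fun _ : Fin r => (1 : ℂ)) * Matrix.replicateRow Unit fun _ : Fin r => (1 : ℂ)
      with hA
    have e : wordMat (A, Matrix.diagonal (cvec r)) =
        Matrix.diagonal (fun a : Fin r × Fin r => A a.1 a.2) *
          Matrix.kroneckerMap (· * ·) (Matrix.vandermonde (cvec r))
            (Matrix.vandermonde (cvec r)) := by
      ext a b
      simp [wordMat, Matrix.diagonal_pow, Matrix.diagonal_mul, Matrix.mul_diagonal,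
        Matrix.vandermonde_apply, Matrix.kroneckerMap_apply]
      ring
    rw [e, Matrix.det_mul, Matrix.det_diagonal, Matrix.det_kronecker]
    refine mul_ne_zero (Finset.prod_ne_zero_iff.2 fun a _ => ?_)
      (mul_ne_zero (pow_ne_zero _ (Matrix.det_vandermonde_ne_zero_iff.2 cvec_injective))
        (pow_ne_zero _ (Matrix.det_vandermonde_ne_zero_iff.2 cvec_injective)))
    by_cases h : a.1 = a.2
    · simp [hA, h, Matrix.mul_apply]
    · simp [hA, h, Matrix.mul_apply]

section Witness

variable [NeZero r]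

/-- The cyclic shift. -/
noncomputable def shift (r : ℕ) [NeZero r] : Mat r :=
  (Equiv.addRight (1 : Fin r)).permMatrix ℂ

theorem det_shift : (shift r).det ≠ 0 := by
  rw [shift, Matrix.det_permutation]
  exact_mod_cast Units.ne_zero _

theorem witness_kry (o : Fin r) : (kry (shift r) (unitVec o)).det ≠ 0 := by
  have hp : ∀ n : ℕ, shift r ^ n *ᵥ unitVec o = Pi.single (o - (n : Fin r)) 1 := by
    intro n
    induction n with
    | zero =>
      ext a
      simp [unitVec, Matrix.one_apply, Pi.single_apply]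
    | succ n ih =>
      rw [pow_succ', ← Matrix.mulVec_mulVec, ih, shift, Matrix.permMatrix_mulVec]
      funext a
      simp only [Function.comp_apply, Equiv.coe_addRight, Pi.single_apply, Nat.cast_succ]
      congr 1
      rw [eq_iff_iff]
      constructor <;> intro h
      · rw [← sub_sub, ← h, add_sub_cancel_right]
      · rw [h, ← sub_sub, sub_add_cancel]
  have e : kry (shift r) (unitVec o) = (1 : Mat r).submatrix id (Equiv.subLeft o) := by
    ext a k
    simp [kry, hp, Matrix.one_apply, Pi.single_apply]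
  rw [e, Matrix.det_permute']
  simp

theorem shift_mul_diagonal (c : Fin r → ℂ) :
    shift r * Matrix.diagonal c = Matrix.diagonal (fun a => c (a + 1)) * shift r := by
  ext a b
  rw [Matrix.mul_diagonal, Matrix.diagonal_mul]
  simp only [shift, Equiv.Perm.permMatrix, PEquiv.toMatrix_apply, Equiv.toPEquiv_apply,
    Option.mem_def, Option.some_inj, Equiv.coe_addRight]
  split_ifs with h
  · rw [h]; ring
  · ring

omit [NeZero r] in
theorem adjugate_eq_inv {X : Mat r} (h : X.det = 1) : X.adjugate = X⁻¹ := by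
  simp [Matrix.inv_def, h]

omit [NeZero r] in
theorem conj_adjugate {P : Mat r} (hP : P.det = 1) (d : Fin r → ℂ) :
    (P * Matrix.diagonal d * P⁻¹).adjugate =
      P * Matrix.diagonal (fun i => ∏ j ∈ Finset.univ.erase i, d j) * P⁻¹ := by
  have hu : IsUnit P.det := by rw [hP]; exact isUnit_one
  have hP' : (P⁻¹).det = 1 := by simp [Matrix.det_nonsing_inv, hP]
  rw [Matrix.adjugate_mul_distrib, Matrix.adjugate_mul_distrib, Matrix.adjugate_diagonal,
    adjugate_eq_inv hP', adjugate_eq_inv hP, Matrix.nonsing_inv_nonsing_inv _ hu, Matrix.mul_assoc]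

theorem witness_lmat (o : Fin r) :
    ∃ p : Pair r, InvP p ∧ (lmat o (comm p) p.2).det ≠ 0 := by
  set P : Mat r := (1 : Mat r).updateRow o (fun _ => 1) with hPdef
  have hP : P.det = 1 := by
    have e : (fun _ : Fin r => (1 : ℂ)) = ∑ k, (fun _ : Fin r => (1 : ℂ)) k • (1 : Mat r) k := by
      funext a
      rw [Finset.sum_apply]
      simp [Matrix.one_apply, Finset.sum_ite_eq']
    rw [hPdef, e, Matrix.det_updateRow_sum]
    simp
  have hu : IsUnit P.det := by rw [hP]; exact isUnit_one
  have hPu : IsUnit P := (Matrix.isUnit_iff_isUnit_det _).2 hu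
  have hSu : IsUnit (shift r).det := isUnit_iff_ne_zero.2 det_shift
  set c := cvec r
  set c' : Fin r → ℂ := fun a => c (a + 1)
  set e : Fin r → ℂ := fun a => c' a / c a
  set C := P * Matrix.diagonal c * P⁻¹ with hC
  set A := P * shift r * P⁻¹ with hA
  have hI : InvP (A, C) := by
    constructor <;>
      simp [hA, hC, Matrix.det_mul, Matrix.det_nonsing_inv, hP, det_shift, c, cvec_ne,
        Finset.prod_ne_zero_iff, Matrix.det_diagonal]
  have hec : ∀ a, e a * c a = c' a := fun a => div_mul_cancel₀ _ (cvec_ne a)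
  have hPP : ∀ X Y : Mat r, P * X * P⁻¹ * (P * Y * P⁻¹) = P * (X * Y) * P⁻¹ := fun X Y => by
    simp only [Matrix.mul_assoc, Matrix.nonsing_inv_mul_cancel_left _ _ hu]
  have hAC : A * C = P * Matrix.diagonal e * P⁻¹ * C * A := by
    rw [hA, hC, hPP, hPP, hPP, shift_mul_diagonal, Matrix.diagonal_mul_diagonal,
      show (fun a => e a * c a) = c' from funext hec]
  have hU : comm (A, C) = P * Matrix.diagonal e * P⁻¹ := by
    change A * C * A⁻¹ * C⁻¹ = _
    rw [hAC, Matrix.mul_nonsing_inv_cancel_right _ _ (isUnit_iff_ne_zero.2 hI.1),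
      Matrix.mul_nonsing_inv_cancel_right _ _ (isUnit_iff_ne_zero.2 hI.2)]
  refine ⟨(A, C), hI, fun h0 => ?_⟩
  obtain ⟨x, hx, hx0⟩ := Matrix.exists_mulVec_eq_zero_iff.2 h0
  obtain ⟨ha, hd⟩ := kernel_facts (det_comm_eq hI) hx0
  simp only [hU] at hd
  simp only at ha hd
  set y := P⁻¹ *ᵥ x with hy
  have hrow : ∀ (d : Fin r → ℂ), ((P * Matrix.diagonal d * P⁻¹) *ᵥ x) o = ∑ i, d i * y i := by
    intro d
    rw [← Matrix.mulVec_mulVec, ← hy, ← Matrix.mulVec_mulVec]
    simp [Matrix.mulVec, dotProduct, hPdef, Matrix.diagonal_apply]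
  have hz1 : ∀ (z : ℂ) (d : Fin r → ℂ), z • (1 : Mat r) - P * Matrix.diagonal d * P⁻¹ =
      P * Matrix.diagonal (fun i => z - d i) * P⁻¹ := by
    intro z d
    have e1 : Matrix.diagonal (fun i => z - d i) = z • (1 : Mat r) - Matrix.diagonal d := by
      rw [Matrix.smul_one_eq_diagonal, Matrix.diagonal_sub]
    rw [e1, Matrix.mul_sub, Matrix.sub_mul, Matrix.mul_smul, Matrix.mul_one, Matrix.smul_mul,
      Matrix.mul_nonsing_inv _ hu]
  have heq : ∀ z, ∑ i, (∏ j ∈ Finset.univ.erase i, (z - c' j)) * e i * y i =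
      ∑ i, (∏ j ∈ Finset.univ.erase i, (z - c j)) * y i := by
    intro z
    have h := hd z
    rw [diffMat, hC, hPP, Matrix.diagonal_mul_diagonal, show (fun a => e a * c a) = c' from
      funext hec, hz1, hz1, conj_adjugate hP, conj_adjugate hP, hPP,
      Matrix.diagonal_mul_diagonal, Matrix.sub_mulVec, Pi.sub_apply, hrow, hrow] at h
    exact sub_eq_zero.1 h
  have hstep : ∀ m, y (m - 1) / c (m - 1) = y m / c m := by
    intro m
    have h := heq (c m)
    rw [Finset.sum_eq_single (m - 1) (fun i _ hi => by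
        rw [Finset.prod_eq_zero (i := m - 1) (by simp [hi.symm]) (by simp [c']), zero_mul,
          zero_mul]) (by simp),
      Finset.sum_eq_single m (fun i _ hi => by
        rw [Finset.prod_eq_zero (i := m) (by simp [hi.symm]) (by simp), zero_mul]) (by simp)] at h
    have hprod : ∏ j ∈ Finset.univ.erase (m - 1), (c m - c' j) =
        ∏ j ∈ Finset.univ.erase m, (c m - c j) :=
      Finset.prod_equiv (Equiv.addRight (1 : Fin r))
        (fun j => by simp [eq_sub_iff_add_eq]) (fun j _ => rfl)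
    have hne : ∏ j ∈ Finset.univ.erase m, (c m - c j) ≠ 0 := Finset.prod_ne_zero_iff.2
      fun j hj => sub_ne_zero.2 fun h => Finset.ne_of_mem_erase hj (cvec_injective h).symm
    rw [hprod, mul_assoc] at h
    have h' := mul_left_cancel₀ hne h
    simp only [e, c', sub_add_cancel] at h'
    rw [eq_div_iff (cvec_ne m), ← h']
    ring
  set a := y o / c o
  have hconst : ∀ i, y i / c i = a := by
    have hn : ∀ n : ℕ, y (o - (n : Fin r)) / c (o - (n : Fin r)) = a := by
      intro n
      induction n with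
      | zero => simp [a]
      | succ n ih => rw [Nat.cast_succ, ← sub_sub, hstep, ih]
    intro i
    simpa using hn (o - i : Fin r).val
  have hy0 : ∀ i, y i = a * c i := fun i => by
    rw [← hconst i, div_mul_cancel₀ _ (cvec_ne i)]
  rw [hC, conj_adjugate hP, hrow] at ha
  have hsum : ∑ i, (∏ j ∈ Finset.univ.erase i, c j) * y i = (r : ℂ) * (a * ∏ j, c j) := by
    simp_rw [hy0, mul_left_comm _ a, Finset.prod_erase_mul _ _ (Finset.mem_univ _)]
    simp
    ring
  rw [hsum] at ha
  have ha0 : a = 0 := by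
    rcases mul_eq_zero.1 ha with h | h
    · exact absurd h (Nat.cast_ne_zero.2 (NeZero.ne r))
    · exact (mul_eq_zero.1 h).resolve_right
        (Finset.prod_ne_zero_iff.2 fun j _ => cvec_ne j)
  refine hx (Matrix.eq_zero_of_mulVec_eq_zero (M := P⁻¹) ?_ ?_)
  · simp [Matrix.det_nonsing_inv, hP]
  · funext i
    rw [← hy, hy0, ha0]
    simp

end Witness

theorem am_lmat {o : Fin r} {U C : ℂ → Mat r} {s : ℂ} (hU : AM U s) (hC : AM C s) :
    AM (fun t => lmat o (U t) (C t)) s := by
  intro k j
  simp only [lmat, Matrix.of_apply]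
  split_ifs
  · exact hC.adjugate o j
  · exact (((AM.smul analyticAt_const (am_const 1)).sub (hU.mul hC)).adjugate.mul hU |>.sub
      ((AM.smul analyticAt_const (am_const 1)).sub hC).adjugate) o j

theorem am_kry {C : ℂ → Mat r} {v : ℂ → Fin r → ℂ} {s : ℂ} (hC : AM C s) (hv : AV v s) :
    AM (fun t => kry (C t) (v t)) s :=
  fun a k => (hC.pow (k : ℕ)).mulVec hv a

theorem am_hankel {C : ℂ → Mat r} {s : ℂ} (hC : AM C s) : AM (fun t => hankel (C t)) s := by
  intro i j
  simp only [hankel, Matrix.of_apply, Matrix.trace]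
  exact Finset.analyticAt_fun_sum _ fun a _ => hC.pow _ a a

theorem goodPair_dense (hr : 2 ≤ r) : Dense {p : Pair r | GoodPair p} := by
  have : NeZero r := ⟨by omega⟩
  set o : Fin r := ⟨0, by omega⟩
  have hid : (1 : Mat r).det ≠ 0 := by simp
  have d1 : Dense {p : Pair r | InvP p ∧ (hankel p.2).det ≠ 0} :=
    dense_cond (fun p => (hankel p.2).det) (fun γ s _ hC _ => (am_hankel hC).det)
      (q := (1, Matrix.diagonal (cvec r))) ⟨hid, det_cvec⟩ witness_hankel
  have d2 : Dense {p : Pair r | InvP p ∧ (kry p.2 (unitVec o)).det ≠ 0} :=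
    dense_cond (fun p => (kry p.2 (unitVec o)).det)
      (fun γ s _ hC _ => (am_kry hC (av_const _)).det)
      (q := (1, shift r)) ⟨hid, det_shift⟩ (witness_kry o)
  obtain ⟨q3, hq3, hL⟩ := witness_lmat o
  have d3 : Dense {p : Pair r | InvP p ∧ (lmat o (comm p) p.2).det ≠ 0} :=
    dense_cond (fun p => (lmat o (comm p) p.2).det)
      (fun γ s hA hC hI => (am_lmat (U := fun t => comm (γ t))
        (((hA.mul hC).mul (hA.inv hI.1)).mul (hC.inv hI.2)) hC).det) hq3 hL
  obtain ⟨q4, hq4, hW⟩ := witness_word (r := r)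
  have d4 : Dense {p : Pair r | InvP p ∧ (wordMat p).det ≠ 0} :=
    dense_cond (fun p => (wordMat p).det)
      (fun γ s hA hC _ => by
        simp only [Matrix.det_apply', mul_comm]
        exact Finset.analyticAt_fun_sum _ fun σ _ => (Finset.analyticAt_fun_prod _ fun j _ =>
          (((hC.pow _).mul hA).mul (hC.pow _)) _ _).mul analyticAt_const) hq4 hW
  have o1 : IsOpen {p : Pair r | InvP p ∧ (hankel p.2).det ≠ 0} :=
    isOpen_iff_mem_nhds.2 fun p hp => (eventually_invP hp.1).and
      (((continuous_hankel.comp continuous_snd).matrix_det.continuousAt (x := p)).eventually_ne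
        hp.2)
  have o2 : IsOpen {p : Pair r | InvP p ∧ (kry p.2 (unitVec o)).det ≠ 0} :=
    isOpen_iff_mem_nhds.2 fun p hp => (eventually_invP hp.1).and
      ((((continuous_kry (unitVec o)).comp continuous_snd).matrix_det.continuousAt
        (x := p)).eventually_ne hp.2)
  have o3 : IsOpen {p : Pair r | InvP p ∧ (lmat o (comm p) p.2).det ≠ 0} :=
    isOpen_iff_mem_nhds.2 fun p hp => (eventually_invP hp.1).and (eventually_lmat hp.1 hp.2)
  refine (((d1.inter_of_isOpen_left d2 o1).inter_of_isOpen_left d3 (o1.inter o2)).inter_of_isOpen_left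
    d4 ((o1.inter o2).inter o3)).mono ?_
  rintro p ⟨⟨⟨h1, h2⟩, h3⟩, h4⟩
  exact ⟨o, rfl, ⟨h1.1, h1.2, h2.2, h3.2⟩, h4.2⟩

end Vale.Agent.P002.Surf
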