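import Vale.Agent.P002.Surf.Deriv

/-!
P002, surface groups: near a brick representation there are irreducible representations whose
chosen pair lies in a given open dense set.
-/

namespace Vale.Agent.P002.Surf

open Matrix Module Filter
open scoped Matrix.Norms.Operator Topology

variable {g r : ℕ}

/-- The statement of the velocity bound for pairs without scalar commutant. -/
def PairBound : Prop :=
  ∀ (r : ℕ) (X : Type) [TopologicalSpace X] (p : X → Pair r) (_ : Continuous p) (U : Set X),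
    IsOpen U → U.Nonempty → (∀ x ∈ U, ¬ PairScalar (p x)) →
    ∃ U', IsOpen U' ∧ U'.Nonempty ∧ U' ⊆ U ∧ ∀ x ∈ U', ∀ T : Submodule ℂ (Pair r),
      (∀ v ∈ T, ∃ γ : ℂ → X, γ 0 = x ∧ ContinuousAt γ 0 ∧ HasDerivAt (p ∘ γ) v 0) →
      finrank ℂ T + finrank ℂ (pairCommutant (p x)) ≤ 2 * r * r

theorem isOpen_isGL : IsOpen {y : Pt g r | IsGL y} := by
  have : {y : Pt g r | IsGL y} = ⋂ i, {y | (y i).1.det ≠ 0} ∩ {y | (y i).2.det ≠ 0} := by
    ext y
    simp [IsGL, isUnit_iff_ne_zero]
  rw [this]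
  refine isOpen_iInter_of_finite fun i => ?_
  exact (isOpen_ne.preimage (by fun_prop)).inter (isOpen_ne.preimage (by fun_prop))

/-- The projection to trace zero matrices along the scalars. -/
noncomputable def slProj (r : ℕ) [NeZero r] : Mat r →L[ℂ] slMat r :=
  LinearMap.toContinuousLinearMap
    (LinearMap.codRestrict (slMat r)
      (LinearMap.id - ((r : ℂ)⁻¹ • traceLinearMap (Fin r) ℂ ℂ).smulRight (1 : Mat r))
      fun M => by
        have hr : (r : ℂ) ≠ 0 := Nat.cast_ne_zero.2 (NeZero.ne r)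
        simp [slMat]
        field_simp
        ring)

theorem slProj_coe [NeZero r] (M : Mat r) :
    ((slProj r M : slMat r) : Mat r) = M - ((r : ℂ)⁻¹ * M.trace) • 1 := by
  simp [slProj]

theorem slProj_of_mem [NeZero r] {M : Mat r} (h : M ∈ slMat r) : slProj r M = ⟨M, h⟩ := by
  refine Subtype.ext ?_
  rw [slMat, LinearMap.mem_ker, traceLinearMap_apply] at h
  rw [slProj_coe, h]
  simp

theorem slProj_one [NeZero r] : slProj r (1 : Mat r) = 0 := by
  refine Subtype.ext ?_
  rw [slProj_coe, trace_one, Fintype.card_fin, inv_mul_cancel₀ (Nat.cast_ne_zero.2 (NeZero.ne r))]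
  simp

theorem eventually_eq_one [NeZero r] :
    ∀ᶠ M in 𝓝 (1 : Mat r), M.det = 1 → slProj r M = 0 → M = 1 := by
  classical
  let c : Mat r → ℂ := fun M => (r : ℂ)⁻¹ * M.trace
  have hc : ContinuousAt c 1 := by
    have : Continuous c := by fun_prop
    exact this.continuousAt
  have hc1 : c 1 = 1 := by simp [c, inv_mul_cancel₀ (Nat.cast_ne_zero.2 (NeZero.ne r) : (r : ℂ) ≠ 0)]
  let S : Finset ℂ := (Polynomial.nthRoots r (1 : ℂ)).toFinset.erase 1
  have hS : ∀ᶠ M in 𝓝 (1 : Mat r), c M ∉ S := by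
    refine hc.eventually (p := fun z => z ∉ S) ?_
    rw [hc1]
    exact S.finite_toSet.isClosed.isOpen_compl.eventually_mem (by simp [S])
  filter_upwards [hS] with M hM hdet hproj
  have hM' : M = c M • (1 : Mat r) := by
    have := congrArg Subtype.val hproj
    rw [slProj_coe] at this
    simpa [sub_eq_zero] using this
  have hpow : c M ^ r = 1 := by
    rw [hM', det_smul, det_one, Fintype.card_fin, mul_one] at hdet
    exact hdet
  have : c M = 1 := by
    by_contra h
    exact hM (Finset.mem_erase.2 ⟨h, Multiset.mem_toFinset.2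
      ((Polynomial.mem_nthRoots (NeZero.pos r)).2 hpow)⟩)
  rw [hM', this, one_smul]

theorem isRep_eventually [NeZero r] {x : Pt g r} (hx : IsRep x) :
    ∀ᶠ y in 𝓝 x, slProj r (relProd y) = 0 → IsRep y := by
  have hc : ContinuousAt (relProd (g := g) (r := r)) x := (contDiffAt_relProd hx.1).continuousAt
  have h1 : ∀ᶠ y in 𝓝 x, (relProd y).det = 1 → slProj r (relProd y) = 0 → relProd y = 1 :=
    hc.eventually (p := fun M => M.det = 1 → slProj r M = 0 → M = 1)
      (by rw [hx.2]; exact eventually_eq_one)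
  filter_upwards [h1, isOpen_isGL.eventually_mem hx.1] with y hy hgl hp
  exact ⟨hgl, hy (det_relProd_gl hgl) hp⟩

/-- The derivative of the trace zero part of the relation. -/
theorem hasStrictFDerivAt_slRel [NeZero r] {x : Pt g r} (hx : IsRep x) :
    HasStrictFDerivAt (fun y : Pt g r => slProj r (relProd y))
      ((slProj r).comp (dRel x).toContinuousLinearMap) x :=
  (slProj r).hasStrictFDerivAt.comp x (hasStrictFDerivAt_relProd hx)

theorem slProj_dRel [NeZero r] {x : Pt g r} (hx : IsRep x) (v : Pt g r) :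
    ((slProj r (dRel x v) : slMat r) : Mat r) = dRel x v := by
  rw [slProj_of_mem (dRel_mem_slMat hx.1 v)]

theorem exists_curve [NeZero r] {x : Pt g r} (hx : IsRep x) (hb : Brick x) {v : Pt g r}
    (hv : dRel x v = 0) :
    ∃ γ : ℂ → {y : Pt g r // IsRep y}, γ 0 = ⟨x, hx⟩ ∧ ContinuousAt γ 0 ∧
      HasDerivAt (fun t => (γ t : Pt g r)) v 0 := by
  classical
  have : @CompleteSpace (Pt g r) PseudoMetricSpace.toUniformSpace := FiniteDimensional.complete ℂ _
  set f' := (slProj r).comp (dRel x).toContinuousLinearMap with hf'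
  have hsurj : LinearMap.range (f' : Pt g r →ₗ[ℂ] slMat r) = ⊤ := by
    refine LinearMap.range_eq_top.2 fun s => ?_
    obtain ⟨u, hu⟩ := (range_dRel_of_brick hx.1 hb).ge s.2
    exact ⟨u, Subtype.ext ((slProj_dRel hx u).trans hu)⟩
  have hf := hasStrictFDerivAt_slRel hx
  have hker : v ∈ LinearMap.ker (f' : Pt g r →ₗ[ℂ] slMat r) := by
    simp [hf', hv]
  set φ := hf.implicitFunction _ _ hsurj (slProj r (relProd x)) with hφ
  have hφ0 : φ 0 = x := hf.implicitFunction_apply_image hsurj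
  have hd : HasDerivAt (fun t : ℂ => φ (t • ⟨v, hker⟩)) v 0 := by
    have h2 : HasDerivAt (fun t : ℂ => t • (⟨v, hker⟩ : LinearMap.ker (f' : Pt g r →ₗ[ℂ] slMat r)))
        ⟨v, hker⟩ 0 := ((hasDerivAt_id (0 : ℂ)).smul_const
        (⟨v, hker⟩ : LinearMap.ker (f' : Pt g r →ₗ[ℂ] slMat r))).congr_deriv (one_smul ℂ _)
    have h3 := (hf.to_implicitFunction hsurj).hasFDerivAt.comp_hasDerivAt_of_eq (0 : ℂ) h2
      (zero_smul ℂ (⟨v, hker⟩ : LinearMap.ker (f' : Pt g r →ₗ[ℂ] slMat r))).symm
    exact h3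
  have hz : φ ((0 : ℂ) • ⟨v, hker⟩) = x :=
    (congrArg φ (zero_smul ℂ (⟨v, hker⟩ : LinearMap.ker (f' : Pt g r →ₗ[ℂ] slMat r)))).trans hφ0
  have hev : ∀ᶠ t : ℂ in 𝓝 0, IsRep (φ (t • ⟨v, hker⟩)) := by
    have ht0 : Tendsto (fun t : ℂ => t • (⟨v, hker⟩ : LinearMap.ker (f' : Pt g r →ₗ[ℂ] slMat r)))
        (𝓝 0) (𝓝 0) := by
      have := (continuous_id.smul continuous_const).tendsto (0 : ℂ)
        (f := fun t : ℂ => t • (⟨v, hker⟩ : LinearMap.ker (f' : Pt g r →ₗ[ℂ] slMat r)))
      simpa using this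
    have h1 : ∀ᶠ t : ℂ in 𝓝 0,
        slProj r (relProd (φ (t • ⟨v, hker⟩))) = slProj r (relProd x) := by
      have := hf.map_implicitFunction_eq hsurj
      have hp : ∀ᶠ t : ℂ in 𝓝 0, (slProj r (relProd x), t • (⟨v, hker⟩ :
          LinearMap.ker (f' : Pt g r →ₗ[ℂ] slMat r))) ∈
          {p | slProj r (relProd (hf.implicitFunction _ _ hsurj p.1 p.2)) = p.1} :=
        (tendsto_const_nhds.prodMk_nhds ht0).eventually this
      exact hp
    have h2 : Tendsto (fun t : ℂ => φ (t • ⟨v, hker⟩)) (𝓝 0) (𝓝 x) := by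
      have := hd.continuousAt.tendsto
      rwa [hz] at this
    filter_upwards [h1, h2.eventually (isRep_eventually hx)] with t ht hrep
    refine hrep ?_
    rw [ht, hx.2, slProj_one]
  refine ⟨fun t => if h : IsRep (φ (t • ⟨v, hker⟩)) then ⟨_, h⟩ else ⟨x, hx⟩, ?_, ?_, ?_⟩
  · dsimp only
    split_ifs
    · exact Subtype.ext hz
    · rfl
  · refine (Topology.IsInducing.subtypeVal (t := {y : Pt g r | IsRep y})).continuousAt_iff.2 ?_
    refine hd.continuousAt.congr ?_
    filter_upwards [hev] with t ht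
    simp only [Function.comp_apply, dif_pos ht]
  · refine hd.congr_of_eventuallyEq ?_
    filter_upwards [hev] with t ht
    exact congrArg Subtype.val (dif_pos ht)

theorem pairCommutant_le_of_scalar {p : Pair r} (hp : PairScalar p) :
    finrank ℂ (pairCommutant p) ≤ 1 := by
  have : pairCommutant p ≤ Submodule.span ℂ {(1 : Mat r)} := fun Z hZ => by
    obtain ⟨c, rfl⟩ := hp Z hZ.1 hZ.2
    exact Submodule.smul_mem _ c (Submodule.mem_span_singleton_self _)
  exact (Submodule.finrank_mono this).trans ((finrank_span_le_card _).trans (by simp))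

theorem range_relTerm_of_scalar [NeZero r] {x : Pt g r} (hx : IsGL x) {k : Fin g}
    (hk : PairScalar (x k)) : LinearMap.range (relTerm x k) = slMat r := by
  refine Submodule.eq_of_le_of_finrank_le ?_ ?_
  · rintro _ ⟨v, rfl⟩
    rw [← dRel_single]
    exact dRel_mem_slMat hx _
  · have := rank_relTerm hx k
    have := pairCommutant_le_of_scalar hk
    have := finrank_slMat (r := r)
    omega

/-- A pair with scalar commutant makes the projection to another handle open. -/
theorem open_proj [NeZero r] {x : Pt g r} (hx : IsRep x) {i k : Fin g} (hik : i ≠ k)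
    (hk : PairScalar (x k)) {N : Set (Pt g r)} (hN : N ∈ 𝓝 x) :
    {p | ∃ y ∈ N, IsRep y ∧ y i = p} ∈ 𝓝 (x i) := by
  have : @CompleteSpace (Pt g r) PseudoMetricSpace.toUniformSpace := FiniteDimensional.complete ℂ _
  have : @CompleteSpace (slMat r × Pair r) PseudoMetricSpace.toUniformSpace :=
    FiniteDimensional.complete ℂ _
  set H' := ((slProj r).comp (dRel x).toContinuousLinearMap).prod
    (ContinuousLinearMap.proj (R := ℂ) (φ := fun _ : Fin g => Pair r) i) with hH'
  have hH : HasStrictFDerivAt (fun y : Pt g r => (slProj r (relProd y), y i)) H' x :=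
    (hasStrictFDerivAt_slRel hx).prodMk (hasStrictFDerivAt_apply i x)
  have hsurj : LinearMap.range (H' : Pt g r →ₗ[ℂ] slMat r × Pair r) = ⊤ := by
    refine LinearMap.range_eq_top.2 fun sw => ?_
    obtain ⟨s, w⟩ := sw
    have hmem : (s : Mat r) - relTerm x i w ∈ LinearMap.range (relTerm x k) := by
      rw [range_relTerm_of_scalar hx.1 hk]
      refine Submodule.sub_mem _ s.2 ?_
      rw [← dRel_single]
      exact dRel_mem_slMat hx.1 _
    obtain ⟨u, hu⟩ := hmem
    refine ⟨Pi.single k u + Pi.single i w, Prod.ext (Subtype.ext ?_) ?_⟩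
    · change ((slProj r (dRel x (Pi.single k u + Pi.single i w)) : slMat r) : Mat r) = s
      rw [slProj_dRel hx, map_add, dRel_single, dRel_single, hu, sub_add_cancel]
    · simp [hH', hik]
  have hmap := hH.map_nhds_eq_of_surj hsurj
  have hmem : N ∩ {y | slProj r (relProd y) = 0 → IsRep y} ∈ 𝓝 x :=
    inter_mem hN (isRep_eventually hx)
  have himg := image_mem_map (m := fun y : Pt g r => (slProj r (relProd y), y i)) hmem
  have himg2 := Filter.le_def.1 hmap.ge _ himg
  simp only [hx.2, slProj_one] at himg2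
  have hc : Continuous fun p : Pair r => ((0 : slMat r), p) := by fun_prop
  refine mem_of_superset (hc.continuousAt.preimage_mem_nhds himg2) ?_
  rintro p ⟨y, ⟨hyN, hyR⟩, hy⟩
  obtain ⟨h1, h2⟩ := Prod.ext_iff.1 hy
  exact ⟨y, hyN, hyR h1, h2⟩

/-- Words in a pair. -/
noncomputable def brickWord (p : Pair r) : Matrix (Fin r × Fin r) (Fin r × Fin r) ℂ :=
  of fun kl ij => (p.1 ^ (kl.1 : ℕ) * p.2 * p.1 ^ (kl.2 : ℕ)) ij.1 ij.2

/-- The pairs in which these words span all matrices. -/
def WordGood (p : Pair r) : Prop := (brickWord p).det ≠ 0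

theorem continuous_brickWord : Continuous fun p : Pair r => brickWord p := by
  refine continuous_matrix fun kl ij => ?_
  exact ((((continuous_fst.pow _).mul continuous_snd).mul (continuous_fst.pow _))).matrix_elem _ _

theorem isOpen_wordGood : IsOpen {p : Pair r | WordGood p} :=
  isOpen_ne.preimage continuous_brickWord.matrix_det

theorem exists_wordGood : ∃ p : Pair r, WordGood p := by
  refine ⟨(diagonal fun i => ((i : ℕ) : ℂ), of fun _ _ => 1), ?_⟩
  set V : Mat r := vandermonde fun i => ((i : ℕ) : ℂ)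
  have hW : brickWord ((diagonal fun i => ((i : ℕ) : ℂ), of fun _ _ => 1) : Pair r)
      = (kroneckerMap (· * ·) V V)ᵀ := by
    ext ⟨k, l⟩ ⟨i, j⟩
    simp [brickWord, diagonal_pow, diagonal_mul, mul_diagonal, V, vandermonde_apply]
  rw [WordGood, hW, det_transpose, det_kronecker]
  have hV : V.det ≠ 0 := det_vandermonde_ne_zero_iff.2 fun i j h => Fin.ext (by exact_mod_cast h)
  exact mul_ne_zero (pow_ne_zero _ hV) (pow_ne_zero _ hV)

theorem dense_wordGood : Dense {p : Pair r | WordGood p} := by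
  intro p
  obtain ⟨w, hw⟩ := exists_wordGood (r := r)
  rw [mem_closure_iff_frequently]
  by_contra hcon
  rw [not_frequently] at hcon
  set f : ℂ → ℂ := fun t => (brickWord (p + t • (w - p))).det with hf
  have hA : ∀ (n : ℕ), Differentiable ℂ fun t : ℂ => (p.1 + t • (w.1 - p.1)) ^ n :=
    fun n => (by fun_prop : Differentiable ℂ fun t : ℂ => p.1 + t • (w.1 - p.1)).pow n
  have hdiff : Differentiable ℂ f := by
    simp only [hf, det_apply, brickWord, of_apply, Prod.fst_add, Prod.snd_add, Prod.smul_fst,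
      Prod.smul_snd, Prod.fst_sub, Prod.snd_sub]
    refine Differentiable.fun_sum fun σ _ => Differentiable.const_smul ?_ _
    refine Differentiable.fun_finsetProd fun kl _ => ?_
    have hM := ((hA (σ kl).1).mul (by fun_prop : Differentiable ℂ
      fun t : ℂ => p.2 + t • (w.2 - p.2))).mul (hA (σ kl).2)
    exact differentiable_pi.1 (differentiable_pi.1 hM kl.1) kl.2
  have h0 : f =ᶠ[𝓝 0] 0 := by
    have hc : Continuous fun t : ℂ => p + t • (w - p) := by fun_prop
    have := hc.tendsto 0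
    rw [zero_smul, add_zero] at this
    filter_upwards [this.eventually hcon] with t ht
    simpa [WordGood] using ht
  have := AnalyticOnNhd.eqOn_zero_of_preconnected_of_eventuallyEq_zero
    (f := f) (U := Set.univ) (fun z _ => hdiff.analyticAt z) isPreconnected_univ
    (Set.mem_univ 0) h0 (Set.mem_univ 1)
  apply hw
  simpa [hf] using this

theorem mem_span_words {p : Pair r} (hp : WordGood p) (M : Mat r) :
    ∃ c : Fin r × Fin r → ℂ, M = ∑ kl, c kl • (p.1 ^ (kl.1 : ℕ) * p.2 * p.1 ^ (kl.2 : ℕ)) := by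
  refine ⟨(fun ij => M ij.1 ij.2) ᵥ* (brickWord p)⁻¹, ?_⟩
  have h : ((fun ij => M ij.1 ij.2) ᵥ* (brickWord p)⁻¹) ᵥ* brickWord p = fun ij => M ij.1 ij.2 := by
    rw [vecMul_vecMul, nonsing_inv_mul _ (isUnit_iff_ne_zero.2 hp), vecMul_one]
  ext i j
  have h2 := congrFun h (i, j)
  simp only [Matrix.sum_apply, Matrix.smul_apply, smul_eq_mul]
  exact h2.symm

theorem irred_of_wordGood {x : Pt g r} {i : Fin g} (hp : WordGood (x i)) : Irred x := by
  intro W hW
  by_contra hne
  rw [not_or] at hne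
  obtain ⟨w, hw, hw0⟩ := (Submodule.ne_bot_iff W).1 hne.1
  obtain ⟨l, hl⟩ := Function.ne_iff.1 hw0
  have hpow : ∀ (n : ℕ) (v : Fin r → ℂ), v ∈ W → (x i).1 ^ n *ᵥ v ∈ W := by
    intro n
    induction n with
    | zero => intro v hv; simpa using hv
    | succ n ih =>
      intro v hv
      rw [pow_succ, ← mulVec_mulVec]
      exact ih _ (hW i v hv).1
  refine hne.2 (eq_top_iff.2 fun u _ => ?_)
  obtain ⟨c, hc⟩ := mem_span_words hp (vecMulVec u (Pi.single l (w l)⁻¹))
  have e : u = vecMulVec u (Pi.single l (w l)⁻¹) *ᵥ w := by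
    ext k
    simp [vecMulVec_mulVec, inv_mul_cancel₀ hl]
  rw [e, hc, sum_mulVec]
  refine Submodule.sum_mem _ fun kl _ => ?_
  rw [smul_mulVec, ← mulVec_mulVec, ← mulVec_mulVec]
  exact Submodule.smul_mem _ _ (hpow _ _ (hW i _ (hpow _ _ hw)).2)

theorem pairScalar_of_wordGood [NeZero r] {p : Pair r} (hp : WordGood p) : PairScalar p := by
  intro Z hA hB
  have hall : ∀ M : Mat r, Commute Z M := fun M => by
    obtain ⟨c, rfl⟩ := mem_span_words hp M
    exact Commute.sum_right _ _ _ fun kl _ =>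
      (((hA.pow_right _).mul_right hB).mul_right (hA.pow_right _)).smul_right _
  refine ⟨Z 0 0, ?_⟩
  ext i j
  have h1 := congrFun (congrFun (hall (Matrix.single j 0 1)).eq i) 0
  by_cases hij : i = j
  · subst hij
    simpa using h1
  · simpa [hij, Ne.symm hij] using h1

theorem brick_of_pairScalar {x : Pt g r} {i : Fin g} (h : PairScalar (x i)) : Brick x :=
  fun Z hZ => h Z (hZ i).1 (hZ i).2

/-- The commutators of the tuple with a matrix. -/
noncomputable def commMap : Pt g r →ₗ[ℂ] Mat r →ₗ[ℂ] Pt g r :=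
  LinearMap.mk₂ ℂ (fun y Z i => (Z * (y i).1 - (y i).1 * Z, Z * (y i).2 - (y i).2 * Z))
    (fun y y' Z => by ext i : 1; simp [mul_add, add_mul, add_sub_add_comm])
    (fun c y Z => by ext i : 1; simp [smul_sub])
    (fun y Z Z' => by ext i : 1; simp [mul_add, add_mul, add_sub_add_comm])
    (fun c y Z => by ext i : 1; simp [smul_sub])

theorem commMap_eq_zero_iff {y : Pt g r} {Z : Mat r} :
    commMap y Z = 0 ↔ ∀ i, Commute Z (y i).1 ∧ Commute Z (y i).2 := by
  simp [funext_iff, commMap, sub_eq_zero, Commute, SemiconjBy]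

theorem eventually_brick [NeZero r] {x : Pt g r} (hb : Brick x) : ∀ᶠ y in 𝓝 x, Brick y := by
  let K : Pt g r →ₗ[ℂ] slMat r →L[ℂ] Pt g r :=
    (LinearMap.toContinuousLinearMap : (slMat r →ₗ[ℂ] Pt g r) ≃ₗ[ℂ] _).toLinearMap ∘ₗ
      (LinearMap.lcomp ℂ (Pt g r) (slMat r).subtype) ∘ₗ commMap
  have hKc : Continuous fun y : Pt g r => K y := by
    refine continuous_clm_apply.2 fun Z => ?_
    change Continuous fun y : Pt g r => commMap y (Z : Mat r)
    simp only [commMap, LinearMap.mk₂_apply]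
    fun_prop
  have hinj : Function.Injective (K x) := by
    rw [injective_iff_map_eq_zero]
    rintro ⟨Z, hZ⟩ h
    have h' : commMap x Z = 0 := h
    obtain ⟨c, rfl⟩ := hb Z (commMap_eq_zero_iff.1 h')
    refine Subtype.ext ?_
    simp [slMat, NeZero.ne r] at hZ
    simp [hZ]
  filter_upwards [(hKc.continuousAt (x := x)).eventually
    (ContinuousLinearMap.isOpen_injective.eventually_mem hinj)] with y hy
  intro Z hZ
  refine ⟨(r : ℂ)⁻¹ * Z.trace, ?_⟩
  have h0 : K y (slProj r Z) = 0 := by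
    change commMap y ((slProj r Z : slMat r) : Mat r) = 0
    rw [commMap_eq_zero_iff, slProj_coe]
    intro i
    exact ⟨(hZ i).1.sub_left ((Commute.one_left _).smul_left _),
      (hZ i).2.sub_left ((Commute.one_left _).smul_left _)⟩
  have := congrArg Subtype.val ((injective_iff_map_eq_zero _).1 hy _ h0)
  rw [slProj_coe] at this
  simpa [sub_eq_zero] using this

/-- Near a brick representation there is one with a scalar pair among two given handles. -/
theorem exists_scalar_pair [NeZero r] (PB : PairBound) {x : Pt g r} (hx : IsRep x) (hb : Brick x)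
    {i j : Fin g} (hij : i ≠ j) {N : Set (Pt g r)} (hN : N ∈ 𝓝 x) :
    ∃ y ∈ N, IsRep y ∧ (PairScalar (y i) ∨ PairScalar (y j)) := by
  by_contra hcon
  push Not at hcon
  obtain ⟨U₀, hU₀s, hU₀, hxU₀⟩ := mem_nhds_iff.1 (inter_mem hN (eventually_brick hb))
  let X := {y : Pt g r // IsRep y}
  let U : Set X := Subtype.val ⁻¹' U₀
  have hpc : ∀ k : Fin g, Continuous fun y : X => (y : Pt g r) k :=
    fun k => (continuous_apply k).comp continuous_subtype_val
  obtain ⟨U₁, hU₁o, hU₁ne, hU₁s, hU₁⟩ := PB r X (fun y => (y : Pt g r) i) (hpc i) U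
    (hU₀.preimage continuous_subtype_val) ⟨⟨x, hx⟩, hxU₀⟩
    fun y hy => (hcon y (hU₀s hy).1 y.2).1
  obtain ⟨U₂, -, ⟨y, hy⟩, hU₂s, hU₂⟩ := PB r X (fun y => (y : Pt g r) j) (hpc j) U₁
    hU₁o hU₁ne fun y hy => (hcon y (hU₀s (hU₁s hy)).1 y.2).2
  have hby : Brick (y : Pt g r) := (hU₀s (hU₁s (hU₂s hy))).2
  have hcur : ∀ k : Fin g, ∀ v ∈ (LinearMap.ker (dRel (y : Pt g r))).map
      (LinearMap.proj k : Pt g r →ₗ[ℂ] Pair r),
      ∃ γ : ℂ → X, γ 0 = y ∧ ContinuousAt γ 0 ∧
        HasDerivAt ((fun z : X => (z : Pt g r) k) ∘ γ) v 0 := by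
    rintro k _ ⟨u, hu, rfl⟩
    obtain ⟨γ, h0, hc, hd⟩ := exists_curve y.2 hby (LinearMap.mem_ker.1 hu)
    exact ⟨γ, h0, hc, hasDerivAt_pi.1 hd k⟩
  have b1 := hU₁ y (hU₂s hy) _ (hcur i)
  have b2 := hU₂ y hy _ (hcur j)
  have l1 := finrank_tangent_proj y.2.1 hby (i := i) hij.symm
  have l2 := finrank_tangent_proj y.2.1 hby (i := j) hij
  simp only [mul_assoc] at b1 b2
  omega

/-- A brick representation is a limit of irreducible ones with the chosen pair in a dense open
set. -/
theorem mem_closure_of_brick [NeZero r] (PB : PairBound) (hg : 2 ≤ g) (i0 : Fin g)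
    {P : Set (Pair r)} (hPo : IsOpen P) (hPd : Dense P) {x : Pt g r} (hx : IsRep x)
    (hb : Brick x) : x ∈ closure {y | IsRep y ∧ Irred y ∧ y i0 ∈ P} := by
  have : Nontrivial (Fin g) := Fin.nontrivial_iff_two_le.2 hg
  obtain ⟨j0, hj0⟩ := exists_ne i0
  rw [mem_closure_iff]
  intro o ho hxo
  obtain ⟨y, hyN, hy, hs⟩ := exists_scalar_pair PB hx hb hj0.symm (ho.mem_nhds hxo)
  -- make the other pair scalar
  obtain ⟨z, hzN, hz, hzs⟩ : ∃ z ∈ o, IsRep z ∧ PairScalar (z j0) := by
    rcases hs with hs | hs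
    · obtain ⟨q, hq, ⟨z, hzN, hz, rfl⟩⟩ := dense_wordGood.inter_nhds_nonempty
        (open_proj hy hj0 hs (ho.mem_nhds hyN))
      exact ⟨z, hzN, hz, pairScalar_of_wordGood hq⟩
    · exact ⟨y, hyN, hy, hs⟩
  obtain ⟨q, hq, ⟨w, hwN, hw, rfl⟩⟩ := (hPd.inter_of_isOpen_left dense_wordGood hPo).inter_nhds_nonempty
    (open_proj hz hj0.symm hzs (ho.mem_nhds hzN))
  exact ⟨w, hwN, hw, irred_of_wordGood hq.2, hq.1⟩

end Vale.Agent.P002.Surf
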