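import Vale.Agent.P002.Surf.GoodCond

/-!
P002, surface groups: if all representations near one good point are forced, then every good point
is forced.  Two good points are joined by a curve in a rational chart; the norm over the branches of
`det A ^ (-1 / r)` of a polynomial on the curve is analytic, and the branches are connected by a
loop in the centraliser of `C`.
-/

namespace Vale.Agent.P002.Surf

open Matrix Topology Filter

variable {r n : ℕ}

theorem AM.continuousAt {M : ℂ → Mat r} {s : ℂ} (hM : AM M s) : ContinuousAt M s :=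
  continuousAt_pi.2 fun a => continuousAt_pi.2 fun b => (hM a b).continuousAt

theorem AM.comm' {A C : ℂ → Mat r} {s : ℂ} (hA : AM A s) (hC : AM C s)
    (h : InvP (A s, C s)) : AM (fun t => comm (A t, C t)) s :=
  ((hA.mul hC).mul (hA.inv h.1)).mul (hC.inv h.2)

theorem av_rhs {o : Fin r} {U C : ℂ → Mat r} {s : ℂ} (hU : AM U s) (hC : AM C s) :
    AV (fun t => rhs o (U t) (C t)) s := by
  intro k
  simp only [rhs]
  split_ifs
  · exact analyticAt_const
  · exact ((((AM.smul analyticAt_const (am_const 1)).sub (hU.mul hC)).adjugate.sub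
      ((AM.smul analyticAt_const (am_const 1)).sub hC).adjugate).mulVec (av_const _)) o

/-- The affine segment. -/
noncomputable def lin {E : Type*} [AddCommGroup E] [Module ℂ E] (a b : E) (s : ℂ) : E :=
  (1 - s) • a + s • b

theorem lin_zero {E : Type*} [AddCommGroup E] [Module ℂ E] (a b : E) : lin a b 0 = a := by
  simp [lin]

theorem lin_one {E : Type*} [AddCommGroup E] [Module ℂ E] (a b : E) : lin a b 1 = b := by
  simp [lin]

theorem am_lin (A B : Mat r) (s : ℂ) : AM (lin A B) s :=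
  (AM.smul (analyticAt_const.sub analyticAt_id) (am_const A)).add
    (AM.smul analyticAt_id (am_const B))

theorem av_lin (a b : Fin r → ℂ) (s : ℂ) : AV (lin a b) s :=
  (AV.smul (analyticAt_const.sub analyticAt_id) (av_const a)).add
    (AV.smul analyticAt_id (av_const b))

/-- The matrix with column `o` rescaled to make the determinant one. -/
noncomputable def nrm (o : Fin r) (X : Mat r) : Mat r :=
  X.updateCol o (X.det⁻¹ • fun a => X a o)

theorem updateCol_col (X : Mat r) (o : Fin r) : X.updateCol o (fun a => X a o) = X := by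
  ext a b
  by_cases hb : b = o
  · simp [hb]
  · simp [Matrix.updateCol_ne hb]

theorem det_nrm {o : Fin r} {X : Mat r} (h : X.det ≠ 0) : (nrm o X).det = 1 := by
  rw [nrm, Matrix.det_updateCol_smul, updateCol_col, inv_mul_cancel₀ h]

theorem nrm_eq {o : Fin r} {X : Mat r} (h : X.det = 1) : nrm o X = X := by
  rw [nrm, h, inv_one, one_smul, updateCol_col]

theorem am_nrm {o : Fin r} {X : ℂ → Mat r} {s : ℂ} (hX : AM X s) (h : (X s).det ≠ 0) :
    AM (fun t => nrm o (X t)) s :=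
  hX.updateCol o (AV.smul (hX.det.inv h) fun a => hX a o)

theorem relProd_succ (x : Pt (n + 1) r) :
    relProd x = comm (x 0) * relProd fun i : Fin n => x i.succ := by
  simp [relProd, List.ofFn_succ]

theorem det_relProd {g : ℕ} {x : Pt g r} (h : ∀ i, InvP (x i)) : (relProd x).det = 1 := by
  rw [← Matrix.coe_detMonoidHom, relProd, map_list_prod]
  refine List.prod_eq_one fun a ha => ?_
  simp only [List.map_ofFn, List.mem_ofFn, Function.comp_apply] at ha
  obtain ⟨i, rfl⟩ := ha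
  exact det_comm_eq (h i)

theorem invP_of_det {p : Pair r} (h1 : p.1.det = 1) (h2 : p.2.det = 1) : InvP p :=
  ⟨by rw [h1]; exact one_ne_zero, by rw [h2]; exact one_ne_zero⟩

theorem conj_pow_eq {A : Mat r} (hA : A.det ≠ 0) (C : Mat r) (k : ℕ) :
    (A * C * A⁻¹) ^ k = A * C ^ k * A⁻¹ := by
  have hu : IsUnit A.det := isUnit_iff_ne_zero.2 hA
  induction k with
  | zero => simp [Matrix.mul_nonsing_inv _ hu]
  | succ k ih =>
    rw [pow_succ, ih, pow_succ]
    simp only [Matrix.mul_assoc, Matrix.nonsing_inv_mul_cancel_left _ _ hu]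

theorem kry_conj {A : Mat r} (hA : A.det ≠ 0) (C : Mat r) (v : Fin r → ℂ) :
    kry (A * C * A⁻¹) (A *ᵥ v) = A * kry C v := by
  refine Matrix.ext_of_mulVec_single fun k => ?_
  rw [kry_col, conj_pow_eq hA, ← Matrix.mulVec_mulVec _ A (kry C v), kry_col, Matrix.mulVec_mulVec,
    Matrix.nonsing_inv_mul_cancel_right _ _ (isUnit_iff_ne_zero.2 hA), ← Matrix.mulVec_mulVec]

/-- At a chart point the chart gives back the point. -/
theorem endpoint {o : Fin r} {p : Pair r} (hp : Chart o p) (hC : p.2.det = 1) :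
    p.2.updateCol o ((lmat o (comm p) p.2)⁻¹ *ᵥ rhs o (comm p) p.2) = p.2 ∧
      (kry (comm p * p.2) (p.1 *ᵥ unitVec o)).det ≠ 0 ∧
        kry (comm p * p.2) (p.1 *ᵥ unitVec o) * (kry p.2 (unitVec o))⁻¹ = p.1 := by
  obtain ⟨⟨hA, hC0⟩, -, hK, hL⟩ := hp
  have e : comm p * p.2 = p.1 * p.2 * p.1⁻¹ := by
    rw [comm, Matrix.nonsing_inv_mul_cancel_right _ _ (isUnit_iff_ne_zero.2 hC0)]
  have hcp : (comm p * p.2).charpoly = p.2.charpoly := by
    rw [e]
    have hu : IsUnit p.1 := (Matrix.isUnit_iff_isUnit_det _).2 (isUnit_iff_ne_zero.2 hA)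
    have := Matrix.charpoly_units_conj hu.unit p.2
    rwa [IsUnit.unit_spec] at this
  refine ⟨?_, ?_⟩
  · rw [← system_of_charpoly hC hcp, Matrix.mulVec_mulVec,
      Matrix.nonsing_inv_mul _ (isUnit_iff_ne_zero.2 hL), Matrix.one_mulVec, updateCol_col]
  · rw [e, kry_conj hA, Matrix.det_mul]
    exact ⟨mul_ne_zero hA hK,
      Matrix.mul_nonsing_inv_cancel_right _ _ (isUnit_iff_ne_zero.2 hK)⟩

/-- The product over all `r`-th roots does not depend on the chosen root. -/
theorem prod_roots_congr (hr : 0 < r) {b c : ℂ} (hc : c ≠ 0) (h : b ^ r = c ^ r) (f : ℂ → ℂ) :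
    ∏ z ∈ Polynomial.nthRootsFinset r (1 : ℂ), f (z * b) =
      ∏ z ∈ Polynomial.nthRootsFinset r (1 : ℂ), f (z * c) := by
  have hb : b ≠ 0 := by
    rintro rfl
    rw [zero_pow hr.ne'] at h
    exact pow_ne_zero _ hc h.symm
  refine Finset.prod_nbij' (fun z => z * (b / c)) (fun z => z * (c / b)) ?_ ?_ ?_ ?_ ?_
  · intro z hz
    rw [Polynomial.mem_nthRootsFinset hr] at hz ⊢
    rw [mul_pow, hz, one_mul, div_pow, h, div_self (pow_ne_zero _ hc)]
  · intro z hz
    rw [Polynomial.mem_nthRootsFinset hr] at hz ⊢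
    rw [mul_pow, hz, one_mul, div_pow, h, div_self (pow_ne_zero _ hc)]
  · intro z _; field_simp
  · intro z _; field_simp
  · intro z _
    congr 1
    field_simp

/-- The norm over the branches of the `r`-th root of an analytic function is analytic. -/
theorem analyticAt_norm (hr : 0 < r) {s : ℂ} {d : ℂ → ℂ} (hd : AnalyticAt ℂ d s) (h0 : d s ≠ 0)
    (Φ : ℂ → ℂ → ℂ) (hΦ : ∀ b : ℂ → ℂ, AnalyticAt ℂ b s → AnalyticAt ℂ (fun t => Φ (b t) t) s) :
    AnalyticAt ℂ
      (fun t => ∏ z ∈ Polynomial.nthRootsFinset r (1 : ℂ), Φ (z * d t ^ ((r : ℂ)⁻¹)) t) s := by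
  have hb : AnalyticAt ℂ (fun t => d s ^ ((r : ℂ)⁻¹) * (d t / d s) ^ ((r : ℂ)⁻¹)) s :=
    analyticAt_const.mul ((hd.div analyticAt_const h0).cpow analyticAt_const
      (by simp [div_self h0]))
  refine (Finset.analyticAt_fun_prod (Polynomial.nthRootsFinset r (1 : ℂ))
    (f := fun z t => Φ (z * (d s ^ ((r : ℂ)⁻¹) * (d t / d s) ^ ((r : ℂ)⁻¹))) t)
    fun z _ => hΦ (fun t => z * (d s ^ ((r : ℂ)⁻¹) * (d t / d s) ^ ((r : ℂ)⁻¹)))
      (analyticAt_const.mul hb)).congr ?_
  filter_upwards [hd.continuousAt.eventually_ne h0] with t ht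
  refine prod_roots_congr hr ?_ ?_ (fun u => Φ u t)
  · intro h
    exact ht (by rw [← Complex.cpow_nat_inv_pow (d t) hr.ne', h, zero_pow hr.ne'])
  · rw [mul_pow, Complex.cpow_nat_inv_pow _ hr.ne', Complex.cpow_nat_inv_pow _ hr.ne',
      Complex.cpow_nat_inv_pow _ hr.ne', mul_div_cancel₀ _ h0]

/-- Two chart points are joined: a polynomial vanishing near the first one vanishes at the second
one after multiplying `A` by some `r`-th root of unity. -/
theorem reach {o : Fin r} {y1 y : Pt (n + 1) r} (h1 : IsSLRep y1) (h : IsSLRep y)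
    (c1 : Chart o (y1 0)) (c2 : Chart o (y 0)) (F : MvPolynomial (Var (n + 1) r) ℂ)
    (hnear : ∀ᶠ x in 𝓝 y1, IsSLRep x → evalPt F x = 0) :
    ∃ u : ℂ, u ^ r = 1 ∧ evalPt F (Function.update y 0 (u • (y 0).1, (y 0).2)) = 0 := by
  have hr : 0 < r := Fin.pos o
  set X : ℂ → Fin n → Pair r := fun s i =>
    (lin (y1 i.succ).1 (y i.succ).1 s, lin (y1 i.succ).2 (y i.succ).2 s)
  set Y : ℂ → Pt n r := fun s i => (nrm o (X s i).1, nrm o (X s i).2) with hY
  set U : ℂ → Mat r := fun s => (relProd (Y s))⁻¹ with hUdef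
  set D : ℂ → Mat r := lin (y1 0).2 (y 0).2
  set L : ℂ → Mat r := fun s => lmat o (U s) (D s)
  set C : ℂ → Mat r := fun s => (D s).updateCol o ((L s)⁻¹ *ᵥ rhs o (U s) (D s)) with hCdef
  set w : ℂ → Fin r → ℂ := lin ((y1 0).1 *ᵥ unitVec o) ((y 0).1 *ᵥ unitVec o)
  set K : ℂ → Mat r := fun s => kry (C s) (unitVec o)
  set K' : ℂ → Mat r := fun s => kry (U s * C s) (w s)
  set A : ℂ → Mat r := fun s => K' s * (K s)⁻¹ with hAdef
  set d : ℂ → ℂ := fun s => (A s).det⁻¹ with hddef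
  set pt : ℂ → ℂ → Pt (n + 1) r := fun b s => Fin.cons (b • A s, C s) (Y s) with hpt
  have ends : ∀ (p : Pt (n + 1) r) (s : ℂ), IsSLRep p → Chart o (p 0) →
      D s = (p 0).2 → w s = (p 0).1 *ᵥ unitVec o → (∀ i, X s i = p i.succ) →
      (∀ i, (X s i).1.det ≠ 0 ∧ (X s i).2.det ≠ 0) ∧ (L s).det ≠ 0 ∧
        (K s).det * (K' s).det ≠ 0 ∧ (Y s = fun i => p i.succ) ∧ C s = (p 0).2 ∧
        A s = (p 0).1 ∧ d s = 1 := by
    intro p s hp hc eD ew eX
    have hXd : ∀ i, (X s i).1.det = 1 ∧ (X s i).2.det = 1 := fun i => by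
      rw [eX]; exact hp.1 i.succ
    have eY : Y s = fun i => p i.succ := by
      funext i
      simp only [hY, nrm_eq (hXd i).1, nrm_eq (hXd i).2]
      exact eX i
    have eU : U s = comm (p 0) := by
      simp only [hUdef, eY]
      exact Matrix.inv_eq_left_inv (by rw [← relProd_succ]; exact hp.2)
    obtain ⟨eC, hK', eA⟩ := endpoint hc (hp.1 0).2
    have eC' : C s = (p 0).2 := by
      simp only [hCdef, L, eU, eD]; exact eC
    have eA' : A s = (p 0).1 := by
      simp only [hAdef, K, K', eU, ew, eC']; exact eA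
    refine ⟨fun i => invP_of_det (hXd i).1 (hXd i).2, ?_, mul_ne_zero ?_ ?_, eY, eC', eA', ?_⟩
    · simp only [L, eU, eD]; exact hc.2.2.2
    · simp only [K, eC']; exact hc.2.2.1
    · simp only [K', eU, ew, eC']; exact hK'
    · simp only [hddef, eA', (hp.1 0).1, inv_one]
  obtain ⟨hX0, hL0, hK0, eY0, eC0, eA0, ed0⟩ :=
    ends y1 0 h1 c1 (lin_zero _ _) (lin_zero _ _) fun i => Prod.ext (lin_zero _ _) (lin_zero _ _)
  obtain ⟨hX1, hL1, hK1, eY1, eC1, eA1, ed1⟩ :=
    ends y 1 h c2 (lin_one _ _) (lin_one _ _) fun i => Prod.ext (lin_one _ _) (lin_one _ _)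
  have hX : ∀ s i, AM (fun t => (X t i).1) s ∧ AM (fun t => (X t i).2) s :=
    fun s i => ⟨am_lin _ _ s, am_lin _ _ s⟩
  obtain ⟨o1, c1'⟩ := layer isOpen_univ (by simp)
    (g := fun s => ∏ i, (X s i).1.det * (X s i).2.det)
    (fun s _ => Finset.analyticAt_fun_prod _ fun i _ => (hX s i).1.det.mul (hX s i).2.det)
    (Set.mem_univ (0 : ℂ))
    (Finset.prod_ne_zero_iff.2 fun i _ => mul_ne_zero (hX0 i).1 (hX0 i).2)
  set W1 := Set.univ ∩ {s : ℂ | ∏ i, (X s i).1.det * (X s i).2.det ≠ 0}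
  have hXne : ∀ s ∈ W1, ∀ i, (X s i).1.det ≠ 0 ∧ (X s i).2.det ≠ 0 := fun s hs i =>
    mul_ne_zero_iff.1 (Finset.prod_ne_zero_iff.1 hs.2 i (Finset.mem_univ i))
  have hYI : ∀ s ∈ W1, ∀ i, InvP (Y s i) := fun s hs i =>
    invP_of_det (det_nrm (hXne s hs i).1) (det_nrm (hXne s hs i).2)
  have hYA : ∀ s ∈ W1, ∀ i, AM (fun t => (Y t i).1) s ∧ AM (fun t => (Y t i).2) s :=
    fun s hs i => ⟨am_nrm (hX s i).1 (hXne s hs i).1, am_nrm (hX s i).2 (hXne s hs i).2⟩
  have hUA : ∀ s ∈ W1, AM U s := fun s hs =>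
    (am_prod_ofFn (fun i t => comm (Y t i)) fun i =>
      AM.comm' (hYA s hs i).1 (hYA s hs i).2 (hYI s hs i)).inv
      (by change (relProd (Y s)).det ≠ 0; rw [det_relProd (hYI s hs)]; exact one_ne_zero)
  obtain ⟨o2, c2'⟩ := layer o1 c1' (g := fun s => (L s).det)
    (fun s hs => (am_lmat (hUA s hs) (am_lin _ _ s)).det) (p := 0)
    ⟨Set.mem_univ _, Finset.prod_ne_zero_iff.2 fun i _ => mul_ne_zero (hX0 i).1 (hX0 i).2⟩ hL0
  set W2 := W1 ∩ {s : ℂ | (L s).det ≠ 0}
  have hCA : ∀ s ∈ W2, AM C s := fun s hs => (am_lin _ _ s).updateCol o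
    ((am_lmat (hUA s hs.1) (am_lin _ _ s)).inv hs.2 |>.mulVec
      (av_rhs (hUA s hs.1) (am_lin _ _ s)))
  have m0 : (0 : ℂ) ∈ W2 :=
    ⟨⟨Set.mem_univ _, Finset.prod_ne_zero_iff.2 fun i _ => mul_ne_zero (hX0 i).1 (hX0 i).2⟩, hL0⟩
  obtain ⟨o3, c3'⟩ := layer o2 c2' (g := fun s => (K s).det * (K' s).det)
    (fun s hs => ((am_kry (hCA s hs) (av_const _)).det).mul
      (am_kry ((hUA s hs.1).mul (hCA s hs)) (av_lin _ _ s)).det) (p := 0) m0 hK0
  set W3 := W2 ∩ {s : ℂ | (K s).det * (K' s).det ≠ 0}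
  have hAA : ∀ s ∈ W3, AM A s := fun s hs =>
    (am_kry ((hUA s hs.1.1).mul (hCA s hs.1)) (av_lin _ _ s)).mul
      ((am_kry (hCA s hs.1) (av_const _)).inv (left_ne_zero_of_mul hs.2))
  have hAd : ∀ s ∈ W3, (A s).det ≠ 0 := fun s hs => by
    rw [hAdef, Matrix.det_mul]
    exact mul_ne_zero (right_ne_zero_of_mul hs.2)
      (by simpa [Matrix.det_nonsing_inv] using left_ne_zero_of_mul hs.2)
  have hdA : ∀ s ∈ W3, AnalyticAt ℂ d s := fun s hs => (hAA s hs).det.inv (hAd s hs)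
  have hptA : ∀ s ∈ W3, ∀ b : ℂ → ℂ, AnalyticAt ℂ b s → ∀ i,
      AM (fun t => (pt (b t) t i).1) s ∧ AM (fun t => (pt (b t) t i).2) s := by
    intro s hs b hb i
    refine Fin.cases ?_ (fun j => ?_) i
    · simp only [hpt, Fin.cons_zero]
      exact ⟨AM.smul hb (hAA s hs), hCA s hs.1⟩
    · simp only [hpt, Fin.cons_succ]
      exact hYA s hs.1.1 j
  set G : ℂ → ℂ := fun s => ∏ z ∈ Polynomial.nthRootsFinset r (1 : ℂ),
    evalPt F (pt (z * d s ^ ((r : ℂ)⁻¹)) s) with hG
  have hGA : AnalyticOnNhd ℂ G W3 := fun s hs =>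
    analyticAt_norm hr (hdA s hs) (inv_ne_zero (hAd s hs)) (fun b t => evalPt F (pt b t))
      fun b hb => analyticAt_eval F (hptA s hs b hb)
  have hrep : ∀ s ∈ W3, IsSLRep (pt (d s ^ ((r : ℂ)⁻¹)) s) := by
    intro s hs
    have hU1 : (U s).det = 1 := by
      simp only [hUdef, Matrix.det_nonsing_inv, det_relProd (hYI s hs.1.1), Ring.inverse_one]
    obtain ⟨hdet, hcp⟩ := charpoly_of_system (o := o) hU1 (C := D s)
      (x := (L s)⁻¹ *ᵥ rhs o (U s) (D s))
      (by rw [Matrix.mulVec_mulVec, Matrix.mul_nonsing_inv _ (isUnit_iff_ne_zero.2 hs.1.2),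
        Matrix.one_mulVec])
    have hint : A s * C s = U s * C s * A s := intertwine hcp (left_ne_zero_of_mul hs.2)
    have hb : (d s ^ ((r : ℂ)⁻¹)) ^ r = d s := Complex.cpow_nat_inv_pow _ hr.ne'
    have hb0 : d s ^ ((r : ℂ)⁻¹) ≠ 0 := fun e => by
      rw [e, zero_pow hr.ne'] at hb
      exact inv_ne_zero (hAd s hs) hb.symm
    refine ⟨fun i => ?_, ?_⟩
    · refine Fin.cases ?_ (fun j => ?_) i
      · simp only [hpt, Fin.cons_zero, Matrix.det_smul, Fintype.card_fin, hb]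
        exact ⟨inv_mul_cancel₀ (hAd s hs), hdet⟩
      · simp only [hpt, Fin.cons_succ]
        exact ⟨det_nrm (hXne s hs.1.1 j).1, det_nrm (hXne s hs.1.1 j).2⟩
    · have hC0 : (C s).det ≠ 0 := by rw [hCdef]; simp only; rw [hdet]; exact one_ne_zero
      have hI : InvP (A s, C s) := ⟨hAd s hs, hC0⟩
      have hcm : comm (A s, C s) = U s := by
        rw [comm, hint, Matrix.mul_nonsing_inv_cancel_right _ _ (isUnit_iff_ne_zero.2 hI.1),
          Matrix.mul_nonsing_inv_cancel_right _ _ (isUnit_iff_ne_zero.2 hI.2)]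
      have e : comm (d s ^ ((r : ℂ)⁻¹) • A s, C s) = U s := by
        rw [← hcm]
        simpa using comm_smul hb0 one_ne_zero hI
      rw [relProd_succ]
      simp only [hpt, Fin.cons_zero, Fin.cons_succ, e, hUdef]
      exact Matrix.nonsing_inv_mul _ (isUnit_iff_ne_zero.2
        (by rw [det_relProd (hYI s hs.1.1)]; exact one_ne_zero))
  have h03 : (0 : ℂ) ∈ W3 := ⟨m0, hK0⟩
  have h13 : (1 : ℂ) ∈ W3 :=
    ⟨⟨⟨Set.mem_univ _, Finset.prod_ne_zero_iff.2 fun i _ => mul_ne_zero (hX1 i).1 (hX1 i).2⟩,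
      hL1⟩, hK1⟩
  have hb0 : AnalyticAt ℂ (fun s => d s ^ ((r : ℂ)⁻¹)) 0 :=
    (hdA 0 h03).cpow analyticAt_const (by rw [ed0]; exact Complex.one_mem_slitPlane)
  have hcont : ContinuousAt (fun s => pt (d s ^ ((r : ℂ)⁻¹)) s) 0 :=
    continuousAt_pi.2 fun i =>
      (hptA 0 h03 _ hb0 i).1.continuousAt.prodMk (hptA 0 h03 _ hb0 i).2.continuousAt
  have e0 : pt (d 0 ^ ((r : ℂ)⁻¹)) 0 = y1 := by
    simp only [hpt, ed0, Complex.one_cpow, one_smul, eA0, eC0, eY0]
    exact Fin.cons_self_tail y1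
  have hzero : G =ᶠ[𝓝 0] 0 := by
    have hev := hcont.tendsto
    rw [e0] at hev
    filter_upwards [hev.eventually hnear, o3.mem_nhds h03] with s hs hs3
    refine Finset.prod_eq_zero (Polynomial.one_mem_nthRootsFinset hr) ?_
    rw [one_mul]
    exact hs (hrep s hs3)
  have hG1 := eqOn_zero c3' hGA h03 hzero h13
  obtain ⟨z, hz, hz0⟩ := Finset.prod_eq_zero_iff.1 hG1
  rw [Polynomial.mem_nthRootsFinset hr] at hz
  refine ⟨z, hz, ?_⟩
  rw [ed1, Complex.one_cpow, mul_one] at hz0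
  simp only [hpt, eA1, eC1, eY1] at hz0
  have e : Function.update y 0 (z • (y 0).1, (y 0).2) =
      Fin.cons (z • (y 0).1, (y 0).2) fun i => y i.succ := by
    funext i
    refine Fin.cases ?_ (fun j => ?_) i
    · simp
    · simp [Fin.succ_ne_zero]
  rwa [e]

/-- The closed loop in the centraliser of `C` that runs through all branches. -/
noncomputable def loopMat (r : ℕ) (P : Mat r) (t : ℂ) : Mat r :=
  Complex.exp (2 * Real.pi * Complex.I * t / r) •
    (1 + (Complex.exp (-(2 * Real.pi * Complex.I * t)) - 1) • P)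

theorem am_loopMat (P : Mat r) (s : ℂ) : AM (loopMat r P) s :=
  AM.smul (by fun_prop) ((am_const 1).add (AM.smul (by fun_prop) (am_const P)))

theorem det_loopMat (hr : 0 < r) {v w : Fin r → ℂ} (hvw : w ⬝ᵥ v = 1) (t : ℂ) :
    (loopMat r (Matrix.vecMulVec v w) t).det = 1 := by
  set c := Complex.exp (-(2 * Real.pi * Complex.I * t)) - 1
  rw [loopMat, Matrix.det_smul, Fintype.card_fin, ← Matrix.smul_vecMulVec,
    Matrix.vecMulVec_eq Unit, Matrix.det_one_add_replicateCol_mul_replicateRow, dotProduct_smul,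
    hvw, smul_eq_mul, mul_one, ← Complex.exp_nat_mul, add_sub_cancel, ← Complex.exp_add]
  rw [show (r : ℂ) * (2 * Real.pi * Complex.I * t / r) + -(2 * Real.pi * Complex.I * t) = 0 by
    rw [mul_div_cancel₀ _ (Nat.cast_ne_zero.2 hr.ne')]; ring, Complex.exp_zero]

theorem loopMat_zero (P : Mat r) : loopMat r P 0 = 1 := by simp [loopMat]

theorem loopMat_add (P : Mat r) (t : ℂ) (k : ℕ) :
    loopMat r P (t + k) = Complex.exp (2 * Real.pi * Complex.I / r) ^ k • loopMat r P t := by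
  have e1 : Complex.exp (2 * Real.pi * Complex.I * (t + k) / r) =
      Complex.exp (2 * Real.pi * Complex.I / r) ^ k *
        Complex.exp (2 * Real.pi * Complex.I * t / r) := by
    rw [← Complex.exp_nat_mul, ← Complex.exp_add]
    congr 1
    ring
  have e2 : Complex.exp (-(2 * Real.pi * Complex.I * (t + k))) =
      Complex.exp (-(2 * Real.pi * Complex.I * t)) := by
    rw [show -(2 * Real.pi * Complex.I * (t + k)) =
      -(2 * Real.pi * Complex.I * t) - (k : ℂ) * (2 * Real.pi * Complex.I) by ring,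
      Complex.exp_sub, Complex.exp_nat_mul_two_pi_mul_I, div_one]
  rw [loopMat, loopMat, e1, e2, smul_smul]

/-- If the representations near one good point are forced, all good points are forced. -/
theorem forced_of_good {g r : ℕ} (hg : 2 ≤ g) (hr : 2 ≤ r) (i0 : Fin g) (hi0 : i0.val = 0)
    (y1 : Pt g r) (h1 : IsSLRep y1) (hG1 : GoodPair (y1 i0))
    (hnear : ∀ᶠ y in nhds y1, IsSLRep y → Forced y) :
    ∀ y : Pt g r, IsSLRep y → GoodPair (y i0) → Forced y := by
  obtain ⟨n, rfl⟩ : ∃ n, g = n + 1 := ⟨g - 1, by omega⟩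
  obtain rfl : i0 = 0 := Fin.ext (by simpa using hi0)
  intro y hy hGy F hF
  obtain ⟨o, ho, hc1, -⟩ := hG1
  obtain ⟨o', ho', hc, -⟩ := hGy
  obtain rfl : o' = o := Fin.ext (ho'.trans ho.symm)
  obtain ⟨⟨hA, hC0⟩, hH, hK, hL⟩ := hc
  obtain ⟨v, w, hvw, hcw⟩ := exists_rankOne hH hK
  set P := Matrix.vecMulVec v w
  set T : ℂ → Mat r := loopMat r P
  set ζ := Complex.exp (2 * Real.pi * Complex.I / r)
  set q : ℂ → Pt (n + 1) r := fun t => Function.update y 0 ((y 0).1 * T t, (y 0).2) with hq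
  have hTd : ∀ t, (T t).det = 1 := det_loopMat (by omega) hvw
  have hTC : ∀ t, Commute (T t) (y 0).2 := fun t =>
    (((Commute.one_right _).add_right (hcw.smul_right _)).smul_right _).symm
  have hcomm : ∀ t, comm ((y 0).1 * T t, (y 0).2) = comm (y 0) := fun t => by
    have hu : IsUnit (T t).det := by rw [hTd]; exact isUnit_one
    simp only [comm]
    rw [Matrix.mul_inv_rev, ← Matrix.mul_assoc _ (T t)⁻¹, Matrix.mul_assoc ((y 0).1) (T t),
      (hTC t).eq, ← Matrix.mul_assoc ((y 0).1), Matrix.mul_nonsing_inv_cancel_right _ _ hu]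
  have hqs : ∀ t, IsSLRep (q t) := by
    intro t
    refine ⟨fun i => ?_, ?_⟩
    · refine Fin.cases ?_ (fun j => ?_) i
      · simp [hq, Matrix.det_mul, hTd, hy.1 0]
      · simp [hq, Fin.succ_ne_zero, hy.1 j.succ]
    · rw [relProd_succ]
      simp only [hq, Function.update_self, hcomm, Function.update_of_ne (Fin.succ_ne_zero _)]
      rw [← relProd_succ]
      exact hy.2
  have hqc : ∀ t, Chart o' (q t 0) := fun t => by
    simp only [hq, Function.update_self, Chart, InvP, hcomm, Matrix.det_mul, hTd, mul_one]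
    exact ⟨⟨hA, hC0⟩, hH, hK, hL⟩
  set h : ℂ → ℂ := fun t => evalPt F (q t) with hh
  have hshift : ∀ t : ℂ, ∃ k : ℕ, h (t + k) = 0 := by
    intro t
    obtain ⟨u, hu, hu0⟩ := reach h1 (hqs t) hc1 (hqc t) F
      (hnear.mono fun x hx hx' => hx hx' F hF)
    have : NeZero r := ⟨by omega⟩
    obtain ⟨k, -, rfl⟩ := (Complex.isPrimitiveRoot_exp r (by omega)).eq_pow_of_pow_eq_one hu
    refine ⟨k, ?_⟩
    simp only [hh, hq, T, loopMat_add, Matrix.mul_smul]
    simpa [hq, Function.update_self, Function.update_idem] using hu0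
  have h0 : h 0 = evalPt F y := by
    simp [hh, hq, T, loopMat_zero]
  rw [← h0]
  by_contra hne
  have han : AnalyticOnNhd ℂ h Set.univ := fun s _ => analyticAt_eval F fun i => by
    refine Fin.cases ?_ (fun j => ?_) i
    · simp only [hq, Function.update_self]
      exact ⟨(am_const _).mul (am_loopMat P s), am_const _⟩
    · simp only [hq, Function.update_of_ne (Fin.succ_ne_zero _)]
      exact ⟨am_const _, am_const _⟩
  obtain ⟨-, hcount⟩ := layer isOpen_univ (by simp) han (Set.mem_univ 0) hne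
  refine not_countable_complex ((Set.countable_iUnion fun k : ℕ =>
    hcount.image fun z => z - (k : ℂ)).mono fun t _ => ?_)
  obtain ⟨k, hk⟩ := hshift t
  exact Set.mem_iUnion.2 ⟨k, t + k, fun hmem => hmem.2 hk, by simp⟩

end Vale.Agent.P002.Surf
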