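import Vale.Agent.P002.Surf.Rigid
import Vale.Agent.P002.Surf.Indep

/-!
P002, surface groups: a handlebody point in general position: one diagonal matrix, the others in
general position with respect to it and to the first one.
-/

namespace Vale.Agent.P002.Surf

open Matrix

variable {r : ℕ}

/-- Divide one row by the determinant. -/
noncomputable def slNorm (o : Fin r) (X : Mat r) : Mat r := X.updateRow o ((X.det)⁻¹ • X o)

theorem det_slNorm (o : Fin r) {X : Mat r} (hX : X.det ≠ 0) : (slNorm o X).det = 1 := by
  rw [slNorm, Matrix.det_updateRow_smul, Matrix.updateRow_eq_self]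
  exact inv_mul_cancel₀ hX

theorem slNorm_of_det_one (o : Fin r) {X : Mat r} (hX : X.det = 1) : slNorm o X = X := by
  simp [slNorm, hX]

theorem ratMat_slNorm {α ι : Type*} {ev : α → ι → ℂ} {X : α → Mat r} (o : Fin r)
    (hX : RatMat ev X) (h0 : ∀ a, (X a).det ≠ 0) : RatMat ev fun a => slNorm o (X a) := by
  intro i j
  by_cases hi : i = o
  · exact (((RatMat.det hX).inv h0).mul (hX o j)).congr fun a => by simp [slNorm, hi]
  · exact (hX i j).congr fun a => by simp [slNorm, Matrix.updateRow_ne hi]

/-- The test matrix deciding that two matrices see every diagonal direction. -/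
noncomputable def sepMat (o : Fin r) (Az Ai : Mat r) : Mat r := Matrix.of fun l a =>
  if a = o then (if l = o then 1 else 0) else
    trace ((single a a 1 * Az - Az * single a a 1) * Ai.adjugate ^ l.val)

/-- A diagonal matrix killed by the test is a scalar. -/
theorem diag_const_of_sep {o : Fin r} {Az Ai : Mat r}
    (hdet : (sepMat o Az Ai).det ≠ 0) (d : Fin r → ℂ)
    (h : ∀ l : ℕ, trace ((diagonal d * Az - Az * diagonal d) * Ai.adjugate ^ l) = 0) :
    ∀ a, d a = d o := by
  let e : Fin r → ℂ := fun a => d a - d o
  have hz : sepMat o Az Ai *ᵥ e = 0 := by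
    funext l
    have hexp : diagonal d * Az - Az * diagonal d =
        ∑ a, e a • (single a a (1 : ℂ) * Az - Az * single a a 1) := by
      have h1 : ∑ a, e a • single a a (1 : ℂ) = diagonal e := by
        ext i j; simp [Matrix.sum_apply, Matrix.single_apply, Matrix.diagonal_apply, ite_and]
      rw [Finset.sum_congr rfl fun a _ => show e a • (single a a (1 : ℂ) * Az - Az * single a a 1) =
          (e a • single a a (1 : ℂ)) * Az - Az * (e a • single a a (1 : ℂ)) by
          rw [smul_sub, Matrix.smul_mul, Matrix.mul_smul],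
        Finset.sum_sub_distrib, ← Finset.sum_mul, ← Finset.mul_sum, h1]
      ext i j
      simp [e, Matrix.diagonal_mul, Matrix.mul_diagonal]; ring
    have hl := h l.val
    rw [hexp, Finset.sum_mul, Matrix.trace_sum] at hl
    rw [Pi.zero_apply, ← hl, Matrix.mulVec, dotProduct]
    refine Finset.sum_congr rfl fun a _ => ?_
    by_cases ha : a = o
    · simp [e, ha]
    · simp [sepMat, ha, Matrix.trace_smul, mul_comm]
  have := Matrix.eq_zero_of_mulVec_eq_zero hdet hz
  intro a
  exact sub_eq_zero.1 (congrFun this a)

/-- A matrix of determinant one in general position. -/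
theorem exists_genPos (hr : 0 < r) : ∃ A : Mat r, A.det = 1 ∧ GenPos A := by
  classical
  let B : Mat r := Matrix.of fun i k => if i < k then 2 else if k < i then 1 else 0
  obtain ⟨t, ht⟩ := Finset.exists_notMem (α := ℂ) (-B).charpoly.roots.toFinset
  have hd : (scalar (Fin r) t + B).det ≠ 0 := by
    intro h0
    apply ht
    rw [Multiset.mem_toFinset, Polynomial.mem_roots (Matrix.charpoly_monic _).ne_zero,
      Polynomial.IsRoot, Matrix.eval_charpoly, sub_neg_eq_add, h0]
  obtain ⟨s, hs⟩ := IsAlgClosed.exists_pow_nat_eq ((scalar (Fin r) t + B).det)⁻¹ hr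
  have hs0 : s ≠ 0 := by
    intro h
    rw [h, zero_pow hr.ne', eq_comm, inv_eq_zero] at hs
    exact hd hs
  refine ⟨s • (scalar (Fin r) t + B), ?_, fun i k hik => ?_, fun p q u hpq hqu hpu => ?_⟩
  · rw [Matrix.det_smul, Fintype.card_fin, hs, inv_mul_cancel₀ hd]
  · rcases lt_or_gt_of_ne hik with h | h <;> simp [B, hs0, hik, h, h.not_gt]
  · rcases lt_or_gt_of_ne hpq with h1 | h1 <;> rcases lt_or_gt_of_ne hqu with h2 | h2 <;>
      rcases lt_or_gt_of_ne hpu with h3 | h3 <;>
      first
        | (exfalso; omega)
        | (simp [B, hpq, hqu, hpu, hpq.symm, hqu.symm, hpu.symm, h1, h2, h3, h1.not_gt, h2.not_gt,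
            h3.not_gt]
           first
             | (refine ⟨fun h => hs0 ?_, hs0⟩
                first
                  | linear_combination h
                  | linear_combination -h)
             | (intro h
                refine hs0 ((pow_eq_zero_iff (a := s) three_ne_zero).1 ?_)
                first
                  | linear_combination h / 2
                  | linear_combination -h / 2))

/-- Two matrices of determinant one that see every diagonal direction. -/
theorem exists_sep (hr : 2 ≤ r) (o : Fin r) (ho : o.val = 0) :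
    ∃ Az Ai : Mat r, Az.det = 1 ∧ Ai.det = 1 ∧ (sepMat o Az Ai).det ≠ 0 := by
  classical
  obtain ⟨m, rfl⟩ : ∃ m, r = m + 2 := ⟨r - 2, by omega⟩
  obtain ⟨z, hz1, hzI⟩ := exists_indep_diagonal (r := m + 2) (by omega)
  have hz0 : ∀ i, z i ≠ 0 := fun i hi =>
    absurd (Finset.prod_eq_zero (Finset.mem_univ i) hi) (by rw [hz1]; exact one_ne_zero)
  have hinj : Function.Injective z := by
    intro i j hij
    by_contra hne
    let e : Fin (m + 2) → ℤ := fun k => if k = i then 1 else if k = j then -1 else 0
    have hre := hzI.relPoly_ne_zero (by rw [det_diagonal, hz1]) ⟨e, i, j, by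
      simp [e, Ne.symm hne]⟩
    rw [relPoly_eq e (l := z) (by rw [charpoly_diagonal, Polynomial.roots_prod] <;>
      simp [Finset.prod_ne_zero_iff, Polynomial.X_sub_C_ne_zero]), Finset.prod_ne_zero_iff] at hre
    apply hre 1 (Finset.mem_univ _)
    rw [sub_eq_zero, Fintype.prod_eq_single i (fun k hk => ?_),
      Fintype.prod_eq_single j (fun k hk => ?_)]
    · simp [e, Ne.symm hne, hij]
    · by_cases hki : k = i <;> simp [e, hki, hk]
    · by_cases hkj : k = j <;> simp [e, hk, hkj, Ne.symm hne]
  let σ : Equiv.Perm (Fin (m + 2)) := finRotate (m + 2)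
  let P : Mat (m + 2) := σ.permMatrix ℂ
  obtain ⟨s, hs⟩ := IsAlgClosed.exists_pow_nat_eq ((Equiv.Perm.sign σ : ℤ) : ℂ)
    (n := m + 2) (by omega)
  have hsgn : (((Equiv.Perm.sign σ : ℤ) : ℂ)) * ((Equiv.Perm.sign σ : ℤ) : ℂ) = 1 := by
    rw [← Int.cast_mul, ← Units.val_mul, Int.units_mul_self]; simp
  have hs0 : s ≠ 0 := by
    intro h
    rw [h, zero_pow (by omega), eq_comm] at hs
    rw [hs, zero_mul] at hsgn; exact zero_ne_one hsgn
  let J : Mat (m + 2) := Matrix.of fun _ _ => 1
  let a : ℂ := 1 / ((m : ℂ) + 3)
  have hm3 : (m : ℂ) + 3 ≠ 0 := by exact_mod_cast Nat.succ_ne_zero (m + 2)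
  let Q : Mat (m + 2) := 1 + J
  let Qi : Mat (m + 2) := 1 - a • J
  have hJJ : J * J = ((m : ℂ) + 2) • J := by ext i k; simp [J, Matrix.mul_apply]
  have hQ : Q * Qi = 1 := by
    simp only [Q, Qi, mul_sub, add_mul, Matrix.one_mul, Matrix.mul_one, Matrix.mul_smul, hJJ,
      smul_smul]
    ext i k
    simp [J, a]
    field_simp
    ring
  have hQi : Qi * Q = 1 := mul_eq_one_comm.1 hQ
  let Ai : Mat (m + 2) := Q * diagonal (fun i => (z i)⁻¹) * Qi
  have hAi : Ai.det = 1 := by
    rw [Matrix.det_mul, Matrix.det_mul, det_diagonal, Finset.prod_inv_distrib, hz1, inv_one,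
      mul_one, ← Matrix.det_mul, hQ, det_one]
  have hpow : ∀ l : ℕ, Ai.adjugate ^ l = Q * diagonal (fun i => z i ^ l) * Qi := by
    have h1 : Ai.adjugate = Q * diagonal z * Qi := by
      have h2 : Ai * (Q * diagonal z * Qi) = 1 := by
        simp only [Ai, Matrix.mul_assoc]
        rw [← Matrix.mul_assoc Qi Q, hQi, Matrix.one_mul, ← Matrix.mul_assoc (diagonal _),
          diagonal_mul_diagonal]
        simp [hz0, hQ]
      calc Ai.adjugate = Ai.adjugate * (Ai * (Q * diagonal z * Qi)) := by rw [h2, Matrix.mul_one]
        _ = _ := by rw [← Matrix.mul_assoc, Matrix.adjugate_mul, hAi, one_smul, Matrix.one_mul]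
    intro l
    induction l with
    | zero => simp [hQ]
    | succ l ih =>
      rw [pow_succ, ih, h1, show (fun i => z i ^ (l + 1)) = fun i => z i ^ l * z i from
        funext fun i => pow_succ _ _, ← diagonal_mul_diagonal]
      simp only [Matrix.mul_assoc]
      rw [← Matrix.mul_assoc Qi Q, hQi, Matrix.one_mul]
  refine ⟨s • P, Ai, ?_, hAi, ?_⟩
  · rw [Matrix.det_smul, Fintype.card_fin, hs, Matrix.det_permutation]; exact hsgn
  rw [Ne, ← Matrix.exists_mulVec_eq_zero_iff]
  rintro ⟨d, hd0, hd⟩
  apply hd0
  have hdo : d o = 0 := by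
    have := congrFun hd o
    simpa [Matrix.mulVec, dotProduct, sepMat, ho, Matrix.trace_mul_comm (single _ _ (1:ℂ)) _,
      Matrix.trace_sub] using this
  let e : Fin (m + 2) → ℂ := fun k => d k - d (σ k)
  have hy : ∀ q, (Qi * (diagonal d * P - P * diagonal d) * Q) q q = 0 := by
    have := Matrix.eq_zero_of_forall_pow_sum_mul_pow_eq_zero (f := z)
      (v := fun q => (Qi * (diagonal d * P - P * diagonal d) * Q) q q) hinj fun l => by
        have hl := congrFun hd l
        simp only [Matrix.mulVec, dotProduct, Pi.zero_apply] at hl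
        have hexp : diagonal d * (s • P) - (s • P) * diagonal d =
            ∑ k, d k • (single k k (1 : ℂ) * (s • P) - (s • P) * single k k 1) := by
          have h1 : ∑ k, d k • single k k (1 : ℂ) = diagonal d := by
            ext i j; simp [Matrix.sum_apply, Matrix.single_apply, Matrix.diagonal_apply, ite_and]
          rw [Finset.sum_congr rfl fun k _ => show
              d k • (single k k (1 : ℂ) * (s • P) - (s • P) * single k k 1) =
              (d k • single k k (1 : ℂ)) * (s • P) - (s • P) * (d k • single k k (1 : ℂ)) by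
              simp only [smul_sub, Matrix.smul_mul, Matrix.mul_smul, smul_smul, mul_comm],
            Finset.sum_sub_distrib, ← Finset.sum_mul, ← Finset.mul_sum, h1]
        have htr : trace ((diagonal d * (s • P) - (s • P) * diagonal d) *
            Ai.adjugate ^ l.val) = 0 := by
          rw [hexp, Finset.sum_mul, Matrix.trace_sum, ← hl]
          refine Finset.sum_congr rfl fun k _ => ?_
          by_cases hk : k = o
          · simp [hk, hdo]
          · simp [sepMat, hk, Matrix.trace_smul, mul_comm]
        rw [hpow, Matrix.mul_smul, Matrix.smul_mul, ← smul_sub, Matrix.smul_mul,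
          Matrix.trace_smul, smul_eq_mul] at htr
        have h2 := (mul_eq_zero.1 htr).resolve_left hs0
        rw [← Matrix.mul_assoc, ← Matrix.mul_assoc,
          Matrix.trace_mul_comm _ Qi, ← Matrix.mul_assoc, ← Matrix.mul_assoc] at h2
        simpa [Matrix.trace, Matrix.mul_diagonal] using h2
    exact fun q => congrFun this q
  have hP : ∀ i k, P i k = if σ i = k then 1 else 0 := by
    intro i k
    by_cases h : σ i = k <;> simp [P, Equiv.Perm.permMatrix, h]
  have hcomm : diagonal d * P - P * diagonal d = diagonal e * P := by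
    ext i k
    rw [Matrix.sub_apply, Matrix.diagonal_mul, Matrix.mul_diagonal, Matrix.diagonal_mul, hP]
    by_cases h : σ i = k <;> simp [e, h]
  have hsum : ∑ k, e k = 0 := by
    simp only [e, Finset.sum_sub_distrib, Equiv.sum_comp σ d, sub_self]
  have hrec : ∀ q, e q = a * e (σ.symm q) := by
    intro q
    have h := hy q
    rw [hcomm] at h
    have hσ : σ q ≠ q := by simp [σ, finRotate_apply]
    have hentry : ∀ k, (Qi * (diagonal e * P)) q k =
        Qi q (σ.symm k) * e (σ.symm k) := by
      intro k
      rw [← Matrix.mul_assoc, Matrix.mul_apply, Fintype.sum_eq_single (σ.symm k)]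
      · rw [hP, if_pos (σ.apply_symm_apply k), mul_one, Matrix.mul_diagonal]
      · intro j hj
        rw [hP, if_neg (fun h => hj (by rw [← h, σ.symm_apply_apply])), mul_zero]
    rw [Matrix.mul_apply, Finset.sum_congr rfl fun k _ => by rw [hentry k]] at h
    rw [← Equiv.sum_comp σ] at h
    simp only [σ.symm_apply_apply] at h
    have h2 : ∀ k, Qi q k * e k * Q (σ k) q =
        (if k = q then e k else 0) + (-a * e k) + (if k = σ.symm q then -a * e k else 0) := by
      intro k
      by_cases h1 : k = q
      · subst h1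
        have h3 : k ≠ σ.symm k := fun h => hσ (by
          conv_lhs => rw [h]
          exact σ.apply_symm_apply k)
        simp [Qi, Q, J, hσ, if_neg h3]; ring
      · by_cases h4 : k = σ.symm q
        · subst h4
          simp [Qi, Q, J, Ne.symm h1, h1]; ring
        · have h5 : σ k ≠ q := fun h => h4 (by rw [← h, σ.symm_apply_apply])
          simp [Qi, Q, J, Ne.symm h1, h1, h4, h5]
    simp only [h2, Finset.sum_add_distrib, Finset.sum_ite_eq', Finset.mem_univ, if_true,
      ← Finset.mul_sum, hsum, mul_zero, add_zero] at h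
    linear_combination h
  have he : ∀ q, e q = 0 := by
    obtain ⟨q₀, -, hmax⟩ := Finset.exists_max_image Finset.univ (fun q => ‖e q‖)
      Finset.univ_nonempty
    have ha : ‖a‖ ≤ 1 / 2 := by
      simp only [a, norm_div, norm_one]
      rw [show (m : ℂ) + 3 = ((m + 3 : ℕ) : ℂ) by push_cast; rfl, Complex.norm_natCast]
      apply one_div_le_one_div_of_le (by norm_num)
      exact_mod_cast (by omega : 2 ≤ m + 3)
    have h1 : ‖e q₀‖ ≤ 1 / 2 * ‖e q₀‖ := by
      conv_lhs => rw [hrec q₀, norm_mul]
      exact mul_le_mul ha (hmax _ (Finset.mem_univ _)) (norm_nonneg _) (by norm_num)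
    intro q
    have h3 := hmax q (Finset.mem_univ q)
    exact norm_le_zero_iff.1 (by linarith [norm_nonneg (e q₀)])
  funext k
  induction k using Fin.induction with
  | zero => rw [show (0 : Fin (m + 2)) = o from Fin.ext ho.symm]; exact hdo
  | succ i ih =>
    have h := he i.castSucc
    simp only [e, σ, finRotate_apply, sub_eq_zero, Fin.coeSucc_eq_succ] at h
    rw [Pi.zero_apply] at ih ⊢
    rw [← h]; exact ih

end Vale.Agent.P002.Surf
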