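import Vale.Agent.P002.Surf.Span
import Vale.Agent.P002.Surf.ForcedFlow
import Vale.Agent.P067.Top.Elementary

/-!
P002, surface groups: integer matrices of determinant one are Zariski dense, the handlebody points
are forced, and a handlebody point is chosen at which finitely many flows span.
-/

namespace Vale.Agent.P002.Surf

open Matrix
open scoped Topology

variable {g r : ℕ}

theorem hasDivNorm_complex : Vale.Agent.P067.Top.HasDivNorm ℂ :=
  ⟨fun _ => 0, fun a x ha => ⟨x / a, Or.inl (by field_simp; ring)⟩⟩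

theorem sl_int_dense_step (i j : Fin r) (hij : i ≠ j) (c : ℂ)
    (y : Matrix.SpecialLinearGroup (Fin r) ℂ)
    (hy : ∀ F : MvPolynomial (Fin r × Fin r) ℂ, (∀ B : Matrix.SpecialLinearGroup (Fin r) ℤ,
      MvPolynomial.eval (fun x => (intHom r B).1 x.1 x.2) F = 0) →
        MvPolynomial.eval (fun x => y.1 x.1 x.2) F = 0)
    (F : MvPolynomial (Fin r × Fin r) ℂ) (hF : ∀ B : Matrix.SpecialLinearGroup (Fin r) ℤ,
      MvPolynomial.eval (fun x => (intHom r B).1 x.1 x.2) F = 0) :
    MvPolynomial.eval (fun x => (Vale.Agent.P067.Top.tv i j hij c * y).1 x.1 x.2) F = 0 := by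
  let subst : ℂ → MvPolynomial (Fin r × Fin r) ℂ := fun t => MvPolynomial.bind₁
    (fun x : Fin r × Fin r => ∑ k, MvPolynomial.C ((transvection i j t) x.1 k) *
      MvPolynomial.X (k, x.2)) F
  have hsub : ∀ (t : ℂ) (M : Mat r), MvPolynomial.eval (fun x => M x.1 x.2) (subst t) =
      MvPolynomial.eval (fun x => (transvection i j t * M) x.1 x.2) F := by
    intro t M
    simp only [subst, MvPolynomial.eval, MvPolynomial.eval₂Hom_bind₁]
    congr 2 with x
    simp [Matrix.mul_apply]
  have hint : ∀ m : ℤ, MvPolynomial.eval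
      (fun x => (transvection i j (m : ℂ) * y.1) x.1 x.2) F = 0 := by
    intro m
    rw [← hsub]
    refine hy _ fun B => ?_
    rw [hsub]
    have h2 := hF (Vale.Agent.P067.Top.tv i j hij m * B)
    have h3 : (intHom r (Vale.Agent.P067.Top.tv i j hij m * B)).1 =
        transvection i j (m : ℂ) * (intHom r B).1 := by
      rw [map_mul, Matrix.SpecialLinearGroup.coe_mul]
      congr 1
      ext a b
      show (((transvection i j m : Matrix (Fin r) (Fin r) ℤ) a b : ℤ) : ℂ) = _
      simp only [transvection, Matrix.add_apply, Matrix.one_apply, Matrix.single_apply]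
      split_ifs <;> simp
    rwa [h3] at h2
  let p : Polynomial ℂ := MvPolynomial.eval₂ Polynomial.C
    (fun x => ∑ k, ((if x.1 = k then 1 else 0) + (if x.1 = i ∧ k = j then Polynomial.X else 0)) *
      Polynomial.C (y.1 k x.2)) F
  have hp : ∀ t : ℂ, p.eval t =
      MvPolynomial.eval (fun x => (transvection i j t * y.1) x.1 x.2) F := by
    intro t
    rw [← Polynomial.coe_evalRingHom, MvPolynomial.hom_eval₂]
    simp only [MvPolynomial.eval, MvPolynomial.coe_eval₂Hom]
    congr 1
    · ext z; simp
    · funext x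
      rw [Matrix.mul_apply]
      simp only [map_sum, map_mul, map_add, Polynomial.coe_evalRingHom,
        Polynomial.eval_C]
      refine Finset.sum_congr rfl fun k _ => ?_
      congr 1
      simp only [transvection, Matrix.add_apply, Matrix.one_apply, Matrix.single_apply]
      by_cases h2 : x.1 = i ∧ k = j
      · rw [if_pos h2, if_pos (show i = x.1 ∧ j = k from ⟨h2.1.symm, h2.2.symm⟩)]
        split_ifs <;> simp
      · rw [if_neg h2,
          if_neg (show ¬(i = x.1 ∧ j = k) from fun h => h2 ⟨h.1.symm, h.2.symm⟩)]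
        split_ifs <;> simp
  have hp0 : p = 0 := by
    refine Polynomial.eq_zero_of_infinite_isRoot _ (Set.Infinite.mono ?_
      (Set.infinite_range_of_injective (f := fun m : ℤ => (m : ℂ)) Int.cast_injective))
    rintro _ ⟨m, rfl⟩
    show p.IsRoot (m : ℂ)
    rw [Polynomial.IsRoot, hp, hint]
  show MvPolynomial.eval (fun x => (transvection i j c * y.1) x.1 x.2) F = 0
  rw [← hp, hp0, Polynomial.eval_zero]

/-- A matrix at which every polynomial vanishing at the integer matrices vanishes. -/
def IntForced (A : Matrix.SpecialLinearGroup (Fin r) ℂ) : Prop :=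
  ∀ F : MvPolynomial (Fin r × Fin r) ℂ, (∀ B : Matrix.SpecialLinearGroup (Fin r) ℤ,
    MvPolynomial.eval (fun x => (intHom r B).1 x.1 x.2) F = 0) →
      MvPolynomial.eval (fun x => A.1 x.1 x.2) F = 0

theorem intForced_all (A : Matrix.SpecialLinearGroup (Fin r) ℂ) : IntForced A := by
  have hA : A ∈ Vale.Agent.P067.Top.El (Fin r) ℂ := by
    rw [Vale.Agent.P067.Top.el_eq_top hasDivNorm_complex]
    exact Subgroup.mem_top A
  unfold Vale.Agent.P067.Top.El at hA
  induction hA using Subgroup.closure_induction_left with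
  | one =>
    intro F hF
    have := hF 1
    rwa [map_one] at this
  | mul_left x hx y hy ih =>
    obtain ⟨i, j, hij, c, rfl⟩ := hx
    exact sl_int_dense_step i j hij c y ih
  | inv_mul_cancel x hx y hy ih =>
    obtain ⟨i, j, hij, c, rfl⟩ := hx
    have : (Vale.Agent.P067.Top.tv i j hij c)⁻¹ = Vale.Agent.P067.Top.tv i j hij (-c) := by
      rw [inv_eq_iff_mul_eq_one]
      apply Subtype.ext
      show transvection i j c * transvection i j (-c) = 1
      rw [Matrix.transvection_mul_transvection_same i j hij, add_neg_cancel,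
        Matrix.transvection_zero]
    rw [this]
    exact sl_int_dense_step i j hij (-c) y ih

/-- Integer matrices of determinant one are Zariski dense. -/
theorem sl_int_dense (A : Matrix.SpecialLinearGroup (Fin r) ℂ)
    (F : MvPolynomial (Fin r × Fin r) ℂ)
    (h : ∀ B : Matrix.SpecialLinearGroup (Fin r) ℤ,
      MvPolynomial.eval (fun x => (intHom r B).1 x.1 x.2) F = 0) :
    MvPolynomial.eval (fun x => A.1 x.1 x.2) F = 0 := intForced_all A F h

theorem sl_int_dense_pi (A : Fin g → Matrix.SpecialLinearGroup (Fin r) ℂ)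
    (F : MvPolynomial (Fin g × Fin r × Fin r) ℂ)
    (h : ∀ B : Fin g → Matrix.SpecialLinearGroup (Fin r) ℤ,
      MvPolynomial.eval (fun x => (intHom r (B x.1)).1 x.2.1 x.2.2) F = 0) :
    MvPolynomial.eval (fun x => (A x.1).1 x.2.1 x.2.2) F = 0 := by
  suffices hS : ∀ S : Finset (Fin g), ∀ A : Fin g → Matrix.SpecialLinearGroup (Fin r) ℂ,
      (∀ i ∉ S, ∃ B, A i = intHom r B) →
      MvPolynomial.eval (fun x => (A x.1).1 x.2.1 x.2.2) F = 0 from
    hS Finset.univ A fun i hi => absurd (Finset.mem_univ i) hi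
  intro S
  induction S using Finset.induction_on with
  | empty =>
    intro A hA
    choose B hB using fun i => hA i (Finset.notMem_empty i)
    simp_rw [hB]
    exact h B
  | insert k S hk ih =>
    intro A hA
    let G : MvPolynomial (Fin r × Fin r) ℂ := MvPolynomial.bind₁
      (fun x : Fin g × Fin r × Fin r => if x.1 = k then MvPolynomial.X x.2 else
        MvPolynomial.C ((A x.1).1 x.2.1 x.2.2)) F
    have hG : ∀ M : Matrix.SpecialLinearGroup (Fin r) ℂ,
        MvPolynomial.eval (fun x => M.1 x.1 x.2) G =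
          MvPolynomial.eval (fun x => (Function.update A k M x.1).1 x.2.1 x.2.2) F := by
      intro M
      simp only [G, MvPolynomial.eval, MvPolynomial.eval₂Hom_bind₁]
      congr 2 with x
      by_cases hx : x.1 = k
      · rw [if_pos hx, hx, Function.update_self, MvPolynomial.eval₂Hom_X']
      · rw [if_neg hx, Function.update_of_ne hx, MvPolynomial.eval₂Hom_C]
        rfl
    have := sl_int_dense (A k) G fun B => by
      rw [hG]
      refine ih _ fun i hi => ?_
      by_cases hik : i = k
      · exact ⟨B, by rw [hik, Function.update_self]⟩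
      · rw [Function.update_of_ne hik]
        exact hA i (by simp [hik, hi])
    rwa [hG, Function.update_eq_self] at this

/-- A handlebody tuple. -/
noncomputable def handlePt (A : Fin g → Matrix.SpecialLinearGroup (Fin r) ℂ) : SLPt g r ℂ :=
  fun i => (A i, 1)

theorem gpre_handlePt {G : Type*} [Group G] (A : Fin g → G) :
    ∀ k, gpre (fun i => (A i, (1 : G))) k = 1
  | 0 => rfl
  | k + 1 => by
    simp only [gpre]
    split
    · simp [gpre_handlePt A k, gcomm]
    · exact gpre_handlePt A k

theorem gpre_handle (A : Fin g → Matrix.SpecialLinearGroup (Fin r) ℂ) (k : ℕ) :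
    gpre (handlePt A) k = 1 := gpre_handlePt A k

theorem curveElt_handlePt (c : Curve g) (A : Fin g → Matrix.SpecialLinearGroup (Fin r) ℂ) :
    (curveElt c (handlePt A)).1 = baseCurve c fun i => (A i).1 := by
  cases c with
  | twist j => rfl
  | bridge i j hij l =>
    have h1 : curveElt (.bridge i j hij l) (handlePt A) = A i * (A j ^ l)⁻¹ := by
      simp only [curveElt, gpre_handle]
      simp only [handlePt, inv_one, one_mul, mul_one, inv_inv]
      rw [pow_add, pow_one, _root_.mul_inv_rev, ← mul_assoc (A j),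
        ((Commute.refl (A j)).pow_right l).inv_right.eq, mul_inv_cancel_right]
    rw [h1, Matrix.SpecialLinearGroup.coe_mul, coe_inv_sl, Matrix.SpecialLinearGroup.coe_pow]
    rfl

/-- Handlebody points with invertible word matrix are forced and irreducible. -/
theorem forced_handlePt {o z : Fin g} (A : Fin g → Matrix.SpecialLinearGroup (Fin r) ℂ)
    (hW : (hbWord o z fun i => (A i).1).det ≠ 0) :
    Forced (toPt (handlePt A)) ∧ Irred (toPt (handlePt A)) := by
  have hirr : ∀ A : Fin g → Matrix.SpecialLinearGroup (Fin r) ℂ,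
      (hbWord o z fun i => (A i).1).det ≠ 0 → Irred (toPt (handlePt A)) := fun A hA W hWinv =>
    irred_of_hbWord hA W fun i v hv => (hWinv i v hv).1
  refine ⟨fun F hF => ?_, hirr A hW⟩
  let P : MvPolynomial (Fin g × Fin r × Fin r) ℂ := MvPolynomial.bind₁
    (fun v : Var g r => if v.2.1 then MvPolynomial.X (v.1, v.2.2) else
      MvPolynomial.C ((1 : Mat r) v.2.2.1 v.2.2.2)) F
  have hP : ∀ A : Fin g → Matrix.SpecialLinearGroup (Fin r) ℂ,
      MvPolynomial.eval (fun x => (A x.1).1 x.2.1 x.2.2) P = evalPt F (toPt (handlePt A)) := by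
    intro A
    simp only [P, evalPt, MvPolynomial.eval, MvPolynomial.eval₂Hom_bind₁]
    congr 2 with v
    obtain ⟨i, b, k, l⟩ := v
    cases b
    · simp [entry, toPt, handlePt]
    · simp [entry, toPt, handlePt]
  let Am : Fin g → Matrix (Fin r) (Fin r) (MvPolynomial (Fin g × Fin r × Fin r) ℂ) :=
    fun i => Matrix.of fun k l => MvPolynomial.X (i, k, l)
  let Wp : MvPolynomial (Fin g × Fin r × Fin r) ℂ := (Matrix.of fun ab pq : Fin r × Fin r =>
    (Am o ^ ab.1.val * Am z * Am o ^ ab.2.val) pq.1 pq.2).det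
  have hWp : ∀ A : Fin g → Matrix.SpecialLinearGroup (Fin r) ℂ,
      MvPolynomial.eval (fun x => (A x.1).1 x.2.1 x.2.2) Wp = (hbWord o z fun i => (A i).1).det := by
    intro A
    have hmap : ∀ i, (Am i).map (MvPolynomial.eval fun x => (A x.1).1 x.2.1 x.2.2) = (A i).1 := by
      intro i; ext k l; simp [Am]
    rw [RingHom.map_det]
    congr 1
    ext ab pq
    show MvPolynomial.eval _ ((Am o ^ ab.1.val * Am z * Am o ^ ab.2.val) pq.1 pq.2) = _
    have : ((Am o ^ ab.1.val * Am z * Am o ^ ab.2.val).map
        (MvPolynomial.eval fun x => (A x.1).1 x.2.1 x.2.2)) =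
          (A o).1 ^ ab.1.val * (A z).1 * (A o).1 ^ ab.2.val := by
      rw [Matrix.map_mul, Matrix.map_mul, ← RingHom.mapMatrix_apply, ← RingHom.mapMatrix_apply,
        ← RingHom.mapMatrix_apply, map_pow, map_pow, RingHom.mapMatrix_apply,
        RingHom.mapMatrix_apply, hmap, hmap]
    exact congrFun (congrFun this pq.1) pq.2
  have := sl_int_dense_pi A (P * Wp) fun B => by
    rw [map_mul, hP (fun i => intHom r (B i)), hWp (fun i => intHom r (B i))]
    by_cases h0 : (hbWord o z fun i => (intHom r (B i)).1).det = 0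
    · rw [h0, mul_zero]
    · have hmapB : handlePt (fun i => intHom r (B i)) =
          mapTuple (intHom r) fun i => (B i, (1 : Matrix.SpecialLinearGroup (Fin r) ℤ)) := by
        funext i; simp [handlePt, mapTuple]
      rw [hF _ ⟨isSL_toPt _, ?_⟩ ?_ (hirr _ h0), zero_mul]
      · rw [relProd_toPt, gpre_handle]
        rfl
      · rw [hmapB]; exact isIntPt_map _
  rw [map_mul, hP A, hWp A] at this
  exact (mul_eq_zero.1 this).resolve_right hW

theorem delta_vel {A : Fin g → Mat r} (hA : ∀ i, IsUnit (A i).det) (c : Curve g) (Y : Mat r)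
    (hY : Commute Y (baseCurve c A)) : delta A (vel c A Y) = 0 := by
  have hd : ∀ (k : Fin g) (Z : Mat r), delta A (Pi.single k Z) = A k * Z * (A k)⁻¹ - Z := by
    intro k Z
    simp only [delta, LinearMap.coe_mk, AddHom.coe_mk]
    rw [Fintype.sum_eq_single k fun i hi => by simp [Pi.single_eq_of_ne hi]]
    simp
  cases c with
  | twist j =>
    simp only [baseCurve] at hY
    rw [vel, hd, ← hY.eq, Matrix.mul_assoc, Matrix.mul_nonsing_inv _ (hA j), Matrix.mul_one,
      sub_self]
  | bridge i j hij l =>
    simp only [baseCurve] at hY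
    have hL : IsUnit (A j ^ l).det := by rw [Matrix.det_pow]; exact (hA j).pow l
    have hconj := conj_eq_of_commute (A i) (A j ^ l) Y (hA i) hL hY
    let S : ℕ → Mat r := fun u => (A j ^ u)⁻¹ * Y * A j ^ u
    have hS : ∀ u, A j * S (u + 1) * (A j)⁻¹ = S u := by
      intro u
      simp only [S, pow_succ, Matrix.mul_inv_rev]
      simp only [← Matrix.mul_assoc]
      rw [Matrix.mul_nonsing_inv _ (hA j), Matrix.one_mul, Matrix.mul_assoc _ (A j),
        Matrix.mul_nonsing_inv _ (hA j), Matrix.mul_one]
    have h1 : A i * ((A i)⁻¹ * Y * A i) * (A i)⁻¹ = Y := by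
      simp only [← Matrix.mul_assoc]
      rw [Matrix.mul_nonsing_inv _ (hA i), Matrix.one_mul, Matrix.mul_assoc,
        Matrix.mul_nonsing_inv _ (hA i), Matrix.mul_one]
    rw [vel, map_add, hd, hd, h1, hconj]
    show Y - S l + ((A j * -∑ u ∈ Finset.range l, S (u + 1)) * (A j)⁻¹ -
      -∑ u ∈ Finset.range l, S (u + 1)) = 0
    rw [Matrix.mul_neg, Matrix.neg_mul, Finset.mul_sum, Finset.sum_mul]
    simp_rw [hS]
    rw [neg_sub_neg, ← Finset.sum_sub_distrib, Finset.sum_range_sub]
    simp [S]

end Vale.Agent.P002.Surf
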