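import Mathlib

/-!
P002, surface groups: twist and bridge flows on tuples in an arbitrary group.  They keep the
surface relation, fix their curve, are undone by the inverse element and are natural in the group.
-/

namespace Vale.Agent.P002.Surf

/-- The flows that are used. -/
inductive Curve (g : ℕ) where
  | twist (j : Fin g)
  | bridge (i j : Fin g) (hij : i < j) (l : ℕ)

variable {g : ℕ} {G H : Type*} [Group G] [Group H]

/-- The commutator of a pair in a group. -/
def gcomm (p : G × G) : G := p.1 * p.2 * p.1⁻¹ * p.2⁻¹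

/-- The product of the commutators of the first `k` handles. -/
def gpre (x : Fin g → G × G) : ℕ → G
  | 0 => 1
  | k + 1 => if h : k < g then gpre x k * gcomm (x ⟨k, h⟩) else gpre x k

theorem gpre_succ (x : Fin g → G × G) (i : Fin g) :
    gpre x (i.val + 1) = gpre x i.val * gcomm (x i) := by simp [gpre]

/-- The group element of the curve of a flow. -/
def curveElt : Curve g → (Fin g → G × G) → G
  | .twist j, x => (x j).1
  | .bridge i j _ l, x => ((x i).2 * (x i).1⁻¹)⁻¹ * ((gpre x (i.val + 1))⁻¹ * gpre x j.val) *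
      ((x j).1 * (x j).2 * ((x j).1 ^ (1 + l))⁻¹)

/-- The flow along a curve by an element. -/
def flow : Curve g → (Fin g → G × G) → G → (Fin g → G × G)
  | .twist j, x, h => fun k => if k = j then ((x k).1, (x k).2 * h) else x k
  | .bridge i j _ l, x, h => fun k =>
      if k = i then ((x k).1 * h, h⁻¹ * ((x k).2 * (x k).1⁻¹) * h * ((x k).1 * h))
      else if k = j then (h⁻¹ * (x k).1, (h⁻¹ * (x k).1)⁻¹ *
        (h⁻¹ * ((x k).1 * (x k).2 * ((x k).1 ^ (1 + l))⁻¹) * h) * (h⁻¹ * (x k).1) ^ (1 + l))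
      else if i < k ∧ k < j then (h⁻¹ * (x k).1 * h, h⁻¹ * (x k).2 * h)
      else x k

section Formulas

theorem gcomm_twist (a b h : G) (hh : Commute h a) : gcomm (a, b * h) = gcomm (a, b) := by
  have h2 : h * a⁻¹ * h⁻¹ = a⁻¹ := by rw [hh.inv_right.eq, mul_inv_cancel_right]
  simp only [gcomm, mul_inv_rev]
  calc a * (b * h) * a⁻¹ * (h⁻¹ * b⁻¹) = a * b * (h * a⁻¹ * h⁻¹) * b⁻¹ := by group
    _ = a * b * a⁻¹ * b⁻¹ := by rw [h2]

theorem gcomm_bridge_left (a b h : G) :
    gcomm (a * h, h⁻¹ * (b * a⁻¹) * h * (a * h)) =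
      gcomm (a, b) * ((b * a⁻¹) * h⁻¹ * (b * a⁻¹)⁻¹ * h) := by
  simp only [gcomm]; group

theorem gcomm_basis_right (A X : G) (n : ℕ) :
    gcomm (A, A⁻¹ * X * A ^ n) = X * A⁻¹ * X⁻¹ * A := by
  have h1 : A ^ n * A⁻¹ * (A ^ n)⁻¹ = A⁻¹ := by
    rw [((Commute.refl A).pow_left n).inv_right.eq, mul_inv_cancel_right]
  calc gcomm (A, A⁻¹ * X * A ^ n) = X * (A ^ n * A⁻¹ * (A ^ n)⁻¹) * X⁻¹ * A := by
        simp only [gcomm]; group
    _ = X * A⁻¹ * X⁻¹ * A := by rw [h1]

theorem gcomm_conj (a b h : G) : gcomm (h⁻¹ * a * h, h⁻¹ * b * h) = h⁻¹ * gcomm (a, b) * h := by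
  simp only [gcomm]; group

theorem right_basis_self (a b : G) (n : ℕ) : a⁻¹ * (a * b * (a ^ n)⁻¹) * a ^ n = b := by group

end Formulas

section Pre

variable (i j : Fin g) (hij : i < j) (l : ℕ) (x : Fin g → G × G) (h : G)

theorem gpre_flow_le : ∀ k, k ≤ i.val → gpre (flow (.bridge i j hij l) x h) k = gpre x k
  | 0, _ => rfl
  | k + 1, hk => by
    have hkg : k < g := lt_of_lt_of_le (Nat.lt_of_succ_le hk) i.isLt.le
    rw [gpre_succ _ ⟨k, hkg⟩, gpre_succ _ ⟨k, hkg⟩, gpre_flow_le k (by omega)]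
    have h1 : (⟨k, hkg⟩ : Fin g) ≠ i := Fin.ne_of_val_ne (by simp; omega)
    have h2 : (⟨k, hkg⟩ : Fin g) ≠ j := Fin.ne_of_val_ne (by simp; omega)
    simp [flow, h1, h2, Fin.lt_def, show ¬ i.val < k by omega]

theorem gpre_flow_mid : ∀ k, i.val < k → k ≤ j.val →
    gpre (flow (.bridge i j hij l) x h) k = gpre x (i.val + 1) *
      (((x i).2 * (x i).1⁻¹) * h⁻¹ * ((x i).2 * (x i).1⁻¹)⁻¹) *
        ((gpre x (i.val + 1))⁻¹ * gpre x k) * h
  | 0, hk, _ => absurd hk (by omega)
  | k + 1, hk, hkj => by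
    have hkg : k < g := lt_of_lt_of_le (Nat.lt_of_succ_le hkj) j.isLt.le
    rcases eq_or_lt_of_le (Nat.lt_succ_iff.1 hk) with he | hlt
    · subst he
      rw [gpre_succ, gpre_flow_le i j hij l x h _ le_rfl, gpre_succ]
      simp only [flow, if_pos, gcomm_bridge_left]
      group
    · rw [gpre_succ _ ⟨k, hkg⟩, gpre_succ _ ⟨k, hkg⟩, gpre_flow_mid k hlt (by omega)]
      have h1 : (⟨k, hkg⟩ : Fin g) ≠ i := Fin.ne_of_val_ne (by simp; omega)
      have h2 : (⟨k, hkg⟩ : Fin g) ≠ j := Fin.ne_of_val_ne (by simp; omega)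
      have h3 : i < (⟨k, hkg⟩ : Fin g) ∧ (⟨k, hkg⟩ : Fin g) < j :=
        ⟨hlt, by simp [Fin.lt_def]; omega⟩
      simp only [flow, if_neg h1, if_neg h2, if_pos h3, gcomm_conj]
      group

theorem gpre_flow_ge (hh : Commute h (curveElt (.bridge i j hij l) x)) : ∀ k, j.val < k →
    gpre (flow (.bridge i j hij l) x h) k = gpre x k
  | 0, hk => absurd hk (by omega)
  | k + 1, hk => by
    rcases eq_or_lt_of_le (Nat.lt_succ_iff.1 hk) with he | hlt
    · subst he
      rw [gpre_succ, gpre_succ, gpre_flow_mid i j hij l x h _ hij le_rfl]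
      have h1 : j ≠ i := ne_of_gt hij
      simp only [flow, if_neg h1, if_pos, gcomm_basis_right]
      simp only [curveElt] at hh
      set P := gpre x (i.val + 1)
      set a := (x j).1
      set X := a * (x j).2 * (a ^ (1 + l))⁻¹ with hX
      set B := (x i).2 * (x i).1⁻¹
      have hX2 : gcomm (x j) = X * a⁻¹ * X⁻¹ * a := by
        rw [← gcomm_basis_right a X (1 + l), hX, right_basis_self]
      rw [hX2]
      have h2 : h⁻¹ * (B⁻¹ * (P⁻¹ * gpre x j.val) * X) * h =
          B⁻¹ * (P⁻¹ * gpre x j.val) * X := by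
        rw [mul_assoc, ← hh.eq, inv_mul_cancel_left]
      calc P * (B * h⁻¹ * B⁻¹) * (P⁻¹ * gpre x j.val) * h *
            (h⁻¹ * X * h * (h⁻¹ * a)⁻¹ * (h⁻¹ * X * h)⁻¹ * (h⁻¹ * a))
          = P * B * (h⁻¹ * (B⁻¹ * (P⁻¹ * gpre x j.val) * X) * h) * a⁻¹ * X⁻¹ * a := by group
        _ = gpre x j.val * (X * a⁻¹ * X⁻¹ * a) := by rw [h2]; group
    · by_cases hkg : k < g
      · rw [gpre_succ _ ⟨k, hkg⟩, gpre_succ _ ⟨k, hkg⟩, gpre_flow_ge hh k hlt]
        have h1 : (⟨k, hkg⟩ : Fin g) ≠ i := Fin.ne_of_val_ne (by simp; omega)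
        have h2 : (⟨k, hkg⟩ : Fin g) ≠ j := Fin.ne_of_val_ne (by simp; omega)
        simp [flow, h1, h2, Fin.lt_def, show ¬ k < j.val by omega]
      · simp only [gpre, dif_neg hkg]; exact gpre_flow_ge hh k hlt

end Pre

/-- Flows keep the surface relation. -/
theorem gpre_flow (c : Curve g) (x : Fin g → G × G) (h : G) (hh : Commute h (curveElt c x)) :
    gpre (flow c x h) g = gpre x g := by
  cases c with
  | twist j =>
    suffices ∀ k, gpre (flow (.twist j) x h) k = gpre x k from this g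
    intro k
    induction k with
    | zero => rfl
    | succ k ih =>
      simp only [gpre]
      split
      · rename_i hk
        rw [ih]
        by_cases he : (⟨k, hk⟩ : Fin g) = j
        · simp only [flow, he, if_true]
          rw [gcomm_twist (x j).1 (x j).2 h hh]
        · simp [flow, he]
      · exact ih
  | bridge i j hij l => exact gpre_flow_ge i j hij l x h hh g j.isLt

/-- The curve is fixed by its flow. -/
theorem curveElt_flow (c : Curve g) (x : Fin g → G × G) (h : G)
    (hh : Commute h (curveElt c x)) : curveElt c (flow c x h) = curveElt c x := by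
  cases c with
  | twist j => simp [curveElt, flow]
  | bridge i j hij l =>
    have hji : j ≠ i := ne_of_gt hij
    show curveElt (.bridge i j hij l) (flow (.bridge i j hij l) x h) = _
    conv_lhs => simp only [curveElt]
    rw [gpre_flow_mid i j hij l x h _ hij le_rfl,
      gpre_flow_mid i j hij l x h (i.val + 1) (Nat.lt_succ_self _) hij]
    simp only [flow, if_neg hji, if_pos]
    simp only [curveElt] at hh
    set c0 := ((x i).2 * (x i).1⁻¹)⁻¹ * ((gpre x (i.val + 1))⁻¹ * gpre x j.val) *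
      ((x j).1 * (x j).2 * ((x j).1 ^ (1 + l))⁻¹) with hc0
    calc _ = h⁻¹ * c0 * h := by rw [hc0]; group
      _ = c0 := by rw [mul_assoc, ← hh.eq, inv_mul_cancel_left]
      _ = _ := by simp only [hc0, curveElt]

/-- A flow is undone by the inverse element. -/
theorem flow_inv (c : Curve g) (x : Fin g → G × G) (h : G) :
    flow c (flow c x h) h⁻¹ = x := by
  cases c with
  | twist j =>
    funext k
    by_cases hk : k = j <;> simp [flow, hk]
  | bridge i j hij l =>
    funext k
    by_cases h1 : k = i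
    · simp only [flow, h1, if_pos]
      exact Prod.ext (by group) (by group)
    · by_cases h2 : k = j
      · subst h2
        simp only [flow, if_neg h1, if_pos]
        obtain ⟨a, b, hb⟩ : ∃ a b, x k = (a, b) := ⟨_, _, rfl⟩
        rw [hb]
        have hA : h⁻¹⁻¹ * (h⁻¹ * a) = a := by group
        refine Prod.ext hA ?_
        simp only
        rw [hA]
        generalize 1 + l = n
        simp only [inv_inv]
        calc a⁻¹ * (h * (h⁻¹ * a * ((h⁻¹ * a)⁻¹ * (h⁻¹ * (a * b * (a ^ n)⁻¹) * h) *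
              (h⁻¹ * a) ^ n) * ((h⁻¹ * a) ^ n)⁻¹) * h⁻¹) * a ^ n
            = a⁻¹ * (a * b * (a ^ n)⁻¹) * a ^ n := by group
          _ = b := right_basis_self a b n
      · by_cases h3 : i < k ∧ k < j
        · simp only [flow, if_neg h1, if_neg h2, if_pos h3]
          exact Prod.ext (by group) (by group)
        · simp [flow, h1, h2, h3]

theorem gpre_mem {S : Subgroup G} {x : Fin g → G × G} (hx : ∀ k, (x k).1 ∈ S ∧ (x k).2 ∈ S) :
    ∀ k, gpre x k ∈ S
  | 0 => S.one_mem
  | k + 1 => by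
    simp only [gpre]
    split
    · exact S.mul_mem (gpre_mem hx k) (S.mul_mem (S.mul_mem (S.mul_mem (hx _).1 (hx _).2)
        (S.inv_mem (hx _).1)) (S.inv_mem (hx _).2))
    · exact gpre_mem hx k

theorem curveElt_mem {S : Subgroup G} (c : Curve g) {x : Fin g → G × G}
    (hx : ∀ k, (x k).1 ∈ S ∧ (x k).2 ∈ S) : curveElt c x ∈ S := by
  cases c with
  | twist j => exact (hx j).1
  | bridge i j hij l =>
    exact S.mul_mem (S.mul_mem (S.inv_mem (S.mul_mem (hx i).2 (S.inv_mem (hx i).1)))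
      (S.mul_mem (S.inv_mem (gpre_mem hx _)) (gpre_mem hx _)))
      (S.mul_mem (S.mul_mem (hx j).1 (hx j).2) (S.inv_mem (S.pow_mem (hx j).1 _)))

theorem flow_mem {S : Subgroup G} (c : Curve g) {x : Fin g → G × G}
    (hx : ∀ k, (x k).1 ∈ S ∧ (x k).2 ∈ S) {h : G} (hh : h ∈ S) (k : Fin g) :
    (flow c x h k).1 ∈ S ∧ (flow c x h k).2 ∈ S := by
  have h' := S.inv_mem hh
  have ha := (hx k).1
  have hb := (hx k).2
  cases c with
  | twist j =>
    simp only [flow]
    split
    · exact ⟨ha, S.mul_mem hb hh⟩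
    · exact ⟨ha, hb⟩
  | bridge i j hij l =>
    simp only [flow]
    split
    · exact ⟨S.mul_mem ha hh, S.mul_mem (S.mul_mem (S.mul_mem h' (S.mul_mem hb (S.inv_mem ha)))
        hh) (S.mul_mem ha hh)⟩
    split
    · exact ⟨S.mul_mem h' ha, S.mul_mem (S.mul_mem (S.inv_mem (S.mul_mem h' ha))
        (S.mul_mem (S.mul_mem h' (S.mul_mem (S.mul_mem ha hb) (S.inv_mem (S.pow_mem ha _)))) hh))
        (S.pow_mem (S.mul_mem h' ha) _)⟩
    split
    · exact ⟨S.mul_mem (S.mul_mem h' ha) hh, S.mul_mem (S.mul_mem h' hb) hh⟩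
    · exact ⟨ha, hb⟩

/-- Apply a homomorphism to every entry of a tuple. -/
def mapTuple (f : G →* H) (x : Fin g → G × G) : Fin g → H × H :=
  fun k => (f (x k).1, f (x k).2)

theorem gpre_map (f : G →* H) (x : Fin g → G × G) : ∀ k, gpre (mapTuple f x) k = f (gpre x k)
  | 0 => (map_one f).symm
  | k + 1 => by
    simp only [gpre]
    split
    · simp [gpre_map f x k, mapTuple, gcomm]
    · exact gpre_map f x k

theorem curveElt_map (f : G →* H) (c : Curve g) (x : Fin g → G × G) :
    curveElt c (mapTuple f x) = f (curveElt c x) := by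
  cases c with
  | twist j => rfl
  | bridge i j hij l =>
    simp only [curveElt, gpre_map]
    simp [mapTuple]

theorem flow_map (f : G →* H) (c : Curve g) (x : Fin g → G × G) (h : G) :
    flow c (mapTuple f x) (f h) = mapTuple f (flow c x h) := by
  funext k
  cases c with
  | twist j => by_cases hk : k = j <;> simp [flow, mapTuple, hk]
  | bridge i j hij l =>
    simp only [flow, mapTuple]
    split_ifs <;> simp

end Vale.Agent.P002.Surf
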