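import Mathlib

/-!
P002, surface groups: tuples of matrices, the surface relation, the points forced by integral
representations, and the irreducibility notions used along the way.
-/

namespace Vale.Agent.P002.Surf

open Matrix

/-- Square matrices over the complex numbers. -/
abbrev Mat (r : ℕ) := Matrix (Fin r) (Fin r) ℂ

/-- The images of the two generators of one handle. -/
abbrev Pair (r : ℕ) := Mat r × Mat r

/-- The images of the standard generators of a genus `g` surface group. -/
abbrev Pt (g r : ℕ) := Fin g → Pair r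

variable {g r : ℕ}

/-- The commutator of a pair. -/
noncomputable def comm (p : Pair r) : Mat r := p.1 * p.2 * p.1⁻¹ * p.2⁻¹

/-- The product of the commutators of all handles. -/
noncomputable def relProd (x : Pt g r) : Mat r := (List.ofFn fun i => comm (x i)).prod

/-- All matrices are invertible. -/
def IsGL (x : Pt g r) : Prop := ∀ i, IsUnit (x i).1.det ∧ IsUnit (x i).2.det

/-- All matrices have determinant one. -/
def IsSL (x : Pt g r) : Prop := ∀ i, (x i).1.det = 1 ∧ (x i).2.det = 1

/-- A representation in the general linear group. -/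
def IsRep (x : Pt g r) : Prop := IsGL x ∧ relProd x = 1

/-- A representation in the special linear group. -/
def IsSLRep (x : Pt g r) : Prop := IsSL x ∧ relProd x = 1

/-- All entries are rational integers. -/
def IsIntPt (x : Pt g r) : Prop :=
  ∀ i k l, (∃ z : ℤ, (x i).1 k l = z) ∧ ∃ z : ℤ, (x i).2 k l = z

/-- The variables of polynomials in the entries. -/
abbrev Var (g r : ℕ) := Fin g × Bool × Fin r × Fin r

/-- The entry of a tuple named by a variable. -/
def entry (x : Pt g r) (v : Var g r) : ℂ :=
  if v.2.1 then (x v.1).1 v.2.2.1 v.2.2.2 else (x v.1).2 v.2.2.1 v.2.2.2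

/-- The value of a polynomial in the entries. -/
noncomputable def evalPt (F : MvPolynomial (Var g r) ℂ) (x : Pt g r) : ℂ :=
  MvPolynomial.eval (entry x) F

/-- Only scalars commute with both matrices of the pair. -/
def PairScalar (p : Pair r) : Prop :=
  ∀ Z : Mat r, Commute Z p.1 → Commute Z p.2 → ∃ c : ℂ, Z = c • (1 : Mat r)

/-- Only scalars commute with all matrices of the tuple. -/
def Brick (x : Pt g r) : Prop :=
  ∀ Z : Mat r, (∀ i, Commute Z (x i).1 ∧ Commute Z (x i).2) → ∃ c : ℂ, Z = c • (1 : Mat r)

/-- A subspace stable under both matrices of a pair. -/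
def PairInv (p : Pair r) (W : Submodule ℂ (Fin r → ℂ)) : Prop :=
  ∀ v ∈ W, p.1 *ᵥ v ∈ W ∧ p.2 *ᵥ v ∈ W

/-- The pair has no proper nonzero invariant subspace. -/
def IrredPair (p : Pair r) : Prop :=
  ∀ W : Submodule ℂ (Fin r → ℂ), PairInv p W → W = ⊥ ∨ W = ⊤

/-- The tuple has no proper nonzero invariant subspace. -/
def Irred (x : Pt g r) : Prop :=
  ∀ W : Submodule ℂ (Fin r → ℂ), (∀ i, PairInv (x i) W) → W = ⊥ ∨ W = ⊤

/-- Every invariant subspace has an invariant complement. -/
def SemisimplePt (x : Pt g r) : Prop :=
  ∀ W : Submodule ℂ (Fin r → ℂ), (∀ i, PairInv (x i) W) →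
    ∃ W' : Submodule ℂ (Fin r → ℂ), (∀ i, PairInv (x i) W') ∧ IsCompl W W'

/-- The space of matrices commuting with both matrices of a pair. -/
def pairCommutant (p : Pair r) : Submodule ℂ (Mat r) where
  carrier := {Z | Commute Z p.1 ∧ Commute Z p.2}
  zero_mem' := ⟨Commute.zero_left _, Commute.zero_left _⟩
  add_mem' ha hb := ⟨ha.1.add_left hb.1, ha.2.add_left hb.2⟩
  smul_mem' c _ hz := ⟨hz.1.smul_left c, hz.2.smul_left c⟩

/-- Every polynomial vanishing at all irreducible integral `SL_r` representations vanishes here. -/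
def Forced (x : Pt g r) : Prop :=
  ∀ F : MvPolynomial (Var g r) ℂ,
    (∀ y : Pt g r, IsSLRep y → IsIntPt y → Irred y → evalPt F y = 0) → evalPt F x = 0

end Vale.Agent.P002.Surf
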