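import Vale.Agent.P002.Surf.Defs

/-!
P002, surface groups: the derivative of the product of commutators at a representation, and the
dimension of its image (the trace orthogonal of the image is the commutant).
-/

namespace Vale.Agent.P002.Surf

open Matrix Module
open scoped Matrix.Norms.Operator

variable {g r : ℕ}

theorem inv_mul_self' {A : Mat r} (h : IsUnit A.det) : A⁻¹ * A = 1 := Matrix.nonsing_inv_mul A h

theorem mul_inv_self' {A : Mat r} (h : IsUnit A.det) : A * A⁻¹ = 1 := Matrix.mul_nonsing_inv A h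

theorem det_comm_eq_one {p : Pair r} (hA : IsUnit p.1.det) (hB : IsUnit p.2.det) :
    (comm p).det = 1 := by
  have hA' := hA.ne_zero
  have hB' := hB.ne_zero
  simp only [comm, det_mul, det_nonsing_inv, Ring.inverse_eq_inv']
  field_simp

theorem isUnit_det_comm {p : Pair r} (hA : IsUnit p.1.det) (hB : IsUnit p.2.det) :
    IsUnit (comm p).det := by
  rw [det_comm_eq_one hA hB]
  exact isUnit_one

/-- The derivative of the commutator. -/
noncomputable def dComm (p : Pair r) : Pair r →ₗ[ℂ] Mat r where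
  toFun v := v.1 * (p.2 * p.1⁻¹ * p.2⁻¹) + p.1 * v.2 * (p.1⁻¹ * p.2⁻¹)
    - p.1 * p.2 * (p.1⁻¹ * v.1 * p.1⁻¹) * p.2⁻¹ - p.1 * p.2 * p.1⁻¹ * (p.2⁻¹ * v.2 * p.2⁻¹)
  map_add' v w := by
    simp only [Prod.fst_add, Prod.snd_add, mul_add, add_mul]
    abel
  map_smul' c v := by
    simp only [Prod.smul_fst, Prod.smul_snd, RingHom.id_apply, smul_add, smul_sub,
      Matrix.mul_smul, Matrix.smul_mul]

theorem hasDerivAt_inv_line {A V : Mat r} (hA : IsUnit A.det) :
    HasDerivAt (fun t : ℂ => (A + t • V)⁻¹) (-(A⁻¹ * V * A⁻¹)) 0 := by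
  have hu : IsUnit A := (Matrix.isUnit_iff_isUnit_det A).2 hA
  have h1 : HasDerivAt (fun t : ℂ => A + t • V) V 0 :=
    (((hasDerivAt_id (0 : ℂ)).smul_const V).const_add A).congr_deriv (one_smul ℂ V)
  have h2 := (hasFDerivAt_ringInverse (𝕜 := ℂ) hu.unit).comp_hasDerivAt_of_eq (0 : ℂ) h1
    (by simp)
  have hinv : (↑hu.unit⁻¹ : Mat r) = A⁻¹ := by
    rw [Matrix.coe_units_inv]
    rfl
  simp only [hinv, Matrix.nonsing_inv_eq_ringInverse] at h2 ⊢
  exact h2.congr_deriv (by simp)

theorem hasDerivAt_comm_line {p v : Pair r} (hA : IsUnit p.1.det) (hB : IsUnit p.2.det) :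
    HasDerivAt (fun t : ℂ => comm (p + t • v)) (dComm p v) 0 := by
  have h1 : HasDerivAt (fun t : ℂ => p.1 + t • v.1) v.1 0 :=
    (((hasDerivAt_id (0 : ℂ)).smul_const v.1).const_add p.1).congr_deriv (one_smul ℂ v.1)
  have h2 : HasDerivAt (fun t : ℂ => p.2 + t • v.2) v.2 0 :=
    (((hasDerivAt_id (0 : ℂ)).smul_const v.2).const_add p.2).congr_deriv (one_smul ℂ v.2)
  have h := ((h1.mul h2).mul (hasDerivAt_inv_line (V := v.1) hA)).mul
    (hasDerivAt_inv_line (V := v.2) hB)
  simp only [zero_smul, add_zero, Pi.mul_apply] at h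
  refine h.congr_deriv ?_
  simp only [dComm, LinearMap.coe_mk, AddHom.coe_mk, add_mul, mul_add, mul_neg, neg_mul,
    sub_eq_add_neg, mul_assoc]

/-- The commutator of the handle with number `k`, extended by the identity. -/
noncomputable def cm (x : Pt g r) (k : ℕ) : Mat r := if h : k < g then comm (x ⟨k, h⟩) else 1

/-- The product of the first `k` commutators. -/
noncomputable def pre (x : Pt g r) : ℕ → Mat r
  | 0 => 1
  | k + 1 => pre x k * cm x k

theorem prod_ofFn_eq_rec {M : Type*} [Monoid M] (f : ℕ → M) (P : ℕ → M) (h0 : P 0 = 1)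
    (hs : ∀ k, P (k + 1) = P k * f k) :
    ∀ n, (List.ofFn fun i : Fin n => f i).prod = P n
  | 0 => by simp [h0]
  | n + 1 => by
    rw [List.ofFn_succ', List.concat_eq_append, List.prod_append, hs]
    simp [prod_ofFn_eq_rec f P h0 hs n]

theorem relProd_eq_pre (x : Pt g r) : relProd x = pre x g := by
  rw [relProd, ← prod_ofFn_eq_rec (cm x) (pre x) rfl (fun k => rfl) g]
  congr 1
  refine congrArg List.ofFn (funext fun i => ?_)
  simp [cm]

theorem det_cm {x : Pt g r} (hx : IsGL x) (k : ℕ) : (cm x k).det = 1 := by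
  unfold cm
  split
  · exact det_comm_eq_one (hx _).1 (hx _).2
  · exact det_one

theorem det_pre {x : Pt g r} (hx : IsGL x) : ∀ k, (pre x k).det = 1
  | 0 => det_one
  | k + 1 => by rw [pre, det_mul, det_pre hx k, det_cm hx k, one_mul]

theorem isUnit_det_pre {x : Pt g r} (hx : IsGL x) (k : ℕ) : IsUnit (pre x k).det := by
  rw [det_pre hx k]
  exact isUnit_one

theorem det_relProd_gl {x : Pt g r} (hx : IsGL x) : (relProd x).det = 1 := by
  rw [relProd_eq_pre]
  exact det_pre hx g

/-- The right translate of the derivative of the commutator to the identity. -/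
noncomputable def ell (p : Pair r) : Pair r →ₗ[ℂ] Mat r :=
  LinearMap.mulRight ℂ (comm p)⁻¹ ∘ₗ dComm p

/-- Conjugation of a matrix. -/
noncomputable def conjBy (Q : Mat r) : Mat r →ₗ[ℂ] Mat r :=
  LinearMap.mulRight ℂ Q⁻¹ ∘ₗ LinearMap.mulLeft ℂ Q

/-- The part of the derivative of the product of commutators coming from one handle. -/
noncomputable def relTerm (x : Pt g r) (i : Fin g) : Pair r →ₗ[ℂ] Mat r :=
  conjBy (pre x i) ∘ₗ ell (x i)

/-- The derivative of the product of commutators at a representation. -/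
noncomputable def dRel (x : Pt g r) : Pt g r →ₗ[ℂ] Mat r :=
  ∑ i, relTerm x i ∘ₗ LinearMap.proj i

theorem dRel_apply (x v : Pt g r) : dRel x v = ∑ i, relTerm x i (v i) := by
  simp [dRel, LinearMap.sum_apply]

theorem hasDerivAt_pre_line {x v : Pt g r} (hx : IsGL x) : ∀ k,
    HasDerivAt (fun t : ℂ => pre (x + t • v) k)
      ((∑ j ∈ Finset.range k, if h : j < g then relTerm x ⟨j, h⟩ (v ⟨j, h⟩) else 0) * pre x k) 0
  | 0 => by
    simp only [pre, Finset.range_zero, Finset.sum_empty, zero_mul]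
    exact hasDerivAt_const (0 : ℂ) (1 : Mat r)
  | k + 1 => by
    by_cases hk : k < g
    · have hc : HasDerivAt (fun t : ℂ => cm (x + t • v) k) (dComm (x ⟨k, hk⟩) (v ⟨k, hk⟩)) 0 := by
        simpa [cm, hk] using hasDerivAt_comm_line (v := v ⟨k, hk⟩) (hx ⟨k, hk⟩).1 (hx ⟨k, hk⟩).2
      have h := (hasDerivAt_pre_line (v := v) hx k).mul hc
      simp only [zero_smul, add_zero] at h
      refine h.congr_deriv ?_
      have h1 : (pre x k)⁻¹ * pre x k = 1 := inv_mul_self' (isUnit_det_pre hx k)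
      have h2 : (comm (x ⟨k, hk⟩))⁻¹ * comm (x ⟨k, hk⟩) = 1 :=
        inv_mul_self' (isUnit_det_comm (hx _).1 (hx _).2)
      rw [Finset.sum_range_succ, dif_pos hk, add_mul, pre]
      congr 1
      · rw [mul_assoc]
      · have e : cm x k = comm (x ⟨k, hk⟩) := by simp [cm, hk]
        simp only [e, relTerm, conjBy, ell, LinearMap.comp_apply, LinearMap.mulRight_apply,
          LinearMap.mulLeft_apply, mul_assoc]
        rw [← mul_assoc ((pre x k)⁻¹) (pre x k), h1, one_mul, h2, mul_one]
    · have h := hasDerivAt_pre_line (v := v) hx k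
      simpa [pre, cm, hk, Finset.sum_range_succ] using h

theorem hasDerivAt_relProd_line {x v : Pt g r} (hx : IsRep x) :
    HasDerivAt (fun t : ℂ => relProd (x + t • v)) (dRel x v) 0 := by
  simp only [relProd_eq_pre]
  refine (hasDerivAt_pre_line hx.1 g).congr_deriv ?_
  rw [← relProd_eq_pre, hx.2, mul_one, dRel_apply,
    ← Fin.sum_univ_eq_sum_range (fun j => if h : j < g then relTerm x ⟨j, h⟩ (v ⟨j, h⟩) else 0)]
  simp

theorem contDiffAt_comm {x : Pt g r} (hx : IsGL x) (i : Fin g) :
    ContDiffAt ℂ 1 (fun y : Pt g r => comm (y i)) x := by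
  have h1 : ContDiffAt ℂ 1 (fun y : Pt g r => (y i).1) x := by fun_prop
  have h2 : ContDiffAt ℂ 1 (fun y : Pt g r => (y i).2) x := by fun_prop
  have hinv : ∀ A : Mat r, IsUnit A.det → ContDiffAt ℂ 1 (fun M : Mat r => M⁻¹) A := by
    intro A hA
    have hu : IsUnit A := (Matrix.isUnit_iff_isUnit_det A).2 hA
    simp only [Matrix.nonsing_inv_eq_ringInverse]
    exact hu.unit_spec ▸ contDiffAt_ringInverse ℂ hu.unit
  exact (((h1.mul h2).mul ((hinv _ (hx i).1).comp x h1)).mul ((hinv _ (hx i).2).comp x h2))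

theorem contDiffAt_relProd {x : Pt g r} (hx : IsGL x) :
    ContDiffAt ℂ 1 (relProd (g := g) (r := r)) x := by
  have h : ∀ k, ContDiffAt ℂ 1 (fun y : Pt g r => pre y k) x := by
    intro k
    induction k with
    | zero => exact contDiffAt_const
    | succ k ih =>
      by_cases hk : k < g
      · simpa [pre, cm, hk] using ih.mul (contDiffAt_comm hx ⟨k, hk⟩)
      · simpa [pre, cm, hk] using ih
  exact (funext relProd_eq_pre : relProd = fun y : Pt g r => pre y g) ▸ h g

theorem hasStrictFDerivAt_relProd {x : Pt g r} (hx : IsRep x) :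
    HasStrictFDerivAt (relProd (g := g) (r := r)) (dRel x).toContinuousLinearMap x := by
  have h := (contDiffAt_relProd hx.1).hasStrictFDerivAt one_ne_zero
  have key : fderiv ℂ (relProd (g := g) (r := r)) x = (dRel x).toContinuousLinearMap := by
    ext1 v
    have hl : HasDerivAt (fun t : ℂ => x + t • v) v 0 :=
      (((hasDerivAt_id (0 : ℂ)).smul_const v).const_add x).congr_deriv (one_smul ℂ v)
    have hv := h.hasFDerivAt.comp_hasDerivAt_of_eq (0 : ℂ) hl (by simp)
    exact hv.unique (hasDerivAt_relProd_line hx)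
  rw [← key]
  exact h

/-- The matrix representing a functional through the trace pairing. -/
def reprMat (φ : Mat r →ₗ[ℂ] ℂ) : Mat r := of fun k l => φ (Matrix.single l k 1)

theorem trace_reprMat (φ : Mat r →ₗ[ℂ] ℂ) (M : Mat r) : (reprMat φ * M).trace = φ M := by
  conv_rhs => rw [matrix_eq_sum_single M]
  simp only [trace, diag, mul_apply, reprMat, of_apply, map_sum]
  rw [Finset.sum_comm]
  refine Finset.sum_congr rfl fun l _ => Finset.sum_congr rfl fun k _ => ?_
  rw [show Matrix.single l k (M l k) = M l k • Matrix.single l k 1 by simp [smul_single],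
    map_smul, smul_eq_mul, mul_comm]

theorem eq_of_trace_mul {X Y : Mat r} (h : ∀ v : Mat r, (X * v).trace = (Y * v).trace) : X = Y :=
  Matrix.ext_iff_trace_mul_right.2 h

theorem annih_ell {p : Pair r} (hA : IsUnit p.1.det) (hB : IsUnit p.2.det) {Z : Mat r}
    (h : ∀ v, (Z * ell p v).trace = 0) : Z ∈ pairCommutant p := by
  obtain ⟨A, B⟩ := p
  dsimp only at hA hB
  set Y := (comm (A, B))⁻¹ * Z with hY
  have hc : comm (A, B) * Y = Z := by
    rw [hY, ← mul_assoc, mul_inv_self' (isUnit_det_comm hA hB), one_mul]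
  have h' : ∀ v, (Y * dComm (A, B) v).trace = 0 := by
    intro v
    have := h v
    rw [ell, LinearMap.comp_apply, LinearMap.mulRight_apply, ← mul_assoc, trace_mul_comm] at this
    rwa [hY, mul_assoc]
  have e1 : (B * A⁻¹ * B⁻¹) * Y = A⁻¹ * B⁻¹ * Y * A * B * A⁻¹ := by
    refine eq_of_trace_mul fun v => ?_
    have := h' (v, 0)
    simp only [dComm, LinearMap.coe_mk, AddHom.coe_mk, mul_zero, zero_mul, add_zero, sub_zero,
      mul_sub, trace_sub, sub_eq_zero] at this
    have l : (B * A⁻¹ * B⁻¹ * Y * v).trace = (Y * (v * (B * A⁻¹ * B⁻¹))).trace := by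
      rw [trace_mul_comm (B * A⁻¹ * B⁻¹ * Y) v, trace_mul_comm Y, mul_assoc v]
    rw [l, this, show Y * (A * B * (A⁻¹ * v * A⁻¹) * B⁻¹)
      = (Y * A * B * A⁻¹) * (v * (A⁻¹ * B⁻¹)) by simp only [mul_assoc],
      trace_mul_comm, show v * (A⁻¹ * B⁻¹) * (Y * A * B * A⁻¹)
      = v * (A⁻¹ * B⁻¹ * Y * A * B * A⁻¹) by simp only [mul_assoc], trace_mul_comm]
  have e2 : (A⁻¹ * B⁻¹) * (Y * A) = B⁻¹ * Y * A * B * A⁻¹ * B⁻¹ := by
    refine eq_of_trace_mul fun v => ?_
    have := h' (0, v)
    simp only [dComm, LinearMap.coe_mk, AddHom.coe_mk, mul_zero, zero_mul, zero_add, sub_zero,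
      mul_sub, trace_sub, sub_eq_zero] at this
    rw [show (A⁻¹ * B⁻¹ * (Y * A) * v) = (A⁻¹ * B⁻¹) * (Y * A * v) by simp only [mul_assoc],
      trace_mul_comm, show Y * A * v * (A⁻¹ * B⁻¹) = Y * (A * v * (A⁻¹ * B⁻¹)) by
      simp only [mul_assoc], this, show Y * (A * B * A⁻¹ * (B⁻¹ * v * B⁻¹))
      = (Y * A * B * A⁻¹ * B⁻¹) * (v * B⁻¹) by simp only [mul_assoc],
      trace_mul_comm, show v * B⁻¹ * (Y * A * B * A⁻¹ * B⁻¹)
      = v * (B⁻¹ * Y * A * B * A⁻¹ * B⁻¹) by simp only [mul_assoc], trace_mul_comm]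
  have iA : ∀ M : Mat r, A * (A⁻¹ * M) = M := fun M => by
    rw [← mul_assoc, mul_inv_self' hA, one_mul]
  have iA' : ∀ M : Mat r, A⁻¹ * (A * M) = M := fun M => by
    rw [← mul_assoc, inv_mul_self' hA, one_mul]
  have iB : ∀ M : Mat r, B * (B⁻¹ * M) = M := fun M => by
    rw [← mul_assoc, mul_inv_self' hB, one_mul]
  have iB' : ∀ M : Mat r, B⁻¹ * (B * M) = M := fun M => by
    rw [← mul_assoc, inv_mul_self' hB, one_mul]
  -- rewrite both equations in terms of `Z`
  have hYZ : Y = B * (A * (B⁻¹ * (A⁻¹ * Z))) := by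
    rw [← hc]
    simp only [comm, mul_assoc, iA', iB', iA, iB]
  have k1 : Z * (A * B * A⁻¹) = A * B * A⁻¹ * Z := by
    have := congrArg (fun M => A * (B * M)) e1
    simp only [hYZ, mul_assoc, iA, iA', iB, iB'] at this ⊢
    first | exact this | exact this.symm
  have k2 : A⁻¹ * Z * A = B * Z * B⁻¹ := by
    have := congrArg (fun M => B * M) e2
    simp only [hYZ, mul_assoc, iA, iA', iB, iB'] at this k1 ⊢
    have k1' : ∀ M : Mat r, Z * (A * (B * (A⁻¹ * M))) = A * (B * (A⁻¹ * (Z * M))) := fun M => by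
      have h1 := congrArg (fun N => N * M) k1
      simpa only [mul_assoc] using h1
    rw [k1'] at this
    simp only [mul_assoc, iA, iA', iB, iB'] at this
    first | exact this | exact this.symm
  have k3 : (A⁻¹ * Z * A) * B = B * (A⁻¹ * Z * A) := by
    have := congrArg (fun M => A⁻¹ * M * A) k1
    simp only [mul_assoc, iA, iA', inv_mul_self' hA, mul_inv_self' hA, mul_one] at this ⊢
    exact this
  have k4 : A⁻¹ * Z * A = Z := by
    rw [k2] at k3 ⊢
    have := congrArg (fun M => B⁻¹ * M) k3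
    simp only [mul_assoc, iB, iB', inv_mul_self' hB, mul_one] at this
    simpa only [mul_assoc] using this.symm
  constructor
  · show Z * A = A * Z
    have := congrArg (fun M => A * M) k4
    simp only [mul_assoc, iA] at this
    exact this
  · show Z * B = B * Z
    rw [k4] at k3
    exact k3

theorem finrank_mat : finrank ℂ (Mat r) = r * r := by
  rw [finrank_matrix, finrank_self]
  simp

theorem finrank_pair : finrank ℂ (Pair r) = 2 * (r * r) := by
  rw [finrank_prod, finrank_mat]
  ring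

/-- A bound on the rank from a bound on the trace orthogonal. -/
theorem rank_bound {V : Type*} [AddCommGroup V] [Module ℂ V] (L : V →ₗ[ℂ] Mat r)
    (C : Submodule ℂ (Mat r)) (h : ∀ Z : Mat r, (∀ v, (Z * L v).trace = 0) → Z ∈ C) :
    r * r ≤ finrank ℂ (LinearMap.range L) + finrank ℂ C := by
  have h1 := Subspace.finrank_add_finrank_dualAnnihilator_eq (LinearMap.range L)
  rw [finrank_mat] at h1
  let J : (LinearMap.range L).dualAnnihilator →ₗ[ℂ] C :=
    { toFun := fun φ => ⟨reprMat φ.1, h _ fun v => by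
        rw [trace_reprMat]
        exact (Submodule.mem_dualAnnihilator φ.1).1 φ.2 _ (LinearMap.mem_range_self L v)⟩
      map_add' := fun _ _ => by ext; simp [reprMat]
      map_smul' := fun _ _ => by ext; simp [reprMat] }
  have hJ : Function.Injective J := by
    intro φ ψ hφ
    have hmat : reprMat φ.1 = reprMat ψ.1 := congrArg Subtype.val hφ
    refine Subtype.ext (LinearMap.ext fun M => ?_)
    rw [← trace_reprMat φ.1 M, ← trace_reprMat ψ.1 M, hmat]
  have := LinearMap.finrank_le_finrank_of_injective hJ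
  omega

theorem rank_ell {p : Pair r} (hA : IsUnit p.1.det) (hB : IsUnit p.2.det) :
    r * r ≤ finrank ℂ (LinearMap.range (ell p)) + finrank ℂ (pairCommutant p) :=
  rank_bound _ _ fun _ hZ => annih_ell hA hB hZ

theorem rank_relTerm {x : Pt g r} (hx : IsGL x) (i : Fin g) :
    r * r ≤ finrank ℂ (LinearMap.range (relTerm x i)) + finrank ℂ (pairCommutant (x i)) := by
  refine (rank_ell (hx i).1 (hx i).2).trans (Nat.add_le_add_right ?_ _)
  have hinj : Function.Injective (conjBy (pre x i)) := by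
    intro M N h
    have := congrArg (fun K => (pre x i)⁻¹ * K * pre x i) h
    simp only [conjBy, LinearMap.comp_apply, LinearMap.mulRight_apply,
      LinearMap.mulLeft_apply, ← mul_assoc, inv_mul_self' (isUnit_det_pre hx i),
      one_mul] at this
    simpa only [mul_assoc, inv_mul_self' (isUnit_det_pre hx i), mul_one] using this
  rw [relTerm, LinearMap.range_comp, ← (Submodule.equivMapOfInjective _ hinj _).finrank_eq]

/-- The trace zero matrices. -/
noncomputable def slMat (r : ℕ) : Submodule ℂ (Mat r) :=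
  LinearMap.ker (traceLinearMap (Fin r) ℂ ℂ)

theorem finrank_slMat [NeZero r] : finrank ℂ (slMat r) + 1 = r * r := by
  have hs : LinearMap.range (traceLinearMap (Fin r) ℂ ℂ) = ⊤ := by
    refine LinearMap.range_eq_top.2 fun c => ⟨Matrix.single 0 0 c, ?_⟩
    simp [trace, diag, Matrix.single_apply]
  have := (traceLinearMap (Fin r) ℂ ℂ).finrank_range_add_finrank_ker
  rw [hs, finrank_top, finrank_self, finrank_mat] at this
  exact (add_comm _ _).trans this

theorem trace_ell {p : Pair r} (hA : IsUnit p.1.det) (hB : IsUnit p.2.det) (v : Pair r) :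
    (ell p v).trace = 0 := by
  have hc : (comm p)⁻¹ = p.2 * p.1 * p.2⁻¹ * p.1⁻¹ := by
    refine Matrix.inv_eq_right_inv ?_
    simp only [comm, mul_assoc]
    rw [← mul_assoc p.2⁻¹ p.2, inv_mul_self' hB, one_mul, ← mul_assoc p.1⁻¹ p.1,
      inv_mul_self' hA, one_mul, ← mul_assoc p.2 p.2⁻¹, mul_inv_self' hB, one_mul,
      mul_inv_self' hA]
  have iA : ∀ M : Mat r, p.1 * (p.1⁻¹ * M) = M := fun M => by
    rw [← mul_assoc, mul_inv_self' hA, one_mul]
  have iA' : ∀ M : Mat r, p.1⁻¹ * (p.1 * M) = M := fun M => by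
    rw [← mul_assoc, inv_mul_self' hA, one_mul]
  have iB' : ∀ M : Mat r, p.2⁻¹ * (p.2 * M) = M := fun M => by
    rw [← mul_assoc, inv_mul_self' hB, one_mul]
  have iB : ∀ M : Mat r, p.2 * (p.2⁻¹ * M) = M := fun M => by
    rw [← mul_assoc, mul_inv_self' hB, one_mul]
  -- each of the four terms is conjugate to `v A⁻¹` or `v B⁻¹`
  simp only [ell, dComm, LinearMap.comp_apply, LinearMap.mulRight_apply, LinearMap.coe_mk,
    AddHom.coe_mk, hc, sub_mul, add_mul, trace_sub, trace_add, mul_assoc, iA, iA', iB, iB']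
  have t1 : (p.1 * (p.2 * (p.1⁻¹ * (v.1 * (p.2⁻¹ * p.1⁻¹))))).trace = (v.1 * p.1⁻¹).trace := by
    rw [show p.1 * (p.2 * (p.1⁻¹ * (v.1 * (p.2⁻¹ * p.1⁻¹))))
      = (p.1 * p.2 * p.1⁻¹) * (v.1 * (p.2⁻¹ * p.1⁻¹)) by simp only [mul_assoc], trace_mul_comm]
    simp only [mul_assoc, iA', iB']
  have t2 : (p.1 * (v.2 * (p.2⁻¹ * p.1⁻¹))).trace = (v.2 * p.2⁻¹).trace := by
    rw [trace_mul_comm]
    simp only [mul_assoc, inv_mul_self' hA, mul_one]
  have t3 : (p.1 * (p.2 * (p.1⁻¹ * (p.2⁻¹ * (v.2 * (p.1 * (p.2⁻¹ * p.1⁻¹))))))).trace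
      = (v.2 * p.2⁻¹).trace := by
    rw [show p.1 * (p.2 * (p.1⁻¹ * (p.2⁻¹ * (v.2 * (p.1 * (p.2⁻¹ * p.1⁻¹))))))
      = (p.1 * p.2 * p.1⁻¹ * p.2⁻¹) * (v.2 * (p.1 * (p.2⁻¹ * p.1⁻¹))) by
      simp only [mul_assoc], trace_mul_comm]
    simp only [mul_assoc, iA, iA', iB, iB']
  rw [t1, t2, t3]
  ring

theorem dRel_mem_slMat {x : Pt g r} (hx : IsGL x) (v : Pt g r) : dRel x v ∈ slMat r := by
  rw [slMat, LinearMap.mem_ker, traceLinearMap_apply, dRel_apply, trace_sum]
  refine Finset.sum_eq_zero fun i _ => ?_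
  simp only [relTerm, conjBy, LinearMap.comp_apply, LinearMap.mulRight_apply,
    LinearMap.mulLeft_apply]
  rw [trace_mul_comm, ← mul_assoc, inv_mul_self' (isUnit_det_pre hx i), one_mul]
  exact trace_ell (hx i).1 (hx i).2 _

theorem dRel_single (x : Pt g r) (i : Fin g) (v : Pair r) :
    dRel x (Pi.single i v) = relTerm x i v := by
  rw [dRel_apply, Finset.sum_eq_single i]
  · rw [Pi.single_eq_same]
  · intro j _ hj
    rw [Pi.single_eq_of_ne hj, map_zero]
  · simp

theorem range_dRel_of_brick [NeZero r] {x : Pt g r} (hx : IsGL x) (hb : Brick x) :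
    LinearMap.range (dRel x) = slMat r := by
  refine Submodule.eq_of_le_of_finrank_le (LinearMap.range_le_iff_comap.2
    (eq_top_iff.2 fun v _ => dRel_mem_slMat hx v)) ?_
  have h := rank_bound (dRel x) (Submodule.span ℂ {(1 : Mat r)}) fun Z hZ => by
    have hall : ∀ k : ℕ, Z * pre x k = pre x k * Z ∧
        ∀ (hk : k < g), Z ∈ pairCommutant (x ⟨k, hk⟩) := by
      have step : ∀ k (hk : k < g), Z * pre x k = pre x k * Z →
          Z ∈ pairCommutant (x ⟨k, hk⟩) := by
        intro k hk hcomm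
        refine annih_ell (hx _).1 (hx _).2 fun v => ?_
        have := hZ (Pi.single ⟨k, hk⟩ v)
        rw [dRel_single] at this
        simp only [relTerm, conjBy, LinearMap.comp_apply, LinearMap.mulRight_apply,
          LinearMap.mulLeft_apply] at this
        rw [← mul_assoc, ← mul_assoc, hcomm, trace_mul_comm, ← mul_assoc, ← mul_assoc,
          inv_mul_self' (isUnit_det_pre hx k), one_mul] at this
        exact this
      intro k
      induction k with
      | zero => exact ⟨by simp [pre], fun hk => step 0 hk (by simp [pre])⟩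
      | succ k ih =>
        have hcomm : Z * pre x (k + 1) = pre x (k + 1) * Z := by
          rw [pre, ← mul_assoc, ih.1, mul_assoc, mul_assoc]
          congr 1
          by_cases hk : k < g
          · obtain ⟨hA, hB⟩ := ih.2 hk
            have e : cm x k = comm (x ⟨k, hk⟩) := by simp [cm, hk]
            rw [e, comm]
            have cA : Commute Z (x ⟨k, hk⟩).1⁻¹ := by
              have := (Matrix.isUnit_iff_isUnit_det _).2 (hx ⟨k, hk⟩).1
              show Z * _ = _ * Z
              calc Z * (x ⟨k, hk⟩).1⁻¹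
                  = (x ⟨k, hk⟩).1⁻¹ * ((x ⟨k, hk⟩).1 * Z) * (x ⟨k, hk⟩).1⁻¹ := by
                    rw [← mul_assoc, inv_mul_self' (hx _).1, one_mul]
                _ = (x ⟨k, hk⟩).1⁻¹ * Z := by
                    rw [← hA.eq, mul_assoc, mul_assoc, mul_inv_self' (hx _).1, mul_one]
            have cB : Commute Z (x ⟨k, hk⟩).2⁻¹ := by
              show Z * _ = _ * Z
              calc Z * (x ⟨k, hk⟩).2⁻¹
                  = (x ⟨k, hk⟩).2⁻¹ * ((x ⟨k, hk⟩).2 * Z) * (x ⟨k, hk⟩).2⁻¹ := by
                    rw [← mul_assoc, inv_mul_self' (hx _).2, one_mul]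
                _ = (x ⟨k, hk⟩).2⁻¹ * Z := by
                    rw [← hB.eq, mul_assoc, mul_assoc, mul_inv_self' (hx _).2, mul_one]
            exact (((hA.mul_right hB).mul_right cA).mul_right cB).eq
          · simp [cm, hk]
        exact ⟨hcomm, fun hk => step (k + 1) hk hcomm⟩
    obtain ⟨c, hc⟩ := hb Z fun i => (hall i).2 i.2
    exact hc ▸ Submodule.smul_mem _ c (Submodule.mem_span_singleton_self _)
  have h1 : finrank ℂ (Submodule.span ℂ {(1 : Mat r)}) ≤ 1 :=
    (finrank_span_le_card _).trans (by simp)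
  have := finrank_slMat (r := r)
  omega

/-- The rank formula for the restriction of a linear map to a subspace. -/
theorem finrank_map_add_inf {V W : Type*} [AddCommGroup V] [Module ℂ V] [FiniteDimensional ℂ V]
    [AddCommGroup W] [Module ℂ W] (f : V →ₗ[ℂ] W) (p : Submodule ℂ V) :
    finrank ℂ (p.map f) + finrank ℂ (p ⊓ LinearMap.ker f : Submodule ℂ V) = finrank ℂ p := by
  have h := (f.domRestrict p).finrank_range_add_finrank_ker
  rw [LinearMap.range_domRestrict, LinearMap.ker_domRestrict] at h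
  have e : finrank ℂ ((LinearMap.ker f).comap p.subtype)
      = finrank ℂ (p ⊓ LinearMap.ker f : Submodule ℂ V) := by
    have e' : (LinearMap.ker f).comap p.subtype = (p ⊓ LinearMap.ker f).comap p.subtype := by
      ext ⟨y, hy⟩
      simp [hy]
    rw [e', ← (Submodule.comapSubtypeEquivOfLe (inf_le_left : p ⊓ LinearMap.ker f ≤ p)).finrank_eq]
  omega

/-- The tangent space of one handle is large when another handle has a small commutant. -/
theorem finrank_tangent_proj [NeZero r] {x : Pt g r} (hx : IsGL x) (hb : Brick x) {i j : Fin g}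
    (hij : j ≠ i) :
    2 * (r * r) + 1 ≤ finrank ℂ ((LinearMap.ker (dRel x)).map (LinearMap.proj i))
      + finrank ℂ (pairCommutant (x j)) := by
  set P : Pt g r →ₗ[ℂ] Pair r := LinearMap.proj i with hP
  have hsurj : LinearMap.range P = ⊤ :=
    LinearMap.range_eq_top.2 fun v => ⟨Pi.single i v, by simp [P]⟩
  have h1 := P.finrank_range_add_finrank_ker
  rw [hsurj, finrank_top, finrank_pair] at h1
  have h2 := (dRel x).finrank_range_add_finrank_ker
  rw [range_dRel_of_brick hx hb] at h2
  have h3 := finrank_map_add_inf P (LinearMap.ker (dRel x))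
  have h4 := finrank_map_add_inf (dRel x) (LinearMap.ker P)
  rw [inf_comm] at h4
  have h5 : finrank ℂ (LinearMap.range (relTerm x j))
      ≤ finrank ℂ ((LinearMap.ker P).map (dRel x)) := by
    refine Submodule.finrank_mono ?_
    rintro _ ⟨v, rfl⟩
    exact ⟨Pi.single j v, by simp [P, hij.symm], dRel_single x j v⟩
  have h6 := rank_relTerm hx j
  have h7 := finrank_slMat (r := r)
  omega

end Vale.Agent.P002.Surf
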