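import Vale.Agent.P002.Surf.Defs

/-!
P002, surface groups, algebra behind the good chart: the affine system for one column of `C` in
`charpoly (U * C) = charpoly C, det C = 1`, the intertwiner of two cyclic matrices, and the rank one
idempotent at a simple eigenvalue.
-/

namespace Vale.Agent.P002.Surf

open Matrix Polynomial

variable {r : ℕ}

/-- The unit vector at `o`. -/
noncomputable def unitVec (o : Fin r) : Fin r → ℂ := Pi.single o 1

/-- The Krylov matrix of `C` and `v`. -/
noncomputable def kry (C : Mat r) (v : Fin r → ℂ) : Mat r :=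
  Matrix.of fun a k => (C ^ (k : ℕ) *ᵥ v) a

theorem kry_col (C : Mat r) (v : Fin r → ℂ) (k : Fin r) :
    kry C v *ᵥ Pi.single k 1 = C ^ (k : ℕ) *ᵥ v := by
  rw [Matrix.mulVec_single_one]
  rfl

/-- The Hankel matrix of the traces of powers. -/
noncomputable def hankel (C : Mat r) : Mat r :=
  Matrix.of fun i j => (C ^ ((i : ℕ) + (j : ℕ))).trace

/-- The evaluation points. -/
def pnt (o k : Fin r) : ℂ := if k = o then 0 else ((k : ℕ) : ℂ) + 1

theorem pnt_injective (o : Fin r) : Function.Injective (pnt o) := by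
  intro a b h
  unfold pnt at h
  split_ifs at h with ha hb hb
  · rw [ha, hb]
  · exfalso
    have : ((((b : ℕ) + 1 : ℕ)) : ℂ) = 0 := by push_cast; exact h.symm
    exact absurd (Nat.cast_eq_zero.1 this) (Nat.succ_ne_zero _)
  · exfalso
    have : ((((a : ℕ) + 1 : ℕ)) : ℂ) = 0 := by push_cast; exact h
    exact absurd (Nat.cast_eq_zero.1 this) (Nat.succ_ne_zero _)
  · exact Fin.ext (Nat.cast_injective (add_right_cancel h))

/-- The matrix whose `o`-th row is the derivative of `det (z - U C) - det (z - C)` in column `o`. -/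
noncomputable def diffMat (U C : Mat r) (z : ℂ) : Mat r :=
  (z • (1 : Mat r) - U * C).adjugate * U - (z • (1 : Mat r) - C).adjugate

/-- The matrix whose `o`-th row gives the constant part of `det (z - U C) - det (z - C)`. -/
noncomputable def constMat (U C : Mat r) (z : ℂ) : Mat r :=
  (z • (1 : Mat r) - U * C).adjugate - (z • (1 : Mat r) - C).adjugate

/-- The matrix of the affine system for column `o` of `C`. -/
noncomputable def lmat (o : Fin r) (U C : Mat r) : Mat r :=
  Matrix.of fun k => if k = o then C.adjugate o else diffMat U C (pnt o k) o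

/-- The right side of the affine system. -/
noncomputable def rhs (o : Fin r) (U C : Mat r) : Fin r → ℂ :=
  fun k => if k = o then 1 else (constMat U C (pnt o k) *ᵥ (pnt o k • unitVec o)) o

theorem lmat_mulVec (o : Fin r) (U C : Mat r) (x : Fin r → ℂ) (k : Fin r) :
    (lmat o U C *ᵥ x) k =
      if k = o then (C.adjugate *ᵥ x) o else (diffMat U C (pnt o k) *ᵥ x) o := by
  unfold lmat Matrix.mulVec
  split_ifs with h <;> simp [h, Matrix.of_apply]

theorem det_updateCol_eq (C : Mat r) (o : Fin r) (x : Fin r → ℂ) :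
    (C.updateCol o x).det = (C.adjugate *ᵥ x) o := by
  rw [← Matrix.cramer_eq_adjugate_mulVec, Matrix.cramer_apply]

theorem mul_updateCol_eq (U C : Mat r) (o : Fin r) (x : Fin r → ℂ) :
    U * C.updateCol o x = (U * C).updateCol o (U *ᵥ x) := by
  ext a b
  by_cases h : b = o
  · subst h
    simp [Matrix.mul_apply, Matrix.mulVec, dotProduct]
  · simp [Matrix.mul_apply, Matrix.updateCol_ne h]

theorem sub_updateCol_eq (z : ℂ) (N : Mat r) (o : Fin r) (u : Fin r → ℂ) :
    z • (1 : Mat r) - N.updateCol o u =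
      (z • (1 : Mat r) - N).updateCol o (z • unitVec o - u) := by
  ext a b
  by_cases h : b = o
  · subst h
    simp [unitVec, Matrix.one_apply, Pi.single_apply]
  · simp [Matrix.updateCol_ne h]

/-- The difference of the two characteristic functions is affine in the column. -/
theorem det_diff (U C : Mat r) (o : Fin r) (x : Fin r → ℂ) (z : ℂ) :
    (z • (1 : Mat r) - U * C.updateCol o x).det - (z • (1 : Mat r) - C.updateCol o x).det =
      (constMat U C z *ᵥ (z • unitVec o)) o - (diffMat U C z *ᵥ x) o := by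
  rw [mul_updateCol_eq, sub_updateCol_eq, sub_updateCol_eq, det_updateCol_eq, det_updateCol_eq]
  simp only [constMat, diffMat, Matrix.mulVec_sub, Matrix.sub_mulVec, ← Matrix.mulVec_mulVec,
    Pi.sub_apply]
  ring

theorem charpoly_eval (M : Mat r) (z : ℂ) : M.charpoly.eval z = (z • (1 : Mat r) - M).det := by
  rw [Matrix.eval_charpoly]
  congr 2
  ext a b
  simp [Matrix.one_apply, Matrix.diagonal_apply]

theorem natDegree_charpoly_sub (hr : 0 < r) (M N : Mat r) :
    (M.charpoly - N.charpoly).natDegree < r := by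
  have h1 := Matrix.charpoly_natDegree_eq_dim M
  have h2 := Matrix.charpoly_natDegree_eq_dim N
  simp only [Fintype.card_fin] at h1 h2
  rcases eq_or_ne (M.charpoly - N.charpoly) 0 with h | h
  · rw [h]; simpa using hr
  · have hd : M.charpoly.degree = N.charpoly.degree := by
      rw [degree_eq_natDegree (Matrix.charpoly_monic M).ne_zero,
        degree_eq_natDegree (Matrix.charpoly_monic N).ne_zero, h1, h2]
    have := degree_sub_lt_left hd (Matrix.charpoly_monic M).ne_zero
      (by rw [(Matrix.charpoly_monic M).leadingCoeff, (Matrix.charpoly_monic N).leadingCoeff])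
    rw [degree_eq_natDegree h, degree_eq_natDegree (Matrix.charpoly_monic M).ne_zero, h1] at this
    exact_mod_cast this

theorem card_le_of_natDegree (o : Fin r) {P : ℂ[X]} (hd : P.natDegree < r)
    (h : ∀ k, P.eval (pnt o k) = 0) : P = 0 :=
  eq_zero_of_natDegree_lt_card_of_eval_eq_zero P (pnt_injective o) h (by simpa using hd)

/-- The linear part vanishes everywhere as soon as it vanishes at the evaluation points. -/
theorem diff_vanish {o : Fin r} {U C : Mat r} {x : Fin r → ℂ}
    (h : ∀ k, (diffMat U C (pnt o k) *ᵥ x) o = 0) (z : ℂ) : (diffMat U C z *ᵥ x) o = 0 := by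
  have hr : 0 < r := Fin.pos o
  set P : ℂ[X] := ((U * C.updateCol o 0).charpoly - (C.updateCol o 0).charpoly) -
    ((U * C.updateCol o x).charpoly - (C.updateCol o x).charpoly) with hP
  have hev : ∀ z, P.eval z = (diffMat U C z *ᵥ x) o := by
    intro z
    simp only [hP, eval_sub, charpoly_eval]
    rw [det_diff, det_diff, Matrix.mulVec_zero, Pi.zero_apply]
    ring
  have hd : P.natDegree < r :=
    lt_of_le_of_lt (natDegree_sub_le _ _)
      (max_lt (natDegree_charpoly_sub hr _ _) (natDegree_charpoly_sub hr _ _))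
  rw [← hev, card_le_of_natDegree o hd fun k => by rw [hev]; exact h k, eval_zero]

theorem diff_zero {U C : Mat r} (hU : U.det = 1) (o : Fin r) (x : Fin r → ℂ) :
    (diffMat U C 0 *ᵥ x) o = 0 := by
  have h1 := det_diff U C o x 0
  have h2 : (((0 : ℂ) • (1 : Mat r) - U * C.updateCol o x)).det =
      ((0 : ℂ) • (1 : Mat r) - C.updateCol o x).det := by
    simp only [zero_smul, zero_sub, ← Matrix.mul_neg, Matrix.det_mul, hU, one_mul]
  rw [h2, sub_self, zero_smul, Matrix.mulVec_zero, Pi.zero_apply, zero_sub] at h1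
  linear_combination h1

/-- A kernel vector of the system kills the determinant part and the linear part everywhere. -/
theorem kernel_facts {o : Fin r} {U C : Mat r} (hU : U.det = 1) {x : Fin r → ℂ}
    (h : lmat o U C *ᵥ x = 0) :
    (C.adjugate *ᵥ x) o = 0 ∧ ∀ z, (diffMat U C z *ᵥ x) o = 0 := by
  refine ⟨?_, fun z => diff_vanish (fun k => ?_) z⟩
  · simpa [lmat_mulVec] using congrFun h o
  · by_cases hk : k = o
    · subst hk
      simpa [pnt] using diff_zero hU _ x
    · simpa [lmat_mulVec, hk] using congrFun h k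

/-- The system is nondegenerate for `t • C` as soon as it is for `C`. -/
theorem lmat_smul {o : Fin r} {U C : Mat r} (hU : U.det = 1) {t : ℂ} (ht : t ≠ 0)
    (h : (lmat o U C).det ≠ 0) : (lmat o U (t • C)).det ≠ 0 := by
  intro h0
  obtain ⟨x, hx, hx0⟩ := Matrix.exists_mulVec_eq_zero_iff.2 h0
  obtain ⟨ha, hd⟩ := kernel_facts hU hx0
  have hc : t ^ (Fintype.card (Fin r) - 1) ≠ 0 := pow_ne_zero _ ht
  refine hx (by_contra fun hne => h (Matrix.exists_mulVec_eq_zero_iff.1 ⟨x, hne, ?_⟩))
  funext k
  rw [lmat_mulVec, Pi.zero_apply]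
  split_ifs with hk
  · rw [Matrix.adjugate_smul, Matrix.smul_mulVec, Pi.smul_apply, smul_eq_mul] at ha
    exact (mul_eq_zero.1 ha).resolve_left hc
  · have := hd (t * pnt o k)
    have e : diffMat U (t • C) (t * pnt o k) =
        t ^ (Fintype.card (Fin r) - 1) • diffMat U C (pnt o k) := by
      simp only [diffMat, Matrix.mul_smul, mul_smul, ← smul_sub, Matrix.adjugate_smul,
        Matrix.smul_mul]
    rw [e, Matrix.smul_mulVec, Pi.smul_apply, smul_eq_mul] at this
    exact (mul_eq_zero.1 this).resolve_left hc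

/-- A matrix with the same characteristic polynomial solves the system. -/
theorem system_of_charpoly {o : Fin r} {U C : Mat r} (hC : C.det = 1)
    (h : (U * C).charpoly = C.charpoly) : lmat o U C *ᵥ (fun a => C a o) = rhs o U C := by
  have hupd : C.updateCol o (fun a => C a o) = C := by
    ext a b
    by_cases hb : b = o
    · simp [hb]
    · simp [Matrix.updateCol_ne hb]
  funext k
  rw [lmat_mulVec, rhs]
  split_ifs with hk
  · rw [← det_updateCol_eq, hupd, hC]
  · have := det_diff U C o (fun a => C a o) (pnt o k)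
    rw [hupd, ← charpoly_eval, ← charpoly_eval, h, sub_self] at this
    linear_combination this

/-- A solution of the system has determinant one and the same characteristic polynomial. -/
theorem charpoly_of_system {o : Fin r} {U C : Mat r} (hU : U.det = 1) {x : Fin r → ℂ}
    (hx : lmat o U C *ᵥ x = rhs o U C) :
    (C.updateCol o x).det = 1 ∧
      (U * C.updateCol o x).charpoly = (C.updateCol o x).charpoly := by
  have hr : 0 < r := Fin.pos o
  refine ⟨?_, sub_eq_zero.1 (card_le_of_natDegree o (natDegree_charpoly_sub hr _ _) fun k => ?_)⟩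
  · have := congrFun hx o
    simpa [lmat_mulVec, rhs, det_updateCol_eq] using this
  rw [eval_sub, charpoly_eval, charpoly_eval, det_diff]
  by_cases hk : k = o
  · subst hk
    simp [pnt, diff_zero hU]
  · have := congrFun hx k
    rw [lmat_mulVec, rhs, if_neg hk, if_neg hk] at this
    rw [this, sub_self]

theorem pow_card_eq (M : Mat r) (v : Fin r → ℂ) :
    M ^ r *ᵥ v = -∑ i ∈ Finset.range r, M.charpoly.coeff i • (M ^ i *ᵥ v) := by
  have h := Matrix.aeval_self_charpoly M
  have hd : M.charpoly.natDegree = r := by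
    rw [Matrix.charpoly_natDegree_eq_dim, Fintype.card_fin]
  rw [aeval_eq_sum_range, hd, Finset.sum_range_succ] at h
  have h1 : M.charpoly.coeff r = 1 := by
    have := (Matrix.charpoly_monic M).coeff_natDegree
    rwa [hd] at this
  rw [h1, one_smul] at h
  rw [eq_neg_of_add_eq_zero_right h, Matrix.neg_mulVec, Matrix.sum_mulVec]
  simp [Matrix.smul_mulVec]

/-- The Krylov bases of two matrices with one characteristic polynomial intertwine them. -/
theorem intertwine {C D : Mat r} {v w : Fin r → ℂ} (h : D.charpoly = C.charpoly)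
    (hv : (kry C v).det ≠ 0) :
    kry D w * (kry C v)⁻¹ * C = D * (kry D w * (kry C v)⁻¹) := by
  set A := kry D w * (kry C v)⁻¹ with hA
  have hu : IsUnit (kry C v).det := isUnit_iff_ne_zero.2 hv
  have hAK : A * kry C v = kry D w := by
    rw [hA, Matrix.mul_assoc, Matrix.nonsing_inv_mul _ hu, Matrix.mul_one]
  have hk : ∀ k ≤ r, A *ᵥ (C ^ k *ᵥ v) = D ^ k *ᵥ w := by
    have hlt : ∀ k < r, A *ᵥ (C ^ k *ᵥ v) = D ^ k *ᵥ w := fun k hk => by
      have h1 := kry_col C v ⟨k, hk⟩
      simp only at h1
      rw [← h1, Matrix.mulVec_mulVec, hAK]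
      exact kry_col D w ⟨k, hk⟩
    intro k hk
    rcases lt_or_eq_of_le hk with hlt' | rfl
    · exact hlt k hlt'
    · rw [pow_card_eq, pow_card_eq, h, Matrix.mulVec_neg, Matrix.mulVec_sum]
      refine congrArg Neg.neg (Finset.sum_congr rfl fun i hi => ?_)
      rw [Matrix.mulVec_smul, hlt i (Finset.mem_range.1 hi)]
  have hz : A * C * kry C v = D * A * kry C v := by
    refine Matrix.ext_of_mulVec_single fun k => ?_
    rw [← Matrix.mulVec_mulVec, ← Matrix.mulVec_mulVec _ (D * A), kry_col, ← Matrix.mulVec_mulVec,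
      ← Matrix.mulVec_mulVec _ D, Matrix.mulVec_mulVec _ C, ← pow_succ', hk _ k.isLt.le,
      hk _ k.isLt, Matrix.mulVec_mulVec, ← pow_succ']
  exact (((Matrix.isUnit_iff_isUnit_det _).2 hu).mul_left_inj).1 hz

/-- A rank one idempotent commuting with `C`, from a nondegenerate trace form. -/
theorem exists_rankOne {C : Mat r} {o : Fin r} (hH : (hankel C).det ≠ 0)
    (hK : (kry C (unitVec o)).det ≠ 0) :
    ∃ v w : Fin r → ℂ, w ⬝ᵥ v = 1 ∧ Commute C (Matrix.vecMulVec v w) := by
  have hr : 0 < r := Fin.pos o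
  have hd : C.charpoly.natDegree = r := by
    rw [Matrix.charpoly_natDegree_eq_dim, Fintype.card_fin]
  obtain ⟨l, hl⟩ := IsAlgClosed.exists_root C.charpoly (by
    rw [degree_eq_natDegree (Matrix.charpoly_monic C).ne_zero, hd]
    exact_mod_cast hr.ne')
  set q := C.charpoly /ₘ (X - Polynomial.C l) with hq
  have hXq : (X - Polynomial.C l) * q = C.charpoly := mul_divByMonic_eq_iff_isRoot.2 hl
  have hmq : q.Monic := (monic_X_sub_C l).of_mul_monic_left
    (by rw [hXq]; exact Matrix.charpoly_monic C)
  have hqd : q.natDegree + 1 = r := by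
    rw [← hd, ← hXq, (monic_X_sub_C l).natDegree_mul hmq, natDegree_X_sub_C, add_comm]
  set Q : Mat r := aeval C q with hQ
  have hann : ∀ p : ℂ[X], aeval C p * Q = p.eval l • Q := by
    intro p
    obtain ⟨k, hk⟩ := X_sub_C_dvd_sub_C_eval (a := l) (p := p)
    have h0 : aeval C ((p - Polynomial.C (p.eval l)) * q) = 0 := by
      rw [hk, mul_comm _ k, mul_assoc, hXq, map_mul, Matrix.aeval_self_charpoly, mul_zero]
    rw [map_mul, map_sub, aeval_C, ← hQ, sub_mul, sub_eq_zero] at h0
    rw [h0, Algebra.smul_def]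
  have hQe : Q *ᵥ unitVec o = kry C (unitVec o) *ᵥ fun k => q.coeff k := by
    rw [hQ, aeval_eq_sum_range' (n := r) (by omega), Matrix.sum_mulVec,
      ← Fin.sum_univ_eq_sum_range (fun i => (q.coeff i • C ^ i) *ᵥ unitVec o) r]
    funext a
    simp only [Finset.sum_apply, Matrix.smul_mulVec, Pi.smul_apply, smul_eq_mul, Matrix.mulVec,
      kry, Matrix.of_apply, dotProduct]
    exact Finset.sum_congr rfl fun k _ => mul_comm _ _
  have hc0 : (fun k : Fin r => q.coeff k) ≠ 0 := by
    intro h
    have h1 := congrFun h ⟨q.natDegree, by omega⟩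
    exact one_ne_zero (hmq.coeff_natDegree.symm.trans h1)
  have hl0 : q.eval l ≠ 0 := by
    intro h0
    refine hc0 (by_contra fun hne => hH (Matrix.exists_mulVec_eq_zero_iff.1 ⟨_, hne, ?_⟩))
    funext i
    have hn : IsNilpotent (C ^ (i : ℕ) * Q) := by
      refine ⟨2, ?_⟩
      have e : C ^ (i : ℕ) * Q = aeval C (X ^ (i : ℕ) * q) := by simp [hQ]
      rw [e, pow_two]
      nth_rw 2 [map_mul]
      rw [← mul_assoc, ← map_mul, ← hQ, hann, eval_mul, eval_mul, h0]
      simp
    have h1 := (Matrix.isNilpotent_trace_of_isNilpotent hn).eq_zero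
    rw [hQ, aeval_eq_sum_range' (n := r) (by omega), Finset.mul_sum, Matrix.trace_sum,
      ← Fin.sum_univ_eq_sum_range (fun j => (C ^ (i : ℕ) * (q.coeff j • C ^ j)).trace) r] at h1
    rw [Pi.zero_apply, ← h1]
    simp only [Matrix.mulVec, dotProduct, hankel, Matrix.of_apply, Matrix.mul_smul, ← pow_add,
      Matrix.trace_smul, smul_eq_mul]
    exact Finset.sum_congr rfl fun k _ => mul_comm _ _
  set P : Mat r := (q.eval l)⁻¹ • Q with hP
  set K := kry C (unitVec o) with hKdef
  have hu : IsUnit K.det := isUnit_iff_ne_zero.2 hK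
  set v := P *ᵥ unitVec o with hv
  set w := (fun k : Fin r => l ^ (k : ℕ)) ᵥ* K⁻¹ with hw
  have hPK : P * K = Matrix.vecMulVec v fun k : Fin r => l ^ (k : ℕ) := by
    refine Matrix.ext_of_mulVec_single fun k => ?_
    rw [← Matrix.mulVec_mulVec, hKdef, kry_col, hv]
    have e : Q * C ^ (k : ℕ) = l ^ (k : ℕ) • Q := by
      have h := hann (X ^ (k : ℕ))
      rw [map_pow, aeval_X, eval_pow, eval_X] at h
      rw [← h, hQ, ← aeval_X_pow (R := ℂ) C, ← map_mul, ← map_mul, mul_comm]
    rw [Matrix.mulVec_mulVec, hP, Matrix.smul_mul, e]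
    funext a
    simp [Matrix.smul_mulVec, Matrix.vecMulVec_apply, mul_comm, mul_left_comm]
  have hPvw : P = Matrix.vecMulVec v w := by
    rw [hw, ← Matrix.vecMulVec_mul, ← hPK, Matrix.mul_assoc, Matrix.mul_nonsing_inv _ hu,
      Matrix.mul_one]
  have hPP : P * P = P := by
    rw [hP, Matrix.smul_mul, Matrix.mul_smul, hQ, hann, ← hQ, smul_smul, smul_smul]
    congr 1
    field_simp
  have hP0 : P ≠ 0 := by
    intro h
    have hQ0 : Q = 0 := by
      rw [hP, smul_eq_zero] at h
      exact h.resolve_left (inv_ne_zero hl0)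
    rw [hQ0, Matrix.zero_mulVec] at hQe
    exact hc0 (Matrix.eq_zero_of_mulVec_eq_zero hK hQe.symm)
  refine ⟨v, w, ?_, ?_⟩
  · have h2 := hPP
    rw [hPvw, Matrix.vecMulVec_mul_vecMulVec] at h2
    have h3 : (w ⬝ᵥ v - 1) • P = 0 := by
      rw [sub_smul, one_smul, sub_eq_zero, hPvw]
      conv_rhs => rw [← h2]
      simp [Matrix.vecMulVec_smul]
    exact sub_eq_zero.1 ((smul_eq_zero.1 h3).resolve_right hP0)
  · rw [← hPvw, hP]
    refine Commute.smul_right ?_ _
    have h := (Commute.all X q).map (aeval C : ℂ[X] →ₐ[ℂ] Mat r)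
    rwa [aeval_X, ← hQ] at h

end Vale.Agent.P002.Surf
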