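import Vale.Agent.P002.Surf.Spanning
import Vale.Agent.P002.Surf.Bricks

/-!
P002, surface groups: curves through a handlebody point inside the image of the composite flows,
rescaled and translated along a complement of the kernel of the linearised relation.
-/

namespace Vale.Agent.P002.Surf

open Matrix Module Filter
open scoped Topology Matrix.Norms.Operator

variable {g r M : ℕ}

theorem contDiff_eval {ι : Type*} [Fintype ι] (P : MvPolynomial ι ℂ) :
    ContDiff ℂ 1 fun x : ι → ℂ => MvPolynomial.eval x P := by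
  induction P using MvPolynomial.induction_on with
  | C c => simpa using contDiff_const
  | add p q hp hq => simpa using hp.add hq
  | mul_X p i hp => simpa using hp.mul (contDiff_apply ℂ ℂ i)

theorem RatFn.contDiffAt {ι : Type*} [Fintype ι] {D : Set (ι → ℂ)} (hD : IsOpen D)
    {f : (ι → ℂ) → ℂ} (hf : RatFn (fun a : D => (a : ι → ℂ)) fun a => f a) {x : ι → ℂ}
    (hx : x ∈ D) : ContDiffAt ℂ 1 f x := by
  obtain ⟨P, Q, h⟩ := hf
  have h1 : f =ᶠ[𝓝 x] fun y => MvPolynomial.eval y P / MvPolynomial.eval y Q := by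
    filter_upwards [hD.mem_nhds hx] with y hy using (h ⟨y, hy⟩).2
  refine ContDiffAt.congr_of_eventuallyEq ?_ h1
  exact ((contDiff_eval P).contDiffAt).div ((contDiff_eval Q).contDiffAt) (h ⟨x, hx⟩).1

theorem contDiffAt_mat {E : Type*} [NormedAddCommGroup E] [NormedSpace ℂ E] {f : E → Mat r}
    {x : E} (h : ∀ k l, ContDiffAt ℂ 1 (fun y => f y k l) x) : ContDiffAt ℂ 1 f x := by
  have : f = fun y => ∑ k, ∑ l, f y k l • Matrix.single k l (1 : ℂ) := by
    funext y
    conv_lhs => rw [Matrix.matrix_eq_sum_single (f y)]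
    exact Finset.sum_congr rfl fun k _ => Finset.sum_congr rfl fun l _ => by
      simp [Matrix.smul_single]
  rw [this]
  exact ContDiffAt.sum fun k _ => ContDiffAt.sum fun l _ => (h k l).smul contDiffAt_const

theorem hasDerivAt_line {V : Type*} [NormedAddCommGroup V] [NormedSpace ℂ V] (a v : V) :
    HasDerivAt (fun t : ℂ => a + t • v) v 0 :=
  (((hasDerivAt_id (0 : ℂ)).smul_const v).const_add a).congr_deriv (one_smul ℂ v)

theorem det_qMat_deriv (Y : Mat r) :
    HasDerivAt (fun t : ℂ => (1 + t • Y).det) Y.trace 0 := by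
  let p : Polynomial ℂ := (1 + (Polynomial.X : Polynomial ℂ) • Y.map Polynomial.C).det.divX.divX
  have h : (fun t : ℂ => (1 + t • Y).det) = fun t => 1 + Y.trace * t + p.eval t * t ^ 2 :=
    funext fun t => Matrix.det_one_add_smul t Y
  rw [h]
  exact ((((hasDerivAt_id (0 : ℂ)).const_mul Y.trace).const_add 1).add
    ((p.hasDerivAt (0 : ℂ)).mul (hasDerivAt_pow 2 (0 : ℂ)))).congr_deriv (by simp)

theorem pow_one_add_deriv (Y : Mat r) :
    ∀ k : ℕ, HasDerivAt (fun t : ℂ => (1 + t • Y) ^ k) ((k : ℂ) • Y) 0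
  | 0 => (hasDerivAt_const (0 : ℂ) (1 : Mat r)).congr_deriv (by simp) |>.congr_of_eventuallyEq
      (Eventually.of_forall fun t => pow_zero _)
  | k + 1 => by
    have h2 := (pow_one_add_deriv Y k).mul (hasDerivAt_line (1 : Mat r) Y)
    refine (h2.congr_of_eventuallyEq (Eventually.of_forall fun t => pow_succ _ _)).congr_deriv ?_
    simp [add_smul]

variable (e : Fin r) (A0 : Fin g → Matrix.SpecialLinearGroup (Fin r) ℂ) (L : Fin M → Curve g)

theorem stage_single {p : Pix g r M → ℂ} (m : Fin M)
    (h : ∀ k, k ≠ m → qPart p k = 0) : ∀ j, m.val < j → stage e A0 L p j =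
      flow (L m) (handlePt (baseA e A0 p))
        (hFn (curveElt (L m) (handlePt (baseA e A0 p))) (qPart p m))
  | 0, hj => absurd hj (Nat.not_lt_zero _)
  | j + 1, hj => by
    rcases eq_or_lt_of_le (Nat.lt_succ_iff.1 hj) with he | hlt
    · simp only [stage]
      rw [dif_pos (he ▸ m.2)]
      have hmj : (⟨j, he ▸ m.2⟩ : Fin M) = m := Fin.ext he.symm
      rw [hmj, stage_of_zero e A0 L j fun k hk => h k (by
        intro hkm; rw [hkm, he] at hk; exact lt_irrefl _ hk)]
    · simp only [stage]
      split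
      · rename_i hjM
        rw [stage_single m h j hlt, h ⟨j, hjM⟩ (by
          intro hjm; rw [← hjm] at hlt; exact lt_irrefl _ hlt), hFn_zero, flow_one]
      · exact stage_single m h j hlt

/-- The parameters: flow parameters, scalings and a complementary translation. -/
abbrev Par (g r M : ℕ) (W : Submodule ℂ (Pt g r)) :=
  (Pix g r M → ℂ) × (Fin g → ℂ × ℂ) × W

/-- The rescaled composite flow. -/
noncomputable def scaled (p : Pix g r M → ℂ) (s : Fin g → ℂ × ℂ) : Pt g r :=
  fun i => ((1 + (s i).1) • (toPt (stage e A0 L p M) i).1,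
    (1 + (s i).2) • (toPt (stage e A0 L p M) i).2)

/-- The map whose image is a neighbourhood. -/
noncomputable def theta (W : Submodule ℂ (Pt g r)) (u : Par g r M W) : Pt g r :=
  scaled e A0 L u.1 u.2.1 + u.2.2.1

theorem stage_zero_param : stage e A0 L (0 : Pix g r M → ℂ) M = handlePt A0 := by
  rw [stage_of_zero e A0 L M fun k _ => (rfl : qPart (0 : Pix g r M → ℂ) k = 0)]
  exact congrArg handlePt (funext fun i => baseA_zero e A0 i)

theorem scaled_zero : scaled e A0 L (0 : Pix g r M → ℂ) 0 = toPt (handlePt A0) := by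
  funext i
  simp [scaled, stage_zero_param]

theorem theta_zero (W : Submodule ℂ (Pt g r)) : theta e A0 L W 0 = toPt (handlePt A0) := by
  simp [theta, scaled_zero]

theorem contDiffAt_theta {o z : Fin g} (hok : StageOK e A0 L o z M)
    (h0 : (0 : Pix g r M → ℂ) ∈ Dom e A0 L o z M) (W : Submodule ℂ (Pt g r)) :
    ContDiffAt ℂ 1 (theta e A0 L W) 0 := by
  refine ContDiffAt.add ?_ ?_
  · refine contDiffAt_pi.2 fun i => ?_
    have hc1 : ContDiffAt ℂ 1 (fun p => (toPt (stage e A0 L p M) i).1) (0 : Pix g r M → ℂ) :=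
      contDiffAt_mat fun k l => RatFn.contDiffAt hok.isOpen
        (f := fun p => (stage e A0 L p M i).1.1 k l) ((hok.rat i).1 k l) h0
    have hc2 : ContDiffAt ℂ 1 (fun p => (toPt (stage e A0 L p M) i).2) (0 : Pix g r M → ℂ) :=
      contDiffAt_mat fun k l => RatFn.contDiffAt hok.isOpen
        (f := fun p => (stage e A0 L p M i).2.1 k l) ((hok.rat i).2 k l) h0
    have hp : ContDiffAt ℂ 1 (fun u : Par g r M W => u.1) 0 := contDiffAt_fst
    have h1 := ContDiffAt.comp (f := fun u : Par g r M W => u.1) 0 hc1 hp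
    have h2 := ContDiffAt.comp (f := fun u : Par g r M W => u.1) 0 hc2 hp
    have hs1 : ContDiffAt ℂ 1 (fun u : Par g r M W => 1 + (u.2.1 i).1) 0 := by fun_prop
    have hs2 : ContDiffAt ℂ 1 (fun u : Par g r M W => 1 + (u.2.1 i).2) 0 := by fun_prop
    exact (hs1.smul h1).prodMk (hs2.smul h2)
  · exact W.subtypeL.contDiff.contDiffAt.comp 0 (contDiffAt_snd.comp 0 contDiffAt_snd)

/-- A velocity of a curve through the base point lies in the range of the derivative. -/
theorem mem_range_of_line {W : Submodule ℂ (Pt g r)} {T : Par g r M W →L[ℂ] Pt g r}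
    (hT : HasStrictFDerivAt (theta e A0 L W) T 0) {d : Par g r M W} {v : Pt g r}
    (hv : HasDerivAt (fun t : ℂ => theta e A0 L W (t • d)) v 0) :
    v ∈ LinearMap.range T.toLinearMap := by
  have hl : HasDerivAt (fun t : ℂ => t • d) d 0 :=
    ((hasDerivAt_id (0 : ℂ)).smul_const d).congr_deriv (one_smul ℂ d)
  have h2 := hT.hasFDerivAt.comp_hasDerivAt_of_eq (0 : ℂ) hl (zero_smul ℂ d).symm
  exact ⟨d, h2.unique hv⟩

variable {W : Submodule ℂ (Pt g r)} {T : Par g r M W →L[ℂ] Pt g r}

theorem mem_range_compl (hT : HasStrictFDerivAt (theta e A0 L W) T 0) {w : Pt g r} (hw : w ∈ W) :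
    w ∈ LinearMap.range T.toLinearMap := by
  refine mem_range_of_line e A0 L hT (d := (0, 0, ⟨w, hw⟩)) ?_
  refine (hasDerivAt_line (toPt (handlePt A0)) w).congr_of_eventuallyEq
    (Eventually.of_forall fun t => ?_)
  simp [theta, scaled_zero]

theorem mem_range_scal (hT : HasStrictFDerivAt (theta e A0 L W) T 0) (s : Fin g → ℂ × ℂ) :
    (fun i => ((s i).1 • (A0 i).1, (s i).2 • (1 : Mat r))) ∈ LinearMap.range T.toLinearMap := by
  refine mem_range_of_line e A0 L hT (d := (0, s, 0)) ?_
  refine (hasDerivAt_line (toPt (handlePt A0))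
    (fun i => ((s i).1 • (A0 i).1, (s i).2 • (1 : Mat r)) : Pt g r)).congr_of_eventuallyEq
      (Eventually.of_forall fun t => ?_)
  funext i
  simp [theta, scaled, stage_zero_param, toPt, handlePt, add_smul, smul_smul]

/-- The parameter direction moving one first entry. -/
def dirX (i : Fin g) (E : Mat r) : Pix g r M → ℂ :=
  Sum.elim (fun q => if q.1 = i then E q.2.1 q.2.2 else 0) fun _ => 0

/-- The parameter direction moving one flow. -/
def dirQ (m : Fin M) (v : Fin r → ℂ) : Pix g r M → ℂ :=
  Sum.elim (fun _ => 0) fun q => if q.1 = m then v q.2 else 0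

theorem qPart_dirX (i : Fin g) (E : Mat r) (t : ℂ) (k : Fin M) :
    qPart (t • dirX i E : Pix g r M → ℂ) k = 0 := by funext a; simp [qPart, dirX]

theorem xMat_dirX (i : Fin g) (E : Mat r) (t : ℂ) (j : Fin g) :
    xMat (t • dirX i E : Pix g r M → ℂ) j = if j = i then 1 + t • E else 1 := by
  ext a b
  by_cases hj : j = i <;> simp [xMat, dirX, hj]

theorem qPart_dirQ (m : Fin M) (v : Fin r → ℂ) (t : ℂ) (k : Fin M) :
    qPart (t • dirQ m v : Pix g r M → ℂ) k = if k = m then t • v else 0 := by
  funext a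
  by_cases hk : k = m <;> simp [qPart, dirQ, hk]

theorem baseA_dirQ (m : Fin M) (v : Fin r → ℂ) (t : ℂ) (i : Fin g) :
    baseA e A0 (t • dirQ m v : Pix g r M → ℂ) i = A0 i := by
  have h1 : xMat (t • dirQ m v : Pix g r M → ℂ) i = 1 := by
    ext a b; simp [xMat, dirQ]
  refine Subtype.ext ?_
  rw [baseA, dif_pos (by rw [h1, det_one]; exact one_ne_zero)]
  show (A0 i).1 * slNorm e _ = (A0 i).1
  rw [h1, slNorm_of_det_one e det_one, Matrix.mul_one]

theorem mem_range_of_slNorm (hT : HasStrictFDerivAt (theta e A0 L W) T 0) (i : Fin g) {E Z : Mat r}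
    (hZ : HasDerivAt (fun t : ℂ => slNorm e (1 + t • E)) Z 0) :
    (Pi.single i ((A0 i).1 * Z, 0) : Pt g r) ∈ LinearMap.range T.toLinearMap := by
  refine mem_range_of_line e A0 L hT (d := (dirX i E, 0, 0)) ?_
  have hne : ∀ᶠ t in 𝓝 (0 : ℂ), (1 + t • E).det ≠ 0 :=
    (Continuous.matrix_det (by fun_prop :
      Continuous fun t : ℂ => 1 + t • E)).continuousAt.eventually_ne (by simp)
  refine hasDerivAt_pi.2 fun j => ?_
  have hval : ∀ t : ℂ, theta e A0 L W (t • (dirX i E, 0, 0)) j =
      ((baseA e A0 (t • dirX i E : Pix g r M → ℂ) j).1, (1 : Mat r)) := by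
    intro t
    have hs : stage e A0 L (t • dirX i E) M = handlePt (baseA e A0 (t • dirX i E)) :=
      stage_of_zero e A0 L M fun k _ => qPart_dirX i E t k
    simp [theta, scaled, hs, toPt, handlePt]
  by_cases hj : j = i
  · subst hj
    rw [Pi.single_eq_same]
    refine ((hZ.const_mul (A0 j).1).prodMk (hasDerivAt_const (0 : ℂ) (1 : Mat r))
      ).congr_of_eventuallyEq ?_
    filter_upwards [hne] with t ht
    refine (hval t).trans ?_
    rw [baseA, dif_pos (by rwa [xMat_dirX, if_pos rfl])]
    refine Prod.ext ?_ rfl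
    show (A0 j).1 * slNorm e (xMat (t • dirX j E : Pix g r M → ℂ) j) = _
    rw [xMat_dirX, if_pos rfl]
  · rw [Pi.single_eq_of_ne hj]
    refine (hasDerivAt_const (0 : ℂ) (((A0 j).1, (1 : Mat r)) : Pair r)).congr_of_eventuallyEq
      (Eventually.of_forall fun t => ?_)
    refine (hval t).trans ?_
    have h1 : xMat (t • dirX i E : Pix g r M → ℂ) j = 1 := by rw [xMat_dirX, if_neg hj]
    rw [baseA, dif_pos (by rw [h1, det_one]; exact one_ne_zero)]
    refine Prod.ext ?_ rfl
    show (A0 j).1 * slNorm e _ = (A0 j).1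
    rw [h1, slNorm_of_det_one e det_one, Matrix.mul_one]

/-- Every variation of the first entries is in the range. -/
theorem mem_range_fst [NeZero r] (hT : HasStrictFDerivAt (theta e A0 L W) T 0)
    (da : Fin g → Mat r) : (fun i => (da i, (0 : Mat r))) ∈ LinearMap.range T.toLinearMap := by
  classical
  set R := LinearMap.range T.toLinearMap
  have key : ∀ (i : Fin g) (X : Mat r), (Pi.single i (X, 0) : Pt g r) ∈ R := by
    intro i
    let f : Mat r →ₗ[ℂ] Pt g r := (LinearMap.single ℂ (fun _ : Fin g => Pair r) i).comp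
      ((LinearMap.inl ℂ (Mat r) (Mat r)).comp (LinearMap.mulLeft ℂ (A0 i).1))
    have hf : ∀ Z, f Z = Pi.single i ((A0 i).1 * Z, 0) := fun Z => rfl
    have hone : (1 : Mat r) ∈ R.comap f := by
      have h := mem_range_scal e A0 L hT fun k => if k = i then (1, 0) else 0
      show f 1 ∈ R
      have h2 : f 1 = fun k => ((if k = i then ((1 : ℂ), (0 : ℂ)) else 0).1 • (A0 k).1,
          (if k = i then ((1 : ℂ), (0 : ℂ)) else 0).2 • (1 : Mat r)) := by
        funext k
        by_cases hk : k = i
        · subst hk; simp [hf]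
        · simp [hf, hk, Prod.zero_eq_mk]
      rw [h2]
      exact h
    have hoff : ∀ a b, a ≠ b → Matrix.single a b (1 : ℂ) ∈ R.comap f := by
      intro a b hab
      refine mem_range_of_slNorm e A0 L hT i (E := Matrix.single a b 1)
        ((hasDerivAt_line (1 : Mat r) _).congr_of_eventuallyEq
          (Eventually.of_forall fun t => slNorm_of_det_one e ?_))
      rw [Matrix.smul_single, smul_eq_mul, mul_one]
      exact Matrix.det_transvection_of_ne a b hab t
    have hdiag : ∀ a, Matrix.single a a (1 : ℂ) - Matrix.single e e 1 ∈ R.comap f := by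
      intro a
      by_cases ha : a = e
      · simp [ha]
      refine mem_range_of_slNorm e A0 L hT i (E := Matrix.single a a 1) ?_
      have h1 : HasDerivAt (fun t : ℂ => (1 + t)⁻¹ - 1) (-1) 0 :=
        ((((hasDerivAt_id (0 : ℂ)).const_add 1).inv (by simp)).sub_const 1).congr_deriv (by simp)
      refine (((hasDerivAt_line (1 : Mat r) (Matrix.single a a (1 : ℂ))).add
        (h1.smul_const (Matrix.single e e (1 : ℂ)))).congr_of_eventuallyEq ?_).congr_deriv
          (by simp [sub_eq_add_neg])
      have hne : ∀ᶠ t in 𝓝 (0 : ℂ), 1 + t ≠ 0 :=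
        (continuous_const.add continuous_id).continuousAt.eventually_ne (by simp)
      filter_upwards [hne] with t ht
      have hd : (1 + t • Matrix.single a a (1 : ℂ)) =
          diagonal (fun k => if k = a then 1 + t else 1) := by
        ext p q
        by_cases hpq : p = q
        · subst hpq
          by_cases hpa : p = a
          · subst hpa; simp
          · simp [hpa, Ne.symm hpa]
        · have hne2 : ¬(a = p ∧ a = q) := fun h => hpq (h.1.symm.trans h.2)
          simp [hpq, hne2]
      show slNorm e _ = _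
      rw [slNorm, hd, det_diagonal, Fintype.prod_eq_single a fun k hk => by simp [hk], if_pos rfl]
      ext p q
      by_cases hp : p = e
      · subst hp
        by_cases hq : q = p
        · subst hq; simp [Ne.symm ha, ha]
        · simp [Ne.symm hq, ha]
      · simp only [Matrix.updateRow_ne hp, Pi.add_apply, Matrix.add_apply, Matrix.smul_apply]
        rw [Matrix.single_apply_of_ne _ _ _ _ _ (fun h : e = p ∧ e = q => hp h.1.symm),
          smul_zero, add_zero, ← hd]
        simp [Matrix.single_apply]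
    have hee : Matrix.single e e (1 : ℂ) ∈ R.comap f := by
      have h1 : ∑ a, (Matrix.single a a (1 : ℂ) - Matrix.single e e 1) ∈ R.comap f :=
        sum_mem fun a _ => hdiag a
      rw [Finset.sum_sub_distrib, Matrix.sum_single_eq_diagonal, Finset.sum_const,
        Finset.card_univ, Fintype.card_fin, show diagonal (fun _ : Fin r => (1 : ℂ)) = 1 from rfl,
        ← Nat.cast_smul_eq_nsmul ℂ] at h1
      have h2 := sub_mem hone h1
      rw [sub_sub_cancel] at h2
      have h3 := (R.comap f).smul_mem ((r : ℂ)⁻¹) h2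
      rwa [smul_smul, inv_mul_cancel₀ (Nat.cast_ne_zero.2 (NeZero.ne r)), one_smul] at h3
    have hall : ∀ Z : Mat r, Z ∈ R.comap f := by
      intro Z
      rw [Matrix.matrix_eq_sum_single Z]
      refine sum_mem fun a _ => sum_mem fun b _ => ?_
      rw [← mul_one (Z a b), ← smul_eq_mul, ← Matrix.smul_single]
      refine (R.comap f).smul_mem _ ?_
      by_cases hab : a = b
      · subst hab
        have := add_mem (hdiag a) hee
        rwa [sub_add_cancel] at this
      · exact hoff a b hab
    intro X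
    have h : f ((A0 i).1⁻¹ * X) ∈ R := hall _
    have hu : IsUnit (A0 i).1.det := by rw [(A0 i).2]; exact isUnit_one
    rwa [hf, ← Matrix.mul_assoc, Matrix.mul_nonsing_inv _ hu, Matrix.one_mul] at h
  have : (fun i => (da i, (0 : Mat r))) = ∑ i, (Pi.single i (da i, 0) : Pt g r) := by
    funext k
    rw [Finset.sum_apply, Fintype.sum_eq_single k fun i hi => Pi.single_eq_of_ne (Ne.symm hi) _]
    simp
  rw [this]
  exact sum_mem fun i _ => key i _

end Vale.Agent.P002.Surf
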