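import Vale.Agent.P002.Surf.PairFrames

/-!
P002, surface groups: dimension counts for a family of pairs in block triangular or block diagonal
form, and invariance of the velocity bound under a change of frame.
-/

namespace Vale.Agent.P002.Surf.PairLem

open Matrix Module Filter
open scoped Matrix.Norms.Operator Topology

variable {r k q : ℕ} {X : Type} [TopologicalSpace X]

/-- The velocities of the curves through a point. -/
def Vel (p : X → Pair r) (x : X) : Set (Pair r) :=
  {v | ∃ γ : ℂ → X, γ 0 = x ∧ ContinuousAt γ 0 ∧ HasDerivAt (p ∘ γ) v 0}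

/-- The velocities together with the directions of conjugation. -/
noncomputable def Tan (p : X → Pair r) (x : X) : Submodule ℂ (Pair r) :=
  Submodule.span ℂ (Vel p x) ⊔ LinearMap.range (adP (p x))

/-- The velocity bound at a point. -/
def Bound (p : X → Pair r) (x : X) : Prop :=
  finrank ℂ (Tan p x) + finrank ℂ (pairCommutant (p x)) ≤ 2 * r * r

/-- The velocity bound holds generically for pairs of size `r`. -/
def BoundAt (r : ℕ) : Prop :=
  ∀ (X : Type) [TopologicalSpace X] (p : X → Pair r) (U : Set X), IsOpen U → U.Nonempty →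
    ContinuousOn p U → (∀ x ∈ U, ¬ PairScalar (p x)) →
      ∃ U', IsOpen U' ∧ U'.Nonempty ∧ U' ⊆ U ∧ ∀ x ∈ U', Bound p x

theorem one_mem_comm (p : Pair r) : (1 : Mat r) ∈ pairCommutant p :=
  ⟨Commute.one_left _, Commute.one_left _⟩

theorem finrank_mat (a b : ℕ) : finrank ℂ (Matrix (Fin a) (Fin b) ℂ) = a * b := by
  rw [Module.finrank_matrix, Module.finrank_self, mul_one, Fintype.card_fin, Fintype.card_fin]

theorem finrank_pair (r : ℕ) : finrank ℂ (Pair r) = 2 * r * r := by
  rw [Module.finrank_prod, finrank_mat]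
  ring

theorem pairScalar_of_le_one (h : r ≤ 1) (p : Pair r) : PairScalar p := by
  intro Z _ _
  rcases Nat.le_one_iff_eq_zero_or_eq_one.1 h with rfl | rfl
  · exact ⟨0, Subsingleton.elim _ _⟩
  · exact ⟨Z 0 0, by ext i j; simp [Subsingleton.elim i 0, Subsingleton.elim j 0]⟩

theorem finrank_comm_of_scalar {p : Pair r} (hp : PairScalar p) :
    finrank ℂ (pairCommutant p) ≤ 1 := by
  refine (Submodule.finrank_mono (t := Submodule.span ℂ {(1 : Mat r)}) fun Z hZ => ?_).trans ?_
  · obtain ⟨c, hc⟩ := hp Z hZ.1 hZ.2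
    exact Submodule.mem_span_singleton.2 ⟨c, hc.symm⟩
  · simpa using finrank_span_le_card ({(1 : Mat r)} : Set (Mat r))

theorem pairScalar_of_finrank (hr : 0 < r) {p : Pair r} (h : finrank ℂ (pairCommutant p) ≤ 1) :
    PairScalar p := by
  have : Nonempty (Fin r) := ⟨⟨0, hr⟩⟩
  have h1 : (1 : Mat r) ≠ 0 := one_ne_zero
  intro Z hA hB
  obtain ⟨c, hc⟩ : ∃ c : ℂ, c • (1 : Mat r) = Z := by
    have heq : Submodule.span ℂ {(1 : Mat r)} = pairCommutant p :=
      Submodule.eq_of_le_of_finrank_le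
        (by rw [Submodule.span_singleton_le_iff_mem]; exact one_mem_comm p)
        (by rw [finrank_span_singleton h1]; exact h)
    exact Submodule.mem_span_singleton.1 (heq.ge ⟨hA, hB⟩)
  exact ⟨c, hc.symm⟩

/-- A product of subspaces is the product of the spaces. -/
noncomputable def subProd {W W' : Type*} [AddCommGroup W] [Module ℂ W] [AddCommGroup W']
    [Module ℂ W'] (A : Submodule ℂ W) (B : Submodule ℂ W') : A.prod B ≃ₗ[ℂ] A × B where
  toFun z := (⟨z.1.1, z.2.1⟩, ⟨z.1.2, z.2.2⟩)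
  invFun z := ⟨(z.1.1, z.2.1), ⟨z.1.2, z.2.2⟩⟩
  map_add' _ _ := rfl
  map_smul' _ _ := rfl
  left_inv _ := rfl
  right_inv _ := rfl

theorem mem_of_eventually {W : Type*} [NormedAddCommGroup W] [NormedSpace ℂ W]
    [FiniteDimensional ℂ W] {S : Submodule ℂ W} {f : ℂ → W} {v : W} (hf : HasDerivAt f v 0)
    (hS : ∀ᶠ t in 𝓝 0, f t ∈ S) : v ∈ S := by
  refine S.closed_of_finiteDimensional.mem_of_tendsto (hasDerivAt_iff_tendsto_slope.1 hf) ?_
  filter_upwards [hS.filter_mono nhdsWithin_le_nhds] with t ht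
  rw [slope_def_module]
  exact S.smul_mem _ (S.sub_mem ht hS.self_of_nhds)

/-! ### Change of frame -/

/-- Conjugation of a pair by a frame. -/
noncomputable def cjP (T : Mat r) : Pair r →ₗ[ℂ] Pair r :=
  ((LinearMap.mulRight ℂ T).comp (LinearMap.mulLeft ℂ (Ring.inverse T))).prodMap
    ((LinearMap.mulRight ℂ T).comp (LinearMap.mulLeft ℂ (Ring.inverse T)))

theorem cjP_apply (T : Mat r) (p : Pair r) :
    cjP T p = (Ring.inverse T * p.1 * T, Ring.inverse T * p.2 * T) := rfl

theorem inv_mul_mul {T : Mat r} (hT : IsUnit T) (A B : Mat r) :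
    Ring.inverse T * A * T * (Ring.inverse T * B * T) = Ring.inverse T * (A * B) * T := by
  simp only [mul_assoc, Ring.mul_inverse_cancel_left _ _ hT]

theorem cj_cancel {T : Mat r} (hT : IsUnit T) (A : Mat r) :
    T * (Ring.inverse T * A * T) * Ring.inverse T = A := by
  rw [← mul_assoc, Ring.mul_inverse_cancel_left _ _ hT, mul_assoc, Ring.mul_inverse_cancel _ hT,
    mul_one]

theorem commute_cj {T : Mat r} (hT : IsUnit T) {A B : Mat r} (h : Commute A B) :
    Commute (Ring.inverse T * A * T) (Ring.inverse T * B * T) := by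
  show _ * _ = _ * _
  rw [inv_mul_mul hT, inv_mul_mul hT, h.eq]

theorem noIdem_cjP {T : Mat r} (hT : IsUnit T) {p : Pair r} (hp : NoIdem p) :
    NoIdem (cjP T p) := by
  intro Z hZ hZZ
  have hT' : IsUnit (Ring.inverse T) := hT.ringInverse
  have hi : Ring.inverse (Ring.inverse T) = T := by
    obtain ⟨u, rfl⟩ := hT
    rw [Ring.inverse_unit, Ring.inverse_unit, inv_inv]
  have key : ∀ A : Mat r, Commute Z (Ring.inverse T * A * T) →
      Commute (T * Z * Ring.inverse T) A := fun A h => by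
    have := commute_cj hT' h
    rwa [hi, cj_cancel hT] at this
  have h2 := inv_mul_mul hT' Z Z
  rw [hi, hZZ] at h2
  have hback : Z = Ring.inverse T * (T * Z * Ring.inverse T) * T := by
    have := cj_cancel hT' Z
    rwa [hi, eq_comm] at this
  rcases hp _ ⟨key _ hZ.1, key _ hZ.2⟩ h2 with h | h
  · left; rw [hback, h, mul_zero, zero_mul]
  · right; rw [hback, h, mul_one, Ring.inverse_mul_cancel _ hT]

theorem along_cjP {p : X → Pair r} {V : Set X} (hp : ContinuousOn p V) {T : X → Mat r}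
    (hT : Along p V T) (hu : ∀ x ∈ V, IsUnit (T x)) : Along p V fun x => cjP (T x) (p x) := by
  have : CompleteSpace (Mat r) := FiniteDimensional.complete ℂ _
  refine (hT.prodMk (Along.self hp)).comp
    (Φ := fun z : Mat r × Pair r => cjP z.1 z.2) fun x hx => ?_
  have hi : DifferentiableAt ℂ (fun z : Mat r × Pair r => Ring.inverse z.1) (T x, p x) :=
    DifferentiableAt.comp (g := Ring.inverse) (T x, p x) (differentiableAt_inverse (hu x hx))
      differentiableAt_fst
  have h1 : DifferentiableAt ℂ (fun z : Mat r × Pair r => z.2.1) (T x, p x) :=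
    differentiableAt_snd.fst
  have h2 : DifferentiableAt ℂ (fun z : Mat r × Pair r => z.2.2) (T x, p x) :=
    differentiableAt_snd.snd
  exact ((hi.mul h1).mul differentiableAt_fst).prodMk ((hi.mul h2).mul differentiableAt_fst)

/-- The bound in a moving frame gives the bound. -/
theorem bound_of_frame {p : X → Pair r} {V : Set X} {T : X → Mat r} (hT : Along p V T)
    (hu : ∀ x ∈ V, IsUnit (T x)) {x : X} (hx : x ∈ V)
    (h : Bound (fun y => cjP (T y) (p y)) x) : Bound p x := by
  have : CompleteSpace (Mat r) := FiniteDimensional.complete ℂ _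
  have hux := hu x hx
  have hinj : Function.Injective (cjP (T x)) := fun a b hab => by
    simp only [cjP_apply, Prod.mk.injEq] at hab
    exact Prod.ext (by rw [← cj_cancel hux a.1, hab.1, cj_cancel hux])
      (by rw [← cj_cancel hux a.2, hab.2, cj_cancel hux])
  have hTan : (Tan p x).map (cjP (T x)) ≤ Tan (fun y => cjP (T y) (p y)) x := by
    rw [Tan, Submodule.map_sup, sup_le_iff, Submodule.map_span_le]
    constructor
    · rintro v ⟨γ, h0, hc, hd⟩
      have dT : HasDerivAt (fun t => T (γ t)) (deriv (fun t => T (γ t)) 0) 0 :=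
        (hT.2 x hx γ h0 hc hd.differentiableAt).hasDerivAt
      set T' := deriv (fun t => T (γ t)) 0
      have hRd : DifferentiableAt ℂ (fun t => Ring.inverse (T (γ t))) 0 :=
        DifferentiableAt.comp (g := Ring.inverse) (0 : ℂ)
          (differentiableAt_inverse (by rw [h0]; exact hux)) dT.differentiableAt
      set R' := deriv (fun t => Ring.inverse (T (γ t))) 0
      have dR : HasDerivAt (fun t => Ring.inverse (T (γ t))) R' 0 := hRd.hasDerivAt
      have dA : HasDerivAt (fun t => (p (γ t)).1) v.1 0 :=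
        (ContinuousLinearMap.fst ℂ (Mat r) (Mat r)).hasFDerivAt.comp_hasDerivAt 0 hd
      have dB : HasDerivAt (fun t => (p (γ t)).2) v.2 0 :=
        (ContinuousLinearMap.snd ℂ (Mat r) (Mat r)).hasFDerivAt.comp_hasDerivAt 0 hd
      have hRT : R' * T x + Ring.inverse (T x) * T' = 0 := by
        have h1 := dR.fun_mul dT
        have hev : ∀ᶠ t in 𝓝 (0 : ℂ), Ring.inverse (T (γ t)) * T (γ t) = 1 := by
          have hc' : ContinuousAt (fun t => T (γ t)) 0 := dT.continuousAt
          have : ∀ᶠ t in 𝓝 (0 : ℂ), IsUnit (T (γ t)) :=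
            hc'.eventually (Units.isOpen.eventually_mem (by simpa [h0] using hux))
          exact this.mono fun t ht => Ring.inverse_mul_cancel _ ht
        have h2 : HasDerivAt (fun t => Ring.inverse (T (γ t)) * T (γ t)) (0 : Mat r) 0 :=
          (hasDerivAt_const (0 : ℂ) (1 : Mat r)).congr_of_eventuallyEq hev
        have := h1.unique h2
        rwa [h0] at this
      set w := ((R' * (p x).1 + Ring.inverse (T x) * v.1) * T x +
          Ring.inverse (T x) * (p x).1 * T',
        (R' * (p x).2 + Ring.inverse (T x) * v.2) * T x +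
          Ring.inverse (T x) * (p x).2 * T') with hw
      have hwv : w ∈ Vel (fun y => cjP (T y) (p y)) x := by
        refine ⟨γ, h0, hc, ?_⟩
        have := ((dR.fun_mul dA).fun_mul dT).prodMk ((dR.fun_mul dB).fun_mul dT)
        rw [h0] at this
        exact this
      have hcv : cjP (T x) v =
          w - adP (cjP (T x) (p x)) (Ring.inverse (T x) * T') := by
        have hR' : R' * T x = -(Ring.inverse (T x) * T') := eq_neg_of_add_eq_zero_left hRT
        have key : ∀ A α : Mat r, Ring.inverse (T x) * α * T x =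
            (R' * A + Ring.inverse (T x) * α) * T x + Ring.inverse (T x) * A * T' -
              (Ring.inverse (T x) * A * T x * (Ring.inverse (T x) * T') -
                Ring.inverse (T x) * T' * (Ring.inverse (T x) * A * T x)) := by
          intro A α
          have h3 : R' * A * T x =
              -(Ring.inverse (T x) * T') * (Ring.inverse (T x) * A * T x) := by
            rw [← hR']
            simp only [mul_assoc, Ring.mul_inverse_cancel_left _ _ hux]
          have h4 : Ring.inverse (T x) * A * T x * (Ring.inverse (T x) * T') =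
              Ring.inverse (T x) * A * T' := by
            simp only [mul_assoc, Ring.mul_inverse_cancel_left _ _ hux]
          rw [h4, add_mul, h3, neg_mul]
          abel
        exact Prod.ext (key _ _) (key _ _)
      rw [hcv]
      exact Submodule.sub_mem _ (Submodule.mem_sup_left (Submodule.subset_span hwv))
        (Submodule.mem_sup_right (LinearMap.mem_range_self _ _))
    · rintro _ ⟨_, ⟨ξ, rfl⟩, rfl⟩
      refine Submodule.mem_sup_right ⟨Ring.inverse (T x) * ξ * T x, ?_⟩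
      simp only [adP, LinearMap.coe_mk, AddHom.coe_mk, cjP_apply, inv_mul_mul hux, mul_sub,
        sub_mul]
  let conj : Mat r →ₗ[ℂ] Mat r :=
    (LinearMap.mulRight ℂ (T x)).comp (LinearMap.mulLeft ℂ (Ring.inverse (T x)))
  have hci : Function.Injective conj := fun a b hab => by
    rw [← cj_cancel hux a, ← cj_cancel hux b]
    exact congrArg (fun M => T x * M * Ring.inverse (T x)) hab
  have hZ : (pairCommutant (p x)).map conj ≤ pairCommutant (cjP (T x) (p x)) := by
    rintro _ ⟨Z, hZ, rfl⟩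
    exact ⟨commute_cj hux hZ.1, commute_cj hux hZ.2⟩
  have e1 := (Submodule.equivMapOfInjective _ hinj (Tan p x)).finrank_eq
  have e2 := (Submodule.equivMapOfInjective _ hci (pairCommutant (p x))).finrank_eq
  have := Submodule.finrank_mono hTan
  have := Submodule.finrank_mono hZ
  have h' : finrank ℂ (Tan (fun y => cjP (T y) (p y)) x) +
      finrank ℂ (pairCommutant (cjP (T x) (p x))) ≤ 2 * r * r := h
  unfold Bound
  omega

/-! ### Blocks -/

/-- The two kinds of off diagonal blocks. -/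
abbrev Off (k q : ℕ) := Matrix (Fin k) (Fin q) ℂ × Matrix (Fin q) (Fin k) ℂ

/-- The blocks of a matrix. -/
noncomputable def bl (e : Fin k ⊕ Fin q ≃ Fin r) : Mat r ≃ₗ[ℂ] (Mat k × Mat q) × Off k q where
  toFun M := (((M.submatrix e e).toBlocks₁₁, (M.submatrix e e).toBlocks₂₂),
    ((M.submatrix e e).toBlocks₁₂, (M.submatrix e e).toBlocks₂₁))
  invFun z := (fromBlocks z.1.1 z.2.1 z.2.2 z.1.2).submatrix e.symm e.symm
  map_add' _ _ := rfl
  map_smul' _ _ := rfl
  left_inv M := by
    simp only [fromBlocks_toBlocks, submatrix_submatrix, Equiv.self_comp_symm, submatrix_id_id]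
  right_inv z := by
    simp only [submatrix_submatrix, Equiv.symm_comp_self, submatrix_id_id, toBlocks_fromBlocks₁₁,
      toBlocks_fromBlocks₁₂, toBlocks_fromBlocks₂₁, toBlocks_fromBlocks₂₂]

theorem bl_apply (e : Fin k ⊕ Fin q ≃ Fin r) (M : Mat r) :
    bl e M = (((M.submatrix e e).toBlocks₁₁, (M.submatrix e e).toBlocks₂₂),
      ((M.submatrix e e).toBlocks₁₂, (M.submatrix e e).toBlocks₂₁)) := rfl

theorem bl_mul (e : Fin k ⊕ Fin q ≃ Fin r) (M N : Mat r) :
    bl e (M * N) =
      (((bl e M).1.1 * (bl e N).1.1 + (bl e M).2.1 * (bl e N).2.2,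
        (bl e M).2.2 * (bl e N).2.1 + (bl e M).1.2 * (bl e N).1.2),
      ((bl e M).1.1 * (bl e N).2.1 + (bl e M).2.1 * (bl e N).1.2,
        (bl e M).2.2 * (bl e N).1.1 + (bl e M).1.2 * (bl e N).2.2)) := by
  simp only [bl_apply]
  rw [← submatrix_mul_equiv M N e e e]
  conv_lhs => rw [← fromBlocks_toBlocks (M.submatrix e e), ← fromBlocks_toBlocks (N.submatrix e e),
    fromBlocks_multiply]
  simp only [toBlocks_fromBlocks₁₁, toBlocks_fromBlocks₁₂, toBlocks_fromBlocks₂₁,
    toBlocks_fromBlocks₂₂]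

theorem bl_one (e : Fin k ⊕ Fin q ≃ Fin r) : bl e 1 = ((1, 1), (0, 0)) := by
  simp only [bl_apply, submatrix_one_equiv,
    ← fromBlocks_one, toBlocks_fromBlocks₁₁, toBlocks_fromBlocks₁₂, toBlocks_fromBlocks₂₁,
    toBlocks_fromBlocks₂₂]

/-- The first diagonal block. -/
noncomputable def blW (e : Fin k ⊕ Fin q ≃ Fin r) : Mat r →ₗ[ℂ] Mat k where
  toFun M := (bl e M).1.1
  map_add' _ _ := by simp
  map_smul' _ _ := by simp

/-- The second diagonal block. -/
noncomputable def blQ (e : Fin k ⊕ Fin q ≃ Fin r) : Mat r →ₗ[ℂ] Mat q where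
  toFun M := (bl e M).1.2
  map_add' _ _ := by simp
  map_smul' _ _ := by simp

/-- The upper off diagonal block. -/
noncomputable def blX (e : Fin k ⊕ Fin q ≃ Fin r) : Mat r →ₗ[ℂ] Matrix (Fin k) (Fin q) ℂ where
  toFun M := (bl e M).2.1
  map_add' _ _ := by simp
  map_smul' _ _ := by simp

/-- The two diagonal pairs of a pair. -/
noncomputable def diagP (e : Fin k ⊕ Fin q ≃ Fin r) : Pair r →ₗ[ℂ] Pair k × Pair q where
  toFun v := (((bl e v.1).1.1, (bl e v.2).1.1), ((bl e v.1).1.2, (bl e v.2).1.2))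
  map_add' _ _ := by simp
  map_smul' _ _ := by simp

/-- The matrices with off diagonal blocks in a given subspace. -/
noncomputable def shape (e : Fin k ⊕ Fin q ≃ Fin r) (N : Submodule ℂ (Off k q)) :
    Submodule ℂ (Mat r) :=
  N.comap ((LinearMap.snd ℂ (Mat k × Mat q) (Off k q)).comp (bl e).toLinearMap)

theorem mem_shape {e : Fin k ⊕ Fin q ≃ Fin r} {N : Submodule ℂ (Off k q)} {M : Mat r} :
    M ∈ shape e N ↔ (bl e M).2 ∈ N := Iff.rfl

theorem card_eq (e : Fin k ⊕ Fin q ≃ Fin r) : r = k + q := by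
  have := Fintype.card_congr e
  simp only [Fintype.card_sum, Fintype.card_fin] at this
  exact this.symm

/-- The basic count. -/
theorem count (e : Fin k ⊕ Fin q ≃ Fin r) {p : Pair r} {N : Submodule ℂ (Off k q)}
    {L : Submodule ℂ (Pair k × Pair q)} {V : Set (Pair r)}
    (hp : p.1 ∈ shape e N ∧ p.2 ∈ shape e N)
    (hmul : ∀ A ∈ shape e N, ∀ B ∈ shape e N, A * B ∈ shape e N)
    (hdiag : ∀ ξ ∈ shape e N, diagP e (adP p ξ) ∈ L)
    (hV : ∀ v ∈ V, diagP e v ∈ L ∧ v.1 ∈ shape e N ∧ v.2 ∈ shape e N) :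
    finrank ℂ ↥(Submodule.span ℂ V ⊔ LinearMap.range (adP p)) + finrank ℂ (pairCommutant p) +
      (k * k + q * q) ≤ finrank ℂ L + finrank ℂ N + r * r +
        finrank ℂ ↥(pairCommutant p ⊓ shape e N) := by
  set S := shape e N with hS
  set L' := L.comap (diagP e) ⊓ S.prod S with hL'
  have h1 : finrank ℂ L' ≤ finrank ℂ L + (finrank ℂ N + finrank ℂ N) := by
    rw [← Module.finrank_prod, ← Module.finrank_prod]
    refine LinearMap.finrank_le_finrank_of_injective
      (f := ((diagP e).comp L'.subtype |>.codRestrict L fun v => v.2.1).prod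
        ((((LinearMap.snd ℂ _ _).comp ((bl e).toLinearMap.comp
            ((LinearMap.fst ℂ _ _).comp L'.subtype))).codRestrict N fun v => v.2.2.1).prod
        (((LinearMap.snd ℂ _ _).comp ((bl e).toLinearMap.comp
            ((LinearMap.snd ℂ _ _).comp L'.subtype))).codRestrict N fun v => v.2.2.2))) ?_
    intro v w hvw
    have hd : diagP e v.1 = diagP e w.1 := congrArg (fun z => z.1.1) hvw
    have ha : (bl e v.1.1).2 = (bl e w.1.1).2 := congrArg (fun z => z.2.1.1) hvw
    have hb : (bl e v.1.2).2 = (bl e w.1.2).2 := congrArg (fun z => z.2.2.1) hvw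
    simp only [diagP, LinearMap.coe_mk, AddHom.coe_mk, Prod.mk.injEq] at hd
    refine Subtype.ext (Prod.ext ((bl e).injective ?_) ((bl e).injective ?_))
    · exact Prod.ext (Prod.ext hd.1.1 hd.2.1) ha
    · exact Prod.ext (Prod.ext hd.1.2 hd.2.2) hb
  have h2 : finrank ℂ S = k * k + q * q + finrank ℂ N := by
    have hmap : S.map (bl e).toLinearMap = (⊤ : Submodule ℂ (Mat k × Mat q)).prod N := by
      ext z
      obtain ⟨M, rfl⟩ := (bl e).surjective z
      rw [Submodule.mem_map_equiv, LinearEquiv.symm_apply_apply, Submodule.mem_prod, hS, mem_shape]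
      simp
    rw [← LinearEquiv.finrank_map_eq (bl e) S, hmap,
      (subProd (⊤ : Submodule ℂ (Mat k × Mat q)) N).finrank_eq, Module.finrank_prod,
      finrank_top, Module.finrank_prod, finrank_mat, finrank_mat]
  have h3 : finrank ℂ (S.map (adP p)) + finrank ℂ ↥(pairCommutant p ⊓ S) = finrank ℂ S := by
    have h := LinearMap.finrank_range_add_finrank_ker ((adP p).comp S.subtype)
    rw [LinearMap.range_comp, Submodule.range_subtype] at h
    rw [LinearMap.ker_comp, ker_adP,
      ← Submodule.finrank_map_subtype_eq S ((pairCommutant p).comap S.subtype),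
      Submodule.map_comap_subtype, inf_comm] at h
    exact h
  have h4 : S.map (adP p) ≤ L' ⊓ LinearMap.range (adP p) := by
    rintro _ ⟨ξ, hξ, rfl⟩
    exact ⟨⟨hdiag ξ hξ, S.sub_mem (hmul _ hp.1 _ hξ) (hmul _ hξ _ hp.1),
      S.sub_mem (hmul _ hp.2 _ hξ) (hmul _ hξ _ hp.2)⟩, LinearMap.mem_range_self _ _⟩
  have h5 : Submodule.span ℂ V ⊔ LinearMap.range (adP p) ≤ L' ⊔ LinearMap.range (adP p) :=
    sup_le_sup_right (show Submodule.span ℂ V ≤ L' from Submodule.span_le.2 fun v hv =>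
      Submodule.mem_inf.2 ⟨(hV v hv).1, Submodule.mem_prod.2 (hV v hv).2⟩) _
  have h6 := Submodule.finrank_sup_add_finrank_inf_eq L' (LinearMap.range (adP p))
  have h7 := LinearMap.finrank_range_add_finrank_ker (adP p)
  rw [ker_adP, finrank_mat] at h7
  have := Submodule.finrank_mono h4
  have := Submodule.finrank_mono h5
  omega

/-- Generically on an open set one pair is either a brick or satisfies the bound. -/
theorem exists_part (hk : BoundAt k) (hk0 : 0 < k) {f : X → Pair k} {V : Set X} (hV : IsOpen V)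
    (hne : V.Nonempty) (hf : ContinuousOn f V) :
    ∃ V', IsOpen V' ∧ V'.Nonempty ∧ V' ⊆ V ∧
      ((∀ x ∈ V', Bound f x) ∨ ∀ x ∈ V', PairScalar (f x)) := by
  by_cases h : ∀ x ∈ V, ¬ PairScalar (f x)
  · obtain ⟨V', h1, h2, h3, h4⟩ := hk X f V hV hne hf h
    exact ⟨V', h1, h2, h3, Or.inl h4⟩
  · push Not at h
    obtain ⟨x₀, hx₀, hb⟩ := h
    have h1 : ∀ x ∈ V, finrank ℂ (pairCommutant (f x₀)) ≤ finrank ℂ (pairCommutant (f x)) := by
      intro x _
      have : Nonempty (Fin k) := ⟨⟨0, hk0⟩⟩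
      refine (finrank_comm_of_scalar hb).trans ?_
      rw [← finrank_span_singleton (K := ℂ) (one_ne_zero : (1 : Mat k) ≠ 0)]
      exact Submodule.finrank_mono
        (by rw [Submodule.span_singleton_le_iff_mem]; exact one_mem_comm _)
    obtain ⟨V', hV', hx', hV'V, hdim, -⟩ := exists_commFrame hV hf hx₀ h1
    exact ⟨V', hV', ⟨x₀, hx'⟩, hV'V, Or.inr fun x hx => pairScalar_of_finrank hk0
      (by rw [hdim x hx]; exact finrank_comm_of_scalar hb)⟩

theorem part_le {f : X → Pair k} {x : X} (h : Bound f x ∨ PairScalar (f x)) :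
    finrank ℂ (Tan f x) + finrank ℂ (pairCommutant (f x)) ≤ 2 * k * k + 1 := by
  rcases h with h | h
  · exact h.trans (Nat.le_succ _)
  · have h1 := Submodule.finrank_le (Tan f x)
    rw [finrank_pair] at h1
    exact add_le_add h1 (finrank_comm_of_scalar h)

/-- The pair on the first block. -/
noncomputable def pW (e : Fin k ⊕ Fin q ≃ Fin r) (p : X → Pair r) (x : X) : Pair k :=
  (diagP e (p x)).1

/-- The pair on the second block. -/
noncomputable def pQ (e : Fin k ⊕ Fin q ≃ Fin r) (p : X → Pair r) (x : X) : Pair q :=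
  (diagP e (p x)).2

theorem continuousOn_pW {e : Fin k ⊕ Fin q ≃ Fin r} {p : X → Pair r} {V : Set X}
    (hp : ContinuousOn p V) : ContinuousOn (pW e p) V ∧ ContinuousOn (pQ e p) V := by
  have h := (diagP e).toContinuousLinearMap.continuous.comp_continuousOn hp
  exact ⟨continuous_fst.comp_continuousOn h, continuous_snd.comp_continuousOn h⟩

/-- The data carried by velocities of a family of shaped pairs. -/
theorem vel_blocks (e : Fin k ⊕ Fin q ≃ Fin r) {p : X → Pair r} {V : Set X} (hV : IsOpen V)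
    {N : Submodule ℂ (Off k q)} (hs : ∀ y ∈ V, (p y).1 ∈ shape e N ∧ (p y).2 ∈ shape e N) {x : X}
    (hx : x ∈ V) {v : Pair r} (hv : v ∈ Vel p x) :
    (v.1 ∈ shape e N ∧ v.2 ∈ shape e N) ∧
      (diagP e v).1 ∈ Tan (pW e p) x ∧ (diagP e v).2 ∈ Tan (pQ e p) x := by
  obtain ⟨γ, h0, hc, hd⟩ := hv
  have h1 : v ∈ (shape e N).prod (shape e N) := by
    refine mem_of_eventually hd ?_
    filter_upwards [hc.eventually (hV.eventually_mem (by rw [h0]; exact hx))] with t ht
    exact hs _ ht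
  have hdd := ((diagP e).toContinuousLinearMap.hasFDerivAt).comp_hasDerivAt 0 hd
  exact ⟨h1,
    Submodule.mem_sup_left (Submodule.subset_span ⟨γ, h0, hc,
      (ContinuousLinearMap.fst ℂ (Pair k) (Pair q)).hasFDerivAt.comp_hasDerivAt 0 hdd⟩),
    Submodule.mem_sup_left (Submodule.subset_span ⟨γ, h0, hc,
      (ContinuousLinearMap.snd ℂ (Pair k) (Pair q)).hasFDerivAt.comp_hasDerivAt 0 hdd⟩)⟩

theorem shape_split_mul (e : Fin k ⊕ Fin q ≃ Fin r) :
    ∀ A ∈ shape e ⊥, ∀ B ∈ shape e ⊥, A * B ∈ shape e (⊥ : Submodule ℂ (Off k q)) := by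
  intro A hA B hB
  simp only [mem_shape, Submodule.mem_bot] at hA hB ⊢
  simp [bl_mul, hA, hB]

theorem shape_upper_mul (e : Fin k ⊕ Fin q ≃ Fin r) :
    ∀ A ∈ shape e ((⊤ : Submodule ℂ (Matrix (Fin k) (Fin q) ℂ)).prod ⊥),
      ∀ B ∈ shape e ((⊤ : Submodule ℂ (Matrix (Fin k) (Fin q) ℂ)).prod ⊥),
        A * B ∈ shape e ((⊤ : Submodule ℂ (Matrix (Fin k) (Fin q) ℂ)).prod ⊥) := by
  intro A hA B hB
  simp only [mem_shape, Submodule.mem_prod, Submodule.mem_top, Submodule.mem_bot,
    true_and] at hA hB ⊢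
  simp [bl_mul, hA, hB]

theorem bl_mul_diag (e : Fin k ⊕ Fin q ≃ Fin r) {A B : Mat r} (hA : (bl e A).2.2 = 0)
    (hB : (bl e B).2.2 = 0) :
    (bl e (A * B)).1 = ((bl e A).1.1 * (bl e B).1.1, (bl e A).1.2 * (bl e B).1.2) := by
  simp [bl_mul, hA, hB]

theorem diag_adP (e : Fin k ⊕ Fin q ≃ Fin r) {p : Pair r} (hp1 : (bl e p.1).2.2 = 0)
    (hp2 : (bl e p.2).2.2 = 0) {ξ : Mat r} (hξ : (bl e ξ).2.2 = 0) :
    diagP e (adP p ξ) =
      (adP (diagP e p).1 (bl e ξ).1.1, adP (diagP e p).2 (bl e ξ).1.2) := by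
  simp only [diagP, adP, LinearMap.coe_mk, AddHom.coe_mk, map_sub, Prod.fst_sub, Prod.snd_sub,
    bl_mul_diag e hp1 hξ, bl_mul_diag e hξ hp1, bl_mul_diag e hp2 hξ, bl_mul_diag e hξ hp2]

theorem diag_comm (e : Fin k ⊕ Fin q ≃ Fin r) {p : Pair r} (hp1 : (bl e p.1).2.2 = 0)
    (hp2 : (bl e p.2).2.2 = 0) {Z : Mat r} (hZ : Z ∈ pairCommutant p)
    (hZ2 : (bl e Z).2.2 = 0) :
    (bl e Z).1.1 ∈ pairCommutant (diagP e p).1 ∧ (bl e Z).1.2 ∈ pairCommutant (diagP e p).2 := by
  have h1 := congrArg (fun M => (bl e M).1) hZ.1.eq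
  have h2 := congrArg (fun M => (bl e M).1) hZ.2.eq
  simp only [bl_mul_diag e hZ2 hp1, bl_mul_diag e hp1 hZ2, bl_mul_diag e hZ2 hp2,
    bl_mul_diag e hp2 hZ2, Prod.mk.injEq] at h1 h2
  exact ⟨⟨h1.1, h2.1⟩, ⟨h1.2, h2.2⟩⟩

/-- The bound for a family of block diagonal pairs. -/
theorem split_bound (e : Fin k ⊕ Fin q ≃ Fin r) (hk0 : 0 < k) (hq0 : 0 < q) (hk : BoundAt k)
    (hq : BoundAt q) {p : X → Pair r} {V : Set X} (hV : IsOpen V) (hne : V.Nonempty)
    (hp : ContinuousOn p V) (hs : ∀ x ∈ V, (p x).1 ∈ shape e ⊥ ∧ (p x).2 ∈ shape e ⊥) :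
    ∃ V', IsOpen V' ∧ V'.Nonempty ∧ V' ⊆ V ∧ ∀ x ∈ V', Bound p x := by
  obtain ⟨hcW, hcQ⟩ := continuousOn_pW (e := e) hp
  obtain ⟨V₁, hV₁, hne₁, h₁V, hW⟩ := exists_part hk hk0 hV hne hcW
  obtain ⟨V₂, hV₂, hne₂, h₂₁, hQ⟩ := exists_part hq hq0 hV₁ hne₁ (hcQ.mono h₁V)
  refine ⟨V₂, hV₂, hne₂, h₂₁.trans h₁V, fun x hx => ?_⟩
  have hW' := part_le (hW.imp (fun h => h x (h₂₁ hx)) fun h => h x (h₂₁ hx))
  have hQ' := part_le (hQ.imp (fun h => h x hx) fun h => h x hx)
  have hxV := h₁V (h₂₁ hx)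
  have h0 : ∀ M ∈ shape e (⊥ : Submodule ℂ (Off k q)), (bl e M).2 = 0 := fun M hM =>
    (Submodule.mem_bot ℂ).1 hM
  have hp1 : (bl e (p x).1).2.2 = 0 := by rw [h0 _ (hs x hxV).1]; rfl
  have hp2 : (bl e (p x).2).2.2 = 0 := by rw [h0 _ (hs x hxV).2]; rfl
  have key := count e (p := p x) (L := (Tan (pW e p) x).prod (Tan (pQ e p) x)) (V := Vel p x)
    (hs x hxV) (shape_split_mul e) (fun ξ hξ => by
      rw [diag_adP e hp1 hp2 (by rw [h0 _ hξ]; rfl)]
      exact ⟨Submodule.mem_sup_right (LinearMap.mem_range_self _ _),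
        Submodule.mem_sup_right (LinearMap.mem_range_self _ _)⟩)
    (fun v hv => ⟨(vel_blocks e hV hs hxV hv).2, (vel_blocks e hV hs hxV hv).1⟩)
  have hz : finrank ℂ ↥(pairCommutant (p x) ⊓ shape e ⊥) ≤
      finrank ℂ (pairCommutant (pW e p x)) + finrank ℂ (pairCommutant (pQ e p x)) := by
    rw [← Module.finrank_prod]
    refine LinearMap.finrank_le_finrank_of_injective
      (f := (((blW e).comp (pairCommutant (p x) ⊓ shape e ⊥).subtype).codRestrict
          (pairCommutant (pW e p x)) fun z =>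
            (diag_comm e hp1 hp2 z.2.1 (by rw [h0 _ z.2.2]; rfl)).1).prod
        (((blQ e).comp (pairCommutant (p x) ⊓ shape e ⊥).subtype).codRestrict
          (pairCommutant (pQ e p x)) fun z =>
            (diag_comm e hp1 hp2 z.2.1 (by rw [h0 _ z.2.2]; rfl)).2)) ?_
    intro a b hab
    have h1 : (bl e a.1).1.1 = (bl e b.1).1.1 := congrArg (fun z => z.1.1) hab
    have h2 : (bl e a.1).1.2 = (bl e b.1).1.2 := congrArg (fun z => z.2.1) hab
    refine Subtype.ext ((bl e).injective (Prod.ext (Prod.ext h1 h2) ?_))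
    rw [h0 _ a.2.2, h0 _ b.2.2]
  rw [(subProd (Tan (pW e p) x) (Tan (pQ e p) x)).finrank_eq, Module.finrank_prod,
    finrank_bot] at key
  unfold Bound
  unfold Tan
  have hr := card_eq e
  have hkq : 1 ≤ k * q := Nat.mul_pos hk0 hq0
  subst hr
  simp only [Tan] at key hW' hQ'
  nlinarith

/-- The homomorphisms from the second block to the first. -/
noncomputable def homMap (w : Pair k) (z : Pair q) :
    Matrix (Fin k) (Fin q) ℂ →ₗ[ℂ] Matrix (Fin k) (Fin q) ℂ × Matrix (Fin k) (Fin q) ℂ where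
  toFun f := (w.1 * f - f * z.1, w.2 * f - f * z.2)
  map_add' f f' := by simp [Matrix.mul_add, Matrix.add_mul, add_sub_add_comm]
  map_smul' c f := by simp [smul_sub]

/-- The commutant of a block triangular pair without idempotents. -/
theorem comm_upper_le (e : Fin k ⊕ Fin q ≃ Fin r) (hk0 : 0 < k) (hq0 : 0 < q) {p : Pair r}
    (hp1 : (bl e p.1).2.2 = 0) (hp2 : (bl e p.2).2.2 = 0) (hni : NoIdem p)
    (Z : Submodule ℂ (Mat r)) (hZc : Z ≤ pairCommutant p) (hZu : ∀ M ∈ Z, (bl e M).2.2 = 0) :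
    finrank ℂ Z + 1 ≤ finrank ℂ (LinearMap.ker (homMap (diagP e p).1 (diagP e p).2)) +
      (finrank ℂ (pairCommutant (diagP e p).1) + finrank ℂ (pairCommutant (diagP e p).2)) := by
  let ψ : Z →ₗ[ℂ] ↥(pairCommutant (diagP e p).1) × ↥(pairCommutant (diagP e p).2) :=
    (((blW e).comp Z.subtype).codRestrict _ fun z =>
        (diag_comm e hp1 hp2 (hZc z.2) (hZu _ z.2)).1).prod
      (((blQ e).comp Z.subtype).codRestrict _ fun z =>
        (diag_comm e hp1 hp2 (hZc z.2) (hZu _ z.2)).2)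
  have hlt : finrank ℂ (LinearMap.range ψ) <
      finrank ℂ (pairCommutant (diagP e p).1) + finrank ℂ (pairCommutant (diagP e p).2) := by
    refine lt_of_lt_of_eq (Submodule.finrank_lt fun htop => ?_) Module.finrank_prod
    obtain ⟨z, hz⟩ := htop.ge (Submodule.mem_top (x := (⟨1, one_mem_comm _⟩, 0)))
    have hz1 : (bl e (z : Mat r)).1.1 = 1 := congrArg (fun w => w.1.1) hz
    have hz2 : (bl e (z : Mat r)).1.2 = 0 := congrArg (fun w => w.2.1) hz
    have h22 : (bl e (z : Mat r)).2.2 = 0 := hZu _ z.2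
    rcases hni z (hZc z.2) ((bl e).injective (by
        rw [bl_mul]
        refine Prod.ext (Prod.ext ?_ ?_) (Prod.ext ?_ ?_) <;> simp [hz1, hz2, h22])) with h | h
    · have : Nonempty (Fin k) := ⟨⟨0, hk0⟩⟩
      rw [h, map_zero] at hz1
      exact zero_ne_one hz1
    · have : Nonempty (Fin q) := ⟨⟨0, hq0⟩⟩
      rw [h, bl_one] at hz2
      exact one_ne_zero hz2
  have hzero : ∀ z : LinearMap.ker ψ, (bl e ((z : Z) : Mat r)).1 = 0 := fun z => by
    have h : ψ z.1 = 0 := z.2
    exact Prod.ext (congrArg (fun w => w.1.1) h) (congrArg (fun w => w.2.1) h)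
  have hker : finrank ℂ (LinearMap.ker ψ) ≤
      finrank ℂ (LinearMap.ker (homMap (diagP e p).1 (diagP e p).2)) := by
    refine LinearMap.finrank_le_finrank_of_injective
      (f := ((blX e).comp (Z.subtype.comp (LinearMap.ker ψ).subtype)).codRestrict _ fun z => ?_) ?_
    · have hd := hzero z
      have hc := hZc z.1.2
      have hw := congrArg (fun M => (bl e M).2.1) hc.1.eq
      have hw' := congrArg (fun M => (bl e M).2.1) hc.2.eq
      simp only [bl_mul, hd, Prod.fst_zero, Prod.snd_zero, Matrix.zero_mul, Matrix.mul_zero,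
        zero_add, add_zero] at hw hw'
      rw [LinearMap.mem_ker]
      exact Prod.ext (sub_eq_zero.2 hw.symm) (sub_eq_zero.2 hw'.symm)
    · intro a b hab
      have hX : (bl e ((a : Z) : Mat r)).2.1 = (bl e ((b : Z) : Mat r)).2.1 :=
        congrArg Subtype.val hab
      refine Subtype.ext (Subtype.ext ((bl e).injective ?_))
      exact Prod.ext ((hzero a).trans (hzero b).symm)
        (Prod.ext hX ((hZu _ a.1.2).trans (hZu _ b.1.2).symm))
  have hrn := LinearMap.finrank_range_add_finrank_ker ψ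
  omega

/-- The bound at a point of a family in block triangular form without idempotents. -/
theorem upper_key (e : Fin k ⊕ Fin q ≃ Fin r) (hk0 : 0 < k) (hq0 : 0 < q) {p : Pair r}
    (hp1 : (bl e p.1).2.2 = 0) (hp2 : (bl e p.2).2.2 = 0) (hni : NoIdem p)
    {L : Submodule ℂ (Pair k × Pair q)} {V : Set (Pair r)}
    (hdiag : ∀ ξ, (bl e ξ).2.2 = 0 → diagP e (adP p ξ) ∈ L)
    (hV : ∀ v ∈ V, diagP e v ∈ L ∧ (bl e v.1).2.2 = 0 ∧ (bl e v.2).2.2 = 0) :
    finrank ℂ ↥(Submodule.span ℂ V ⊔ LinearMap.range (adP p)) + finrank ℂ (pairCommutant p) +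
      (k * k + q * q) + 1 ≤ finrank ℂ L + k * q + r * r +
        finrank ℂ (LinearMap.ker (homMap (diagP e p).1 (diagP e p).2)) +
        (finrank ℂ (pairCommutant (diagP e p).1) + finrank ℂ (pairCommutant (diagP e p).2)) := by
  set N : Submodule ℂ (Off k q) := (⊤ : Submodule ℂ (Matrix (Fin k) (Fin q) ℂ)).prod ⊥ with hN
  have hmem : ∀ M, M ∈ shape e N ↔ (bl e M).2.2 = 0 := fun M => by simp [mem_shape, hN]
  have key := count e (p := p) (N := N) (L := L) (V := V) ⟨(hmem _).2 hp1, (hmem _).2 hp2⟩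
    (shape_upper_mul e) (fun ξ hξ => hdiag ξ ((hmem _).1 hξ))
    (fun v hv => ⟨(hV v hv).1, (hmem _).2 (hV v hv).2.1, (hmem _).2 (hV v hv).2.2⟩)
  have hNd : finrank ℂ N = k * q := by
    rw [hN, (subProd _ _).finrank_eq, Module.finrank_prod, finrank_top, finrank_mat,
      finrank_bot, add_zero]
  have := comm_upper_le e hk0 hq0 hp1 hp2 hni _ inf_le_left (fun M hM => (hmem M).1 hM.2)
  rw [hNd] at key
  omega

theorem comm_one (A B : Mat 1) : A * B = B * A := by
  ext i j
  simp [Matrix.mul_apply, Subsingleton.elim i 0, Subsingleton.elim j 0, mul_comm]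

theorem one_of_intertwine (hk0 : 0 < k) (hq0 : 0 < q) {w : Pair k} {z : Pair q}
    (h : ∀ f, homMap w z f = 0) (hw : PairScalar w) : k = 1 := by
  have key : ∀ (A : Mat k) (B : Mat q),
      (∀ f : Matrix (Fin k) (Fin q) ℂ, A * f = f * B) →
        A = B ⟨0, hq0⟩ ⟨0, hq0⟩ • (1 : Mat k) := by
    intro A B hAB
    ext a i
    have := congrFun (congrFun (hAB (Matrix.single i ⟨0, hq0⟩ 1)) a) ⟨0, hq0⟩
    rw [Matrix.mul_single_apply_same, mul_one] at this
    rw [this]
    by_cases hai : a = i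
    · subst hai
      simp
    · simp [hai]
  have h1 := key w.1 z.1 fun f => sub_eq_zero.1 (congrArg Prod.fst (h f))
  have h2 := key w.2 z.2 fun f => sub_eq_zero.1 (congrArg Prod.snd (h f))
  by_contra hk
  obtain ⟨c, hc⟩ := hw (Matrix.single ⟨0, hk0⟩ ⟨0, hk0⟩ 1)
    (by rw [h1]; exact (Commute.one_right _).smul_right _)
    (by rw [h2]; exact (Commute.one_right _).smul_right _)
  have e0 := congrFun (congrFun hc ⟨0, hk0⟩) ⟨0, hk0⟩
  have e1 := congrFun (congrFun hc ⟨1, by omega⟩) ⟨1, by omega⟩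
  simp at e0 e1
  exact one_ne_zero (α := ℂ) (by rw [e0]; first | exact e1 | exact e1.symm)

theorem one_of_intertwine' (hk0 : 0 < k) (hq0 : 0 < q) {w : Pair k} {z : Pair q}
    (h : ∀ f, homMap w z f = 0) (hz : PairScalar z) : q = 1 := by
  refine one_of_intertwine hq0 hk0 (w := (z.1ᵀ, z.2ᵀ)) (z := (w.1ᵀ, w.2ᵀ)) (fun f => ?_) ?_
  · have := h fᵀ
    simp only [homMap, LinearMap.coe_mk, AddHom.coe_mk, Prod.mk_eq_zero, sub_eq_zero] at this ⊢
    exact ⟨by simpa using (congrArg Matrix.transpose this.1).symm,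
      by simpa using (congrArg Matrix.transpose this.2).symm⟩
  · intro Z hA hB
    obtain ⟨c, hc⟩ := hz Zᵀ
      (by simpa [Commute, SemiconjBy] using (congrArg Matrix.transpose hA.eq).symm)
      (by simpa [Commute, SemiconjBy] using (congrArg Matrix.transpose hB.eq).symm)
    exact ⟨c, by simpa using congrArg Matrix.transpose hc⟩

/-- The bound for a family of block triangular pairs without idempotents. -/
theorem upper_bound (e : Fin k ⊕ Fin q ≃ Fin r) (hk0 : 0 < k) (hq0 : 0 < q) (hk : BoundAt k)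
    (hq : BoundAt q) {p : X → Pair r} {V : Set X} (hV : IsOpen V) (hne : V.Nonempty)
    (hp : ContinuousOn p V) (hs : ∀ x ∈ V, (bl e (p x).1).2.2 = 0 ∧ (bl e (p x).2).2.2 = 0)
    (hni : ∀ x ∈ V, NoIdem (p x)) :
    ∃ V', IsOpen V' ∧ V'.Nonempty ∧ V' ⊆ V ∧ ∀ x ∈ V', Bound p x := by
  obtain ⟨hcW, hcQ⟩ := continuousOn_pW (e := e) hp
  obtain ⟨V₁, hV₁, hne₁, h₁V, hW⟩ := exists_part hk hk0 hV hne hcW
  obtain ⟨V₂, hV₂, hne₂, h₂₁, hQ⟩ := exists_part hq hq0 hV₁ hne₁ (hcQ.mono h₁V)
  have hr := card_eq e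
  have hshape : ∀ y ∈ V, (p y).1 ∈ shape e ((⊤ : Submodule ℂ (Matrix (Fin k) (Fin q) ℂ)).prod ⊥) ∧
      (p y).2 ∈ shape e ((⊤ : Submodule ℂ (Matrix (Fin k) (Fin q) ℂ)).prod ⊥) := fun y hy => by
    simp only [mem_shape, Submodule.mem_prod, Submodule.mem_top, Submodule.mem_bot, true_and]
    exact hs y hy
  have hvel : ∀ x ∈ V, ∀ v ∈ Vel p x, ((bl e v.1).2.2 = 0 ∧ (bl e v.2).2.2 = 0) ∧
      (diagP e v).1 ∈ Tan (pW e p) x ∧ (diagP e v).2 ∈ Tan (pQ e p) x := fun x hx v hv => by
    obtain ⟨h1, h2⟩ := vel_blocks e hV hshape hx hv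
    simp only [mem_shape, Submodule.mem_prod, Submodule.mem_top, Submodule.mem_bot,
      true_and] at h1
    exact ⟨h1, h2⟩
  -- general count at a point
  have gen : ∀ x ∈ V₂,
      finrank ℂ (Tan p x) + finrank ℂ (pairCommutant (p x)) + (k * k + q * q) + 1 ≤
        (finrank ℂ (Tan (pW e p) x) + finrank ℂ (pairCommutant (pW e p x))) +
        (finrank ℂ (Tan (pQ e p) x) + finrank ℂ (pairCommutant (pQ e p x))) + k * q + r * r +
          finrank ℂ (LinearMap.ker (homMap (pW e p x) (pQ e p x))) := by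
    intro x hx
    have hxV := h₁V (h₂₁ hx)
    obtain ⟨hp1, hp2⟩ := hs x hxV
    have key := upper_key e hk0 hq0 hp1 hp2 (hni x hxV)
      (L := (Tan (pW e p) x).prod (Tan (pQ e p) x)) (V := Vel p x)
      (fun ξ hξ => by
        rw [diag_adP e hp1 hp2 hξ]
        exact ⟨Submodule.mem_sup_right (LinearMap.mem_range_self _ _),
          Submodule.mem_sup_right (LinearMap.mem_range_self _ _)⟩)
      (fun v hv => ⟨(hvel x hxV v hv).2, (hvel x hxV v hv).1⟩)
    rw [(subProd (Tan (pW e p) x) (Tan (pQ e p) x)).finrank_eq,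
      Module.finrank_prod] at key
    have key' : finrank ℂ (Tan p x) + finrank ℂ (pairCommutant (p x)) + (k * k + q * q) + 1 ≤
        (finrank ℂ (Tan (pW e p) x) + finrank ℂ (Tan (pQ e p) x)) + k * q + r * r +
          finrank ℂ (LinearMap.ker (homMap (pW e p x) (pQ e p x))) +
          (finrank ℂ (pairCommutant (pW e p x)) + finrank ℂ (pairCommutant (pQ e p x))) := key
    omega
  have hhom : ∀ x, finrank ℂ (LinearMap.ker (homMap (pW e p x) (pQ e p x))) ≤ k * q := fun x =>
    (Submodule.finrank_le _).trans_eq (finrank_mat k q)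
  by_cases hdef : (∀ x ∈ V₂, PairScalar (pW e p x) ∧ PairScalar (pQ e p x)) ∧
      ∀ x ∈ V₂, ∀ f, homMap (pW e p x) (pQ e p x) f = 0
  · -- both blocks are the same character
    obtain ⟨hsc, hhomz⟩ := hdef
    obtain ⟨x₀, hx₀⟩ := hne₂
    obtain rfl : k = 1 := one_of_intertwine hk0 hq0 (hhomz x₀ hx₀) (hsc x₀ hx₀).1
    obtain rfl : q = 1 := one_of_intertwine' hk0 hq0 (hhomz x₀ hx₀) (hsc x₀ hx₀).2
    refine ⟨V₂, hV₂, ⟨x₀, hx₀⟩, h₂₁.trans h₁V, fun x hx => ?_⟩
    have hxV := h₁V (h₂₁ hx)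
    obtain ⟨hp1, hp2⟩ := hs x hxV
    let δ : (Pair 1 × Pair 1) →ₗ[ℂ] Pair 1 := LinearMap.fst ℂ _ _ - LinearMap.snd ℂ _ _
    have heq : ∀ y ∈ V₂, diagP e (p y) ∈ LinearMap.ker δ := fun y hy => by
      have := hhomz y hy 1
      simp only [homMap, LinearMap.coe_mk, AddHom.coe_mk, mul_one, one_mul, Prod.mk_eq_zero] at this
      simp only [δ, LinearMap.mem_ker, LinearMap.sub_apply, LinearMap.fst_apply,
        LinearMap.snd_apply]
      exact Prod.ext this.1 this.2
    have key := upper_key e hk0 hq0 hp1 hp2 (hni x hxV)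
      (L := LinearMap.ker δ) (V := Vel p x)
      (fun ξ hξ => by
        rw [diag_adP e hp1 hp2 hξ]
        have h0 : ∀ (a : Pair 1) (b : Mat 1), adP a b = 0 := fun a b => by
          simp [adP, comm_one]
        rw [h0, h0]
        exact Submodule.zero_mem _)
      (fun v hv => ⟨by
        obtain ⟨γ, h0, hc, hd⟩ := hv
        refine mem_of_eventually
          (((diagP e).toContinuousLinearMap.hasFDerivAt).comp_hasDerivAt 0 hd) ?_
        filter_upwards [hc.eventually (hV₂.eventually_mem (by rw [h0]; exact hx))] with t ht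
        exact heq _ ht, (hvel x hxV v hv).1⟩)
    have hL : finrank ℂ (LinearMap.ker δ) ≤ 2 * 1 * 1 := by
      rw [← finrank_pair]
      refine LinearMap.finrank_le_finrank_of_injective
        (f := (LinearMap.fst ℂ _ _).comp (LinearMap.ker δ).subtype) fun a b hab => ?_
      have ha : (a : Pair 1 × Pair 1).1 - (a : Pair 1 × Pair 1).2 = 0 := a.2
      have hb : (b : Pair 1 × Pair 1).1 - (b : Pair 1 × Pair 1).2 = 0 := b.2
      have hab' : (a : Pair 1 × Pair 1).1 = (b : Pair 1 × Pair 1).1 := hab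
      refine Subtype.ext (Prod.ext hab' ?_)
      rw [← sub_eq_zero.1 ha, ← sub_eq_zero.1 hb, hab']
    have hz : finrank ℂ (LinearMap.ker (homMap (diagP e (p x)).1 (diagP e (p x)).2)) ≤ 1 * 1 :=
      hhom x
    have h1 : finrank ℂ (pairCommutant (diagP e (p x)).1) ≤ 1 :=
      finrank_comm_of_scalar (hsc x hx).1
    have h2 : finrank ℂ (pairCommutant (diagP e (p x)).2) ≤ 1 :=
      finrank_comm_of_scalar (hsc x hx).2
    unfold Bound Tan
    subst hr
    omega
  · -- some slack somewhere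
    suffices hsl : ∃ V', IsOpen V' ∧ V'.Nonempty ∧ V' ⊆ V₂ ∧ ∀ x ∈ V',
        (finrank ℂ (Tan (pW e p) x) + finrank ℂ (pairCommutant (pW e p x))) +
        (finrank ℂ (Tan (pQ e p) x) + finrank ℂ (pairCommutant (pQ e p x))) +
          finrank ℂ (LinearMap.ker (homMap (pW e p x) (pQ e p x))) ≤
            2 * k * k + 2 * q * q + k * q + 1 by
      obtain ⟨V', hV', hne', h'₂, h⟩ := hsl
      refine ⟨V', hV', hne', h'₂.trans (h₂₁.trans h₁V), fun x hx => ?_⟩
      have := gen x (h'₂ hx)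
      have := h x hx
      subst hr
      unfold Bound
      nlinarith
    rcases hW with hW | hW
    · refine ⟨V₂, hV₂, hne₂, subset_rfl, fun x hx => ?_⟩
      have h1 : _ ≤ 2 * k * k := hW x (h₂₁ hx)
      have := part_le (hQ.imp (fun h => h x hx) fun h => h x hx)
      have := hhom x
      omega
    rcases hQ with hQ | hQ
    · refine ⟨V₂, hV₂, hne₂, subset_rfl, fun x hx => ?_⟩
      have h1 : _ ≤ 2 * q * q := hQ x hx
      have := part_le (f := pW e p) (Or.inr (hW x (h₂₁ hx)))
      have := hhom x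
      omega
    push Not at hdef
    obtain ⟨x₀, hx₀, f, hf⟩ := hdef fun x hx => ⟨hW x (h₂₁ hx), hQ x hx⟩
    let ev : Pair k × Pair q →ₗ[ℂ]
        Matrix (Fin k) (Fin q) ℂ × Matrix (Fin k) (Fin q) ℂ :=
      { toFun := fun z => homMap z.1 z.2 f
        map_add' := fun a b => by simp [homMap, Matrix.mul_add, Matrix.add_mul, add_sub_add_comm]
        map_smul' := fun c a => by simp [homMap, smul_sub] }
    have hcont : ContinuousOn (fun x => ev (pW e p x, pQ e p x)) V₂ :=
      ev.continuous_of_finiteDimensional.comp_continuousOn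
        (((hcW.mono (h₂₁.trans h₁V))).prodMk (hcQ.mono (h₂₁.trans h₁V)))
    refine ⟨V₂ ∩ (fun x => ev (pW e p x, pQ e p x)) ⁻¹' {z | z ≠ 0},
      hcont.isOpen_inter_preimage hV₂ isOpen_ne, ⟨x₀, hx₀, hf⟩, Set.inter_subset_left, ?_⟩
    rintro x ⟨hx, hxf⟩
    have h1 := part_le (f := pW e p) (Or.inr (hW x (h₂₁ hx)))
    have h2 := part_le (f := pQ e p) (Or.inr (hQ x hx))
    have h3 : finrank ℂ (LinearMap.ker (homMap (pW e p x) (pQ e p x))) < k * q := by
      rw [← finrank_mat k q]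
      exact Submodule.finrank_lt fun htop => hxf (LinearMap.mem_ker.1 (htop.ge Submodule.mem_top))
    omega

end Vale.Agent.P002.Surf.PairLem
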