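import Vale.Agent.P002.Surf.Defs

/-!
P002, surface groups: invariant subspaces of pairs that move differentiably along curves.

A family of linear maps whose kernel has minimal dimension at a point has, near it, kernels moved
by an explicit differentiable frame; an idempotent commuting with a pair gives, near it, a
differentiable frame splitting the pair.
-/

namespace Vale.Agent.P002.Surf.PairLem

open Matrix Module Filter
open scoped Matrix.Norms.Operator Topology

variable {r : ℕ} {X : Type} [TopologicalSpace X]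
variable {P E F G : Type*} [NormedAddCommGroup P] [NormedSpace ℂ P] [NormedAddCommGroup E]
  [NormedSpace ℂ E] [NormedAddCommGroup F] [NormedSpace ℂ F] [NormedAddCommGroup G]
  [NormedSpace ℂ G]

/-- A map that is continuous on `U` and differentiable along the curves along which `p` is. -/
def Along (p : X → P) (U : Set X) (f : X → E) : Prop :=
  ContinuousOn f U ∧ ∀ x ∈ U, ∀ γ : ℂ → X, γ 0 = x → ContinuousAt γ 0 →
    DifferentiableAt ℂ (p ∘ γ) 0 → DifferentiableAt ℂ (f ∘ γ) 0

theorem Along.self {p : X → P} {U : Set X} (hp : ContinuousOn p U) : Along p U p :=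
  ⟨hp, fun _ _ _ _ _ h => h⟩

theorem Along.mono {p : X → P} {U V : Set X} {f : X → E} (h : Along p U f) (hV : V ⊆ U) :
    Along p V f :=
  ⟨h.1.mono hV, fun x hx => h.2 x (hV hx)⟩

theorem Along.comp {p : X → P} {U : Set X} {f : X → E} (h : Along p U f) {Φ : E → F}
    (hΦ : ∀ x ∈ U, DifferentiableAt ℂ Φ (f x)) : Along p U fun x => Φ (f x) :=
  ⟨fun x hx => (hΦ x hx).continuousAt.comp_continuousWithinAt (h.1 x hx),
    fun x hx γ h0 hc hd => DifferentiableAt.comp (0 : ℂ) (g := Φ)
      (by simpa only [Function.comp_apply, h0] using hΦ x hx) (h.2 x hx γ h0 hc hd)⟩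

theorem Along.prodMk {p : X → P} {U : Set X} {f : X → E} {f' : X → F} (h : Along p U f)
    (h' : Along p U f') : Along p U fun x => (f x, f' x) :=
  ⟨h.1.prodMk h'.1,
    fun x hx γ h0 hc hd => (h.2 x hx γ h0 hc hd).prodMk (h'.2 x hx γ h0 hc hd)⟩

/-- Where the kernel has minimal dimension it moves by a differentiable frame. -/
theorem exists_kerFrame [FiniteDimensional ℂ E] [FiniteDimensional ℂ F] {p : X → P} {U : Set X}
    (hU : IsOpen U) {M : X → E →L[ℂ] F} (hM : Along p U M) {x₀ : X} (hx₀ : x₀ ∈ U)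
    (hmin : ∀ x ∈ U, finrank ℂ (LinearMap.ker (M x₀ : E →ₗ[ℂ] F)) ≤
      finrank ℂ (LinearMap.ker (M x : E →ₗ[ℂ] F))) :
    ∃ V, ∃ Φ : X → E →L[ℂ] E, IsOpen V ∧ x₀ ∈ V ∧ V ⊆ U ∧ Along p V Φ ∧ Φ x₀ = 1 ∧
      ∀ x ∈ V, Function.Bijective (Φ x) ∧ LinearMap.ker (M x : E →ₗ[ℂ] F) =
        (LinearMap.ker (M x₀ : E →ₗ[ℂ] F)).map (Φ x : E →ₗ[ℂ] E) := by
  have : CompleteSpace E := FiniteDimensional.complete ℂ E
  obtain ⟨N, hN⟩ : ∃ N : F →L[ℂ] E, ∀ u, M x₀ (N (M x₀ u)) = M x₀ u := by
    obtain ⟨s, hs⟩ := (M x₀ : E →ₗ[ℂ] F).rangeRestrict.exists_rightInverse_of_surjective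
      (LinearMap.range_rangeRestrict _)
    obtain ⟨N, hN⟩ := LinearMap.exists_extend s
    refine ⟨N.toContinuousLinearMap, fun u => ?_⟩
    have h1 : N (M x₀ u) = s ((M x₀ : E →ₗ[ℂ] F).rangeRestrict u) :=
      LinearMap.congr_fun hN ((M x₀ : E →ₗ[ℂ] F).rangeRestrict u)
    have h2 := congrArg Subtype.val
      (LinearMap.congr_fun hs ((M x₀ : E →ₗ[ℂ] F).rangeRestrict u))
    simp only [LinearMap.comp_apply, LinearMap.id_apply] at h2
    rw [LinearMap.coe_toContinuousLinearMap', h1]
    exact h2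
  let H : (E →L[ℂ] F) → E →L[ℂ] E := fun A => 1 + N.comp (A - M x₀)
  have hHd : Differentiable ℂ H := by
    have h1 : Differentiable ℂ fun A : E →L[ℂ] F => A - M x₀ := differentiable_id.sub_const _
    exact (((ContinuousLinearMap.compL ℂ E F E) N).differentiable.comp h1).const_add _
  have hH0 : H (M x₀) = 1 := by simp [H]
  refine ⟨U ∩ (fun x => H (M x)) ⁻¹' {A | IsUnit A}, fun x => Ring.inverse (H (M x)),
    (hHd.continuous.comp_continuousOn hM.1).isOpen_inter_preimage hU Units.isOpen,
    ⟨hx₀, by simp [hH0]⟩, Set.inter_subset_left, ?_, by simp [hH0], ?_⟩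
  · exact (hM.mono Set.inter_subset_left).comp fun x hx =>
      (differentiableAt_inverse hx.2).comp _ (hHd _)
  rintro x ⟨hxU, hu⟩
  replace hu : IsUnit (H (M x)) := hu
  have hli : ∀ u, Ring.inverse (H (M x)) (H (M x) u) = u := fun u => by
    rw [← ContinuousLinearMap.comp_apply, ← ContinuousLinearMap.mul_def,
      Ring.inverse_mul_cancel _ hu, one_apply_eq_self]
  have hri : ∀ u, H (M x) (Ring.inverse (H (M x)) u) = u := fun u => by
    rw [← ContinuousLinearMap.comp_apply, ← ContinuousLinearMap.mul_def,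
      Ring.mul_inverse_cancel _ hu, one_apply_eq_self]
  refine ⟨Function.bijective_iff_has_inverse.2 ⟨_, hri, hli⟩, ?_⟩
  have hle : (LinearMap.ker (M x : E →ₗ[ℂ] F)).map (H (M x) : E →ₗ[ℂ] E) ≤
      LinearMap.ker (M x₀ : E →ₗ[ℂ] F) := by
    rintro _ ⟨u, hu0, rfl⟩
    have hu0' : M x u = 0 := hu0
    show M x₀ (H (M x) u) = 0
    simp [H, hu0', hN]
  have heq : (LinearMap.ker (M x : E →ₗ[ℂ] F)).map (H (M x) : E →ₗ[ℂ] E) =
      LinearMap.ker (M x₀ : E →ₗ[ℂ] F) := by
    refine Submodule.eq_of_le_of_finrank_le hle ?_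
    have hinj : Function.Injective (H (M x) : E →ₗ[ℂ] E) := fun a b hab => by
      have := congrArg (fun u => Ring.inverse (H (M x)) u) hab
      simpa [hli] using this
    rw [← (Submodule.equivMapOfInjective (H (M x) : E →ₗ[ℂ] E) hinj _).finrank_eq]
    exact hmin x hxU
  rw [← heq, ← Submodule.map_comp,
    show ((Ring.inverse (H (M x))).toLinearMap ∘ₗ (H (M x)).toLinearMap) = LinearMap.id from
      LinearMap.ext hli, Submodule.map_id]

/-- The matrices of a pair act on a matrix by commutators. -/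
noncomputable def adP (p : Pair r) : Mat r →ₗ[ℂ] Pair r where
  toFun ξ := (p.1 * ξ - ξ * p.1, p.2 * ξ - ξ * p.2)
  map_add' ξ η := by simp [mul_add, add_mul, add_sub_add_comm]
  map_smul' c ξ := by simp [smul_sub]

theorem ker_adP (p : Pair r) : LinearMap.ker (adP p) = pairCommutant p := by
  ext ξ
  show adP p ξ = 0 ↔ Commute ξ p.1 ∧ Commute ξ p.2
  simp only [adP, LinearMap.coe_mk, AddHom.coe_mk, Prod.mk_eq_zero, sub_eq_zero]
  exact ⟨fun h => ⟨h.1.symm, h.2.symm⟩, fun h => ⟨h.1.symm, h.2.symm⟩⟩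

/-- Matrices as functions, for the norm on maps between them. -/
abbrev Arr (r : ℕ) := Fin r → Fin r → ℂ

/-- Matrices are arrays. -/
noncomputable def arrEquiv (r : ℕ) : Mat r ≃ₗ[ℂ] Arr r where
  toFun M := fun i j => M i j
  invFun A := of fun i j => A i j
  map_add' _ _ := rfl
  map_smul' _ _ := rfl
  left_inv _ := rfl
  right_inv _ := rfl

/-- The commutator map between arrays, linearly in the pair. -/
noncomputable def adC (r : ℕ) : Pair r →ₗ[ℂ] Arr r →L[ℂ] Arr r × Arr r where
  toFun p := (((arrEquiv r : Mat r →ₗ[ℂ] Arr r).prodMap (arrEquiv r : Mat r →ₗ[ℂ] Arr r)) ∘ₗ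
    adP p ∘ₗ ((arrEquiv r).symm : Arr r →ₗ[ℂ] Mat r)).toContinuousLinearMap
  map_add' p q := by
    ext ξ <;> simp [adP, mul_add, add_mul, add_sub_add_comm]
  map_smul' c p := by
    ext ξ <;> simp [adP, smul_sub]

theorem adC_apply (p : Pair r) (ξ : Mat r) :
    adC r p (arrEquiv r ξ) = (arrEquiv r (adP p ξ).1, arrEquiv r (adP p ξ).2) := by
  simp [adC]

theorem ker_adC (p : Pair r) : LinearMap.ker (adC r p : Arr r →ₗ[ℂ] Arr r × Arr r) =
    (pairCommutant p).map (arrEquiv r : Mat r →ₗ[ℂ] Arr r) := by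
  ext a
  obtain ⟨ξ, rfl⟩ := (arrEquiv r).surjective a
  rw [Submodule.mem_map_equiv, LinearEquiv.symm_apply_apply, ← ker_adP, LinearMap.mem_ker,
    LinearMap.mem_ker, ContinuousLinearMap.coe_coe, adC_apply, Prod.mk_eq_zero, Prod.ext_iff]
  simp

/-- Near a point of minimal commutant every element of the commutant extends differentiably. -/
theorem exists_commFrame {p : X → Pair r} {U : Set X} (hU : IsOpen U) (hp : ContinuousOn p U)
    {x₀ : X} (hx₀ : x₀ ∈ U)
    (hmin : ∀ x ∈ U, finrank ℂ (pairCommutant (p x₀)) ≤ finrank ℂ (pairCommutant (p x))) :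
    ∃ V, IsOpen V ∧ x₀ ∈ V ∧ V ⊆ U ∧
      (∀ x ∈ V, finrank ℂ (pairCommutant (p x)) = finrank ℂ (pairCommutant (p x₀))) ∧
      ∀ Z ∈ pairCommutant (p x₀), ∃ ζ : X → Mat r, Along p V ζ ∧ ζ x₀ = Z ∧
        ∀ x ∈ V, ζ x ∈ pairCommutant (p x) := by
  have hk : ∀ q : Pair r,
      finrank ℂ (LinearMap.ker (adC r q : Arr r →ₗ[ℂ] Arr r × Arr r)) =
        finrank ℂ (pairCommutant q) := fun q => by
    rw [ker_adC, LinearEquiv.finrank_map_eq]
  obtain ⟨V, Φ, hV, hxV, hVU, hΦ, h0, hker⟩ := exists_kerFrame (E := Arr r) (F := Arr r × Arr r)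
    (M := fun x => adC r (p x)) hU
    ((Along.self hp).comp fun x _ => (adC r).toContinuousLinearMap.differentiableAt) hx₀
    (fun x hx => by simpa only [hk] using hmin x hx)
  refine ⟨V, hV, hxV, hVU, fun x hx => ?_, fun Z hZ =>
    ⟨fun x => (arrEquiv r).symm (Φ x (arrEquiv r Z)), ?_, by simp [h0], fun x hx => ?_⟩⟩
  · rw [← hk, ← hk, (hker x hx).2]
    exact ((Submodule.equivMapOfInjective (Φ x : Arr r →ₗ[ℂ] Arr r) (hker x hx).1.injective _)
      ).finrank_eq.symm
  · exact hΦ.comp (Φ := fun A : Arr r →L[ℂ] Arr r => (arrEquiv r).symm (A (arrEquiv r Z)))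
      fun x _ => ((arrEquiv r).symm.toLinearMap.toContinuousLinearMap.differentiableAt).comp _
        ((ContinuousLinearMap.apply ℂ (Arr r) (arrEquiv r Z)).differentiableAt)
  · have : Φ x (arrEquiv r Z) ∈ LinearMap.ker (adC r (p x) : Arr r →ₗ[ℂ] Arr r × Arr r) := by
      rw [(hker x hx).2, ker_adC]
      exact ⟨_, ⟨Z, hZ, rfl⟩, rfl⟩
    rw [ker_adC, Submodule.mem_map_equiv] at this
    exact this

/-- Every nonempty set has a point of minimal commutant. -/
theorem exists_min {α : Type*} {U : Set α} (hU : U.Nonempty) (f : α → ℕ) :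
    ∃ x₀ ∈ U, ∀ x ∈ U, f x₀ ≤ f x := by
  obtain ⟨x₀, hx₀, h⟩ := Nat.sInf_mem (hU.image f)
  exact ⟨x₀, hx₀, fun x hx => h ▸ Nat.sInf_le ⟨x, hx, rfl⟩⟩

/-! ### Splitting frames -/

/-- The off diagonal part with respect to an idempotent. -/
noncomputable def offPart (e : Mat r) : Mat r →L[ℂ] Mat r :=
  LinearMap.toContinuousLinearMap
    { toFun := fun h => e * h * (1 - e) + (1 - e) * h * e
      map_add' := fun a b => by noncomm_ring
      map_smul' := fun c a => by simp [smul_add] }

theorem offPart_apply (e h : Mat r) : offPart e h = e * h * (1 - e) + (1 - e) * h * e := rfl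

/-- Conjugation by the off diagonal part of the diagonal part. -/
noncomputable def splitMap (e M : Mat r) : Mat r :=
  (1 + offPart e M) * (e + (M - offPart e M)) * Ring.inverse (1 + offPart e M)

/-- The derivative of `splitMap` at zero. -/
noncomputable def splitDer (e : Mat r) : Mat r →L[ℂ] Mat r :=
  LinearMap.toContinuousLinearMap
    { toFun := fun h => h - offPart e h + (offPart e h * e - e * offPart e h)
      map_add' := fun a b => by simp only [map_add]; noncomm_ring
      map_smul' := fun c a => by simp [smul_add, smul_sub] }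

theorem splitDer_apply (e h : Mat r) :
    splitDer e h = h - offPart e h + (offPart e h * e - e * offPart e h) := rfl

theorem splitDer_involutive {e : Mat r} (he : e * e = e) :
    Function.Involutive (splitDer e) := by
  intro h
  have he' : ∀ y : Mat r, e * (e * y) = e * y := fun y => by rw [← mul_assoc, he]
  simp only [splitDer_apply, offPart_apply, mul_add, add_mul, mul_sub, sub_mul, mul_assoc,
    mul_one, one_mul, he, he']
  abel

theorem splitMap_zero (e : Mat r) : splitMap e 0 = e := by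
  simp [splitMap]

theorem contDiffAt_splitMap (e : Mat r) : ContDiffAt ℂ 1 (splitMap e) 0 := by
  have : CompleteSpace (Mat r) := FiniteDimensional.complete ℂ _
  have ho : ContDiffAt ℂ 1 (fun M : Mat r => 1 + offPart e M) 0 :=
    contDiffAt_const.add (offPart e).contDiff.contDiffAt
  have hd : ContDiffAt ℂ 1 (fun M : Mat r => e + (M - offPart e M)) 0 :=
    contDiffAt_const.add (contDiffAt_id.sub (offPart e).contDiff.contDiffAt)
  have hi : ContDiffAt ℂ 1 (fun M : Mat r => Ring.inverse (1 + offPart e M)) 0 := by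
    have h1 : ContDiffAt ℂ 1 Ring.inverse ((1 : (Mat r)ˣ) : Mat r) :=
      contDiffAt_ringInverse (𝕜 := ℂ) (1 : (Mat r)ˣ)
    exact ContDiffAt.comp (0 : Mat r) (g := Ring.inverse) (by simpa using h1) ho
  exact (ho.mul hd).mul hi

theorem hasFDerivAt_splitMap (e : Mat r) : HasFDerivAt (splitMap e) (splitDer e) 0 := by
  have : CompleteSpace (Mat r) := FiniteDimensional.complete ℂ _
  have ho : HasFDerivAt (fun M : Mat r => 1 + offPart e M) (offPart e) 0 :=
    (offPart e).hasFDerivAt.const_add 1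
  have hd : HasFDerivAt (fun M : Mat r => e + (M - offPart e M))
      (ContinuousLinearMap.id ℂ (Mat r) - offPart e) 0 :=
    ((hasFDerivAt_id 0).sub (offPart e).hasFDerivAt).const_add e
  have hinv := hasFDerivAt_ringInverse (𝕜 := ℂ) (1 : (Mat r)ˣ)
  have hi := HasFDerivAt.comp (0 : Mat r) (g := Ring.inverse) (by simpa using hinv) ho
  refine ((ho.mul' hd).mul' hi).congr_fderiv ?_
  ext1 h
  show (1 + offPart e 0) * (e + (0 - offPart e 0)) * (-(1 * offPart e h * 1)) +
      ((1 + offPart e 0) * (h - offPart e h) + offPart e h * (e + (0 - offPart e 0))) *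
        Ring.inverse (1 + offPart e 0) = splitDer e h
  simp [splitDer_apply]
  abel

/-- A matrix near an idempotent is conjugate, differentiably, to a matrix commuting with it, and
then so is every matrix commuting with it. -/
theorem exists_splitting {e : Mat r} (he : e * e = e) :
    ∃ O : Set (Mat r), ∃ Ψ : Mat r → Mat r, IsOpen O ∧ e ∈ O ∧
      ∀ M ∈ O, DifferentiableAt ℂ Ψ M ∧ IsUnit (Ψ M) ∧
        ∀ A, Commute A M → Commute (Ring.inverse (Ψ M) * A * Ψ M) e := by
  have : CompleteSpace (Mat r) := FiniteDimensional.complete ℂ _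
  let L : Mat r ≃L[ℂ] Mat r :=
    (LinearEquiv.ofInvolutive (splitDer e : Mat r →ₗ[ℂ] Mat r)
      (splitDer_involutive he)).toContinuousLinearEquiv
  have hL : HasFDerivAt (splitMap e) (L : Mat r →L[ℂ] Mat r) 0 := hasFDerivAt_splitMap e
  have hcd := contDiffAt_splitMap e
  set φ := hcd.localInverse hL one_ne_zero with hφ
  have h0 : φ e = 0 := by
    have := hcd.localInverse_apply_image hL one_ne_zero
    rwa [splitMap_zero] at this
  have hsm : ContDiffAt ℂ 1 φ e := by
    have := hcd.to_localInverse hL one_ne_zero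
    rwa [splitMap_zero] at this
  have hri : ∀ᶠ M in 𝓝 e, splitMap e (φ M) = M := by
    have := (hcd.hasStrictFDerivAt' hL one_ne_zero).eventually_right_inverse
    rwa [splitMap_zero] at this
  have hdiff : ∀ᶠ M in 𝓝 e, DifferentiableAt ℂ φ M :=
    (hsm.eventually (by norm_num)).mono fun M h => h.differentiableAt one_ne_zero
  have hc : Tendsto φ (𝓝 e) (𝓝 0) := by
    have := hsm.continuousAt.tendsto
    rwa [h0] at this
  have hunit : ∀ᶠ M in 𝓝 e, IsUnit (1 + offPart e (φ M)) := by
    have : Tendsto (fun M => 1 + offPart e (φ M)) (𝓝 e) (𝓝 1) := by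
      simpa using (tendsto_const_nhds (x := (1 : Mat r))).add
        (((offPart e).continuous.tendsto 0).comp hc)
    exact this.eventually (Units.isOpen.eventually_mem isUnit_one)
  have hsmall : ∀ᶠ M in 𝓝 e, ‖φ M - offPart e (φ M)‖ < 1 / 2 := by
    have : Tendsto (fun M => ‖φ M - offPart e (φ M)‖) (𝓝 e) (𝓝 0) := by
      simpa using (hc.sub (((offPart e).continuous.tendsto 0).comp hc)).norm
    exact this.eventually (gt_mem_nhds (by norm_num))
  obtain ⟨O, hOsub, hO, heO⟩ := eventually_nhds_iff.1 (hri.and (hdiff.and (hunit.and hsmall)))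
  refine ⟨O, fun M => 1 + offPart e (φ M), hO, heO, fun M hM => ?_⟩
  obtain ⟨hr, hd, hu, hδ⟩ := hOsub M hM
  refine ⟨((offPart e).differentiableAt.comp M hd).const_add 1, hu, fun A hA => ?_⟩
  set g := 1 + offPart e (φ M) with hg
  set δ := φ M - offPart e (φ M) with hδdef
  set B := Ring.inverse g * A * g with hB
  have hδe : Commute δ e := by
    show δ * e = e * δ
    simp only [hδdef, offPart_apply, mul_add, add_mul, mul_sub, sub_mul, mul_assoc, mul_one,
      one_mul, he]
    simp only [← mul_assoc e e, he]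
    abel
  have hD : Commute B (e + δ) := by
    have hM' : M = g * (e + δ) * Ring.inverse g := hr.symm
    have h1 : Ring.inverse g * M * g = e + δ := by
      rw [hM']
      simp only [mul_assoc, Ring.inverse_mul_cancel _ hu, mul_one]
      rw [← mul_assoc, Ring.inverse_mul_cancel _ hu, one_mul]
    show B * (e + δ) = (e + δ) * B
    rw [← h1, hB]
    simp only [mul_assoc]
    rw [Ring.mul_inverse_cancel_left _ _ hu, ← mul_assoc A M, hA.eq, mul_assoc M,
      Ring.mul_inverse_cancel_left _ _ hu]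
  have hkill : ∀ Y : Mat r, (δ * Y - Y * δ = Y ∨ δ * Y - Y * δ = -Y) → Y = 0 := by
    intro Y hY
    have hle : ‖Y‖ ≤ ‖δ * Y - Y * δ‖ := by
      rcases hY with h | h <;> simp [h]
    have h2 : ‖δ * Y - Y * δ‖ ≤ ‖δ‖ * ‖Y‖ + ‖Y‖ * ‖δ‖ :=
      (norm_sub_le _ _).trans (add_le_add (norm_mul_le _ _) (norm_mul_le _ _))
    have h3 : ‖Y‖ ≤ 0 := by nlinarith [norm_nonneg Y]
    exact norm_le_zero_iff.1 h3
  have hde' : (1 - e) * δ = δ * (1 - e) := ((Commute.one_left δ).sub_left hδe.symm).eq
  have hBD : B * (e + δ) = (e + δ) * B := hD.eq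
  have hY1 : (1 - e) * B * e = 0 := by
    refine hkill _ (Or.inl ?_)
    have hl : δ * ((1 - e) * B * e) = (1 - e) * ((e + δ) * B) * e := by
      have : (1 - e) * (e + δ) = δ * (1 - e) := by
        rw [mul_add, sub_mul 1 e e, one_mul, he, sub_self, zero_add, hde']
      simp only [← mul_assoc, this]
    have hr' : (1 - e) * B * e * δ + (1 - e) * B * e = (1 - e) * (B * (e + δ)) * e := by
      have : (e + δ) * e = e * δ + e := by
        rw [add_mul, he, hδe.eq, add_comm]
      simp only [mul_assoc, this]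
      simp only [mul_add]
    rw [hl, ← hBD, ← hr']
    abel
  have hY2 : e * B * (1 - e) = 0 := by
    refine hkill _ (Or.inr ?_)
    have hl : e * B * (1 - e) + δ * (e * B * (1 - e)) = e * ((e + δ) * B) * (1 - e) := by
      have : e * (e + δ) = e + δ * e := by
        rw [mul_add, he, hδe.eq]
      simp only [← mul_assoc, this]
      simp only [add_mul, mul_assoc]
    have hr' : e * B * (1 - e) * δ = e * (B * (e + δ)) * (1 - e) := by
      have : (e + δ) * (1 - e) = (1 - e) * δ := by
        rw [add_mul, mul_sub, mul_one, he, sub_self, zero_add, hde']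
      simp only [mul_assoc, this]
    rw [hr', hBD, ← hl]
    abel
  show B * e = e * B
  have e1 : B * e = e * B * e + (1 - e) * B * e := by noncomm_ring
  have e2 : e * B = e * B * e + e * B * (1 - e) := by noncomm_ring
  rw [hY1, add_zero] at e1
  rw [hY2, add_zero] at e2
  exact e1.trans e2.symm

/-! ### Idempotents in the commutant -/

/-- No idempotent other than zero and one commutes with the pair. -/
def NoIdem (q : Pair r) : Prop :=
  ∀ Z ∈ pairCommutant q, Z * Z = Z → Z = 0 ∨ Z = 1

/-- Without idempotents every element of the commutant is a unit or nilpotent. -/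
theorem isUnit_or_isNilpotent {q : Pair r} (hq : NoIdem q) {Z : Mat r}
    (hZ : Z ∈ pairCommutant q) : IsUnit Z ∨ IsNilpotent Z := by
  classical
  set f : Module.End ℂ (Fin r → ℂ) := toLinAlgEquiv' Z with hf
  obtain ⟨n, hn⟩ := eventually_atTop.1 f.eventually_isCompl_ker_pow_range_pow
  have hc := hn (n + 1) n.le_succ
  set π := (LinearMap.ker (f ^ (n + 1))).projection _ hc with hπ
  have hπi : IsIdempotentElem π := Submodule.isIdempotentElem_projection hc
  have hcomm : ∀ A : Mat r, Commute Z A → Commute (toLinAlgEquiv'.symm π) A := by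
    intro A hA
    set a : Module.End ℂ (Fin r → ℂ) := toLinAlgEquiv' A with ha
    have hfa : Commute (f ^ (n + 1)) a :=
      (hA.map (toLinAlgEquiv' : Mat r ≃ₐ[ℂ] Module.End ℂ (Fin r → ℂ))).pow_left (n + 1)
    have hpa : Commute π a := by
      refine LinearMap.ext fun v => ?_
      show π (a v) = a (π v)
      obtain ⟨u, w, huw, -⟩ := Submodule.existsUnique_add_of_isCompl hc v
      have hau : a u ∈ LinearMap.ker (f ^ (n + 1)) := by
        rw [LinearMap.mem_ker, ← Module.End.mul_apply, hfa.eq, Module.End.mul_apply,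
          LinearMap.mem_ker.1 u.2, map_zero]
      have haw : a w ∈ LinearMap.range (f ^ (n + 1)) := by
        obtain ⟨w', hw'⟩ := LinearMap.mem_range.1 w.2
        exact ⟨a w', by rw [← Module.End.mul_apply, hfa.eq, Module.End.mul_apply, hw']⟩
      rw [← huw, map_add a, map_add π, map_add π, hπ, Submodule.projection_apply_left,
        Submodule.projection_apply_right, Submodule.projection_apply_of_mem_left hc hau,
        Submodule.projection_apply_of_mem_right hc haw, add_zero, add_zero]
    have := hpa.map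
      ((toLinAlgEquiv' : Mat r ≃ₐ[ℂ] Module.End ℂ (Fin r → ℂ)).symm)
    rwa [ha, AlgEquiv.symm_apply_apply] at this
  rcases hq (toLinAlgEquiv'.symm π) ⟨hcomm _ hZ.1, hcomm _ hZ.2⟩
    (by rw [← map_mul, hπi.eq]) with h | h
  · left
    have hπ0 : π = 0 :=
      (toLinAlgEquiv' : Mat r ≃ₐ[ℂ] Module.End ℂ (Fin r → ℂ)).symm.injective
        (by rw [h, map_zero])
    have hker : LinearMap.ker (f ^ (n + 1)) = ⊥ := by
      rw [← Submodule.range_projection hc, ← hπ, hπ0, LinearMap.range_zero]
    have hu : IsUnit (f ^ (n + 1)) := (LinearMap.isUnit_iff_ker_eq_bot _).2 hker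
    have := ((isUnit_pow_iff n.succ_ne_zero).1 hu).map
      (toLinAlgEquiv' : Mat r ≃ₐ[ℂ] Module.End ℂ (Fin r → ℂ)).symm
    rwa [hf, AlgEquiv.symm_apply_apply] at this
  · right
    have hπ1 : π = 1 :=
      (toLinAlgEquiv' : Mat r ≃ₐ[ℂ] Module.End ℂ (Fin r → ℂ)).symm.injective
        (by rw [h, map_one])
    have hker : LinearMap.ker (f ^ (n + 1)) = ⊤ := by
      rw [← Submodule.range_projection hc, ← hπ, hπ1]
      exact LinearMap.range_id
    refine ⟨n + 1, (toLinAlgEquiv' : Mat r ≃ₐ[ℂ] Module.End ℂ (Fin r → ℂ)).injective ?_⟩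
    rw [map_pow, map_zero, ← hf]
    exact LinearMap.ker_eq_top.1 hker

/-- Without idempotents the trace free part of an element of the commutant is nilpotent. -/
theorem isNilpotent_sub_trace [NeZero r] {q : Pair r} (hq : NoIdem q) {Z : Mat r}
    (hZ : Z ∈ pairCommutant q) :
    IsNilpotent (Z - ((r : ℂ)⁻¹ * Z.trace) • (1 : Mat r)) := by
  classical
  obtain ⟨c, hc⟩ := Module.End.exists_eigenvalue (toLinAlgEquiv' Z : Module.End ℂ (Fin r → ℂ))
  obtain ⟨v, hv, hv0⟩ := hc.exists_hasEigenvector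
  have hmem : Z - c • (1 : Mat r) ∈ pairCommutant q :=
    sub_mem hZ (Submodule.smul_mem _ _ ⟨Commute.one_left _, Commute.one_left _⟩)
  rcases isUnit_or_isNilpotent hq hmem with h | h
  · refine absurd ?_ hv0
    obtain ⟨u, hu⟩ := h
    have h0 : (Z - c • (1 : Mat r)) *ᵥ v = 0 := by
      rw [Module.End.mem_eigenspace_iff, toLinAlgEquiv'_apply] at hv
      rw [sub_mulVec, hv, smul_mulVec, one_mulVec, sub_self]
    calc v = ((↑u⁻¹ : Mat r) * (Z - c • (1 : Mat r))) *ᵥ v := by
          rw [← hu, Units.inv_mul, one_mulVec]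
      _ = 0 := by rw [← mulVec_mulVec, h0, mulVec_zero]
  · have ht := (isNilpotent_trace_of_isNilpotent h).eq_zero
    rw [trace_sub, trace_smul, trace_one, Fintype.card_fin, smul_eq_mul, sub_eq_zero] at ht
    have hr : (r : ℂ) ≠ 0 := Nat.cast_ne_zero.2 (NeZero.ne r)
    have : (r : ℂ)⁻¹ * Z.trace = c := by rw [ht]; field_simp
    rwa [this]

end Vale.Agent.P002.Surf.PairLem
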