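import Vale.Agent.P002.Surf.Torus

/-!
P002, surface groups: the linear algebra behind the spanning at a handlebody point.  A deformation
of a generic matrix that is orthogonal to all twisted powers is a diagonal coboundary.
-/

namespace Vale.Agent.P002.Surf

open Matrix

variable {r : ℕ}

/-- A vanishing exponential sum has vanishing class sums. -/
theorem expSum_eq_zero {κ : Type*} [Fintype κ] (v a : κ → ℂ)
    (h : ∀ n : ℕ, ∑ k, a k * v k ^ n = 0) (w : ℂ) :
    ∑ k ∈ Finset.univ with v k = w, a k = 0 := by
  classical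
  exact powerSum_eq_zero (Finset.univ.image v) Finset.univ v a
    (fun k hk => Finset.mem_image_of_mem v hk) h w

/-- Products of two, and of three distinct, values determine the factors. -/
structure DistinctProducts (ν : Fin r → ℂ) : Prop where
  one : Function.Injective ν
  two : ∀ i k p q, ν i * ν k = ν p * ν q → (i, k) = (p, q) ∨ (i, k) = (q, p)
  three : ∀ a b c p q s, p ≠ q → q ≠ s → p ≠ s → ν a * ν b * ν c = ν p * ν q * ν s →
    (a, b, c) = (p, q, s) ∨ (a, b, c) = (q, s, p) ∨ (a, b, c) = (s, p, q) ∨
      (a, b, c) = (q, p, s) ∨ (a, b, c) = (p, s, q) ∨ (a, b, c) = (s, q, p)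

/-- A matrix in general position with respect to the diagonal. -/
structure GenPos (A : Mat r) : Prop where
  entry_ne : ∀ i k, i ≠ k → A i k ≠ 0
  orient : ∀ p q s, p ≠ q → q ≠ s → p ≠ s →
    A p q * A q s * A s p ≠ A q p * A p s * A s q

/-- The main lemma. -/
theorem diag_coboundary (hr : 0 < r) {ν : Fin r → ℂ} (hν : DistinctProducts ν) {A D : Mat r}
    (hA : GenPos A)
    (h1 : ∀ l : ℕ, trace (D * diagonal (fun i => ν i ^ l)) = 0)
    (h2 : ∀ l : ℕ, trace (D * diagonal (fun i => ν i ^ l) * A * diagonal (fun i => ν i ^ l)) = 0)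
    (h3 : ∀ l : ℕ, trace (D * diagonal (fun i => ν i ^ l) * A * diagonal (fun i => ν i ^ l) * A *
      diagonal (fun i => ν i ^ l)) = 0) :
    ∃ s : Fin r → ℂ, D = diagonal s * A - A * diagonal s := by
  classical
  have hdiag : ∀ i, D i i = 0 := by
    intro i
    have h := expSum_eq_zero ν (fun k => D k k) (fun l => by
      rw [← h1 l]; simp [Matrix.trace, Matrix.mul_diagonal]) (ν i)
    rwa [Finset.filter_eq' Finset.univ i |> fun e => (Finset.filter_congr
      (fun k _ => (hν.one.eq_iff : ν k = ν i ↔ k = i))).trans e, if_pos (Finset.mem_univ i),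
      Finset.sum_singleton] at h
  have hpair : ∀ p q, p ≠ q → D p q * A q p + D q p * A p q = 0 := by
    intro p q hpq
    have h := expSum_eq_zero (fun x : Fin r × Fin r => ν x.1 * ν x.2)
      (fun x => D x.1 x.2 * A x.2 x.1) (fun l => by
        rw [← h2 l, Fintype.sum_prod_type, Matrix.trace]
        refine Finset.sum_congr rfl fun i _ => ?_
        rw [Matrix.diag_apply, Matrix.mul_diagonal, Matrix.mul_apply, Finset.sum_mul]
        refine Finset.sum_congr rfl fun k _ => ?_
        rw [Matrix.mul_diagonal]; ring) (ν p * ν q)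
    have hset : (Finset.univ.filter fun x : Fin r × Fin r => ν x.1 * ν x.2 = ν p * ν q) =
        {(p, q), (q, p)} := by
      ext ⟨i, k⟩
      simp only [Finset.mem_filter, Finset.mem_univ, true_and, Finset.mem_insert,
        Finset.mem_singleton]
      constructor
      · exact hν.two i k p q
      · rintro (h | h) <;> obtain ⟨rfl, rfl⟩ := Prod.ext_iff.1 h <;> simp [mul_comm]
    rw [hset, Finset.sum_pair (by simp [hpq])] at h
    exact h
  obtain ⟨o⟩ : Nonempty (Fin r) := ⟨⟨0, hr⟩⟩
  let u : Fin r → Fin r → ℂ := fun i k => D i k / A i k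
  have hu : ∀ i k, i ≠ k → D i k = u i k * A i k := fun i k h =>
    (div_mul_cancel₀ _ (hA.entry_ne i k h)).symm
  have hanti : ∀ i k, i ≠ k → u k i = -u i k := by
    intro i k h
    have h0 := hpair i k h
    rw [hu i k h, hu k i h.symm] at h0
    have h5 : (u i k + u k i) * (A i k * A k i) = 0 := by linear_combination h0
    linear_combination (mul_eq_zero.1 h5).resolve_right
      (mul_ne_zero (hA.entry_ne i k h) (hA.entry_ne k i h.symm))
  have htri : ∀ p q s, p ≠ q → q ≠ s → p ≠ s → u p q + u q s + u s p = 0 := by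
    intro p q s hpq hqs hps
    have h := expSum_eq_zero (fun x : Fin r × Fin r × Fin r => ν x.1 * ν x.2.1 * ν x.2.2)
      (fun x => D x.1 x.2.1 * A x.2.1 x.2.2 * A x.2.2 x.1) (fun l => by
        rw [← h3 l, Fintype.sum_prod_type, Matrix.trace]
        simp only [Matrix.diag_apply, Fintype.sum_prod_type]
        refine Finset.sum_congr rfl fun i _ => ?_
        rw [Matrix.mul_diagonal, Matrix.mul_apply, Finset.sum_mul, Finset.sum_comm]
        refine Finset.sum_congr rfl fun k _ => ?_
        rw [Matrix.mul_diagonal, Matrix.mul_apply, Finset.sum_mul, Finset.sum_mul,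
          Finset.sum_mul]
        refine Finset.sum_congr rfl fun m _ => ?_
        rw [Matrix.mul_diagonal]; ring) (ν p * ν q * ν s)
    have hset : (Finset.univ.filter fun x : Fin r × Fin r × Fin r =>
        ν x.1 * ν x.2.1 * ν x.2.2 = ν p * ν q * ν s) =
          {(p, q, s), (q, s, p), (s, p, q), (q, p, s), (p, s, q), (s, q, p)} := by
      ext ⟨a, b, c⟩
      simp only [Finset.mem_filter, Finset.mem_univ, true_and, Finset.mem_insert,
        Finset.mem_singleton]
      constructor
      · exact hν.three a b c p q s hpq hqs hps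
      · rintro (h | h | h | h | h | h) <;>
          obtain ⟨rfl, h'⟩ := Prod.ext_iff.1 h <;> obtain ⟨rfl, rfl⟩ := Prod.ext_iff.1 h' <;>
          simp [mul_comm, mul_left_comm]
    rw [hset, Finset.sum_insert, Finset.sum_insert, Finset.sum_insert, Finset.sum_insert,
      Finset.sum_insert, Finset.sum_singleton] at h
    · rw [hu p q hpq, hu q s hqs, hu s p hps.symm, hu q p hpq.symm, hu p s hps,
        hu s q hqs.symm, hanti p q hpq, hanti q s hqs, hanti s p hps.symm] at h
      have h4 : (u p q + u q s + u s p) *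
          (A p q * A q s * A s p - A q p * A p s * A s q) = 0 := by linear_combination h
      exact (mul_eq_zero.1 h4).resolve_right (sub_ne_zero.2 (hA.orient p q s hpq hqs hps))
    all_goals simp [hpq, hqs, hps, hpq.symm, hqs.symm, hps.symm]
  refine ⟨fun i => if i = o then 0 else u i o, ?_⟩
  ext i k
  rw [Matrix.sub_apply, Matrix.diagonal_mul, Matrix.mul_diagonal]
  by_cases hik : i = k
  · subst hik; rw [hdiag]; ring
  · rw [hu i k hik]
    by_cases hi : i = o
    · subst hi
      simp only [if_pos, if_neg (Ne.symm hik)]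
      rw [hanti i k hik]; ring
    · by_cases hk : k = o
      · subst hk; simp only [if_pos, if_neg hik]; ring
      · simp only [if_neg hi, if_neg hk]
        have h := htri i k o hik hk hi
        rw [hanti i o hi] at h
        linear_combination A i k * h

/-- Independent eigenvalues have distinct products. -/
theorem distinctProducts_of_indep {ν : Fin r → ℂ} (hr : 0 < r) (h0 : ∀ i, ν i ≠ 0)
    (hind : ∀ e : Fin r → ℤ, ∏ i, ν i ^ e i = 1 → ∀ i j, e i = e j) :
    DistinctProducts ν := by
  classical
  have key : ∀ s t : Multiset (Fin r), s.card = t.card → (s.map ν).prod = (t.map ν).prod →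
      s = t := by
    intro s t hc hp
    have hm : ∀ u : Multiset (Fin r), (u.map ν).prod = ∏ i, ν i ^ u.count i := fun u =>
      Finset.prod_multiset_map_count u ν |>.trans
        (Finset.prod_subset (Finset.subset_univ _) fun i _ hi => by
          rw [Multiset.count_eq_zero.2 fun hm => hi (Multiset.mem_toFinset.2 hm), pow_zero])
    have h1 : ∏ i, ν i ^ ((s.count i : ℤ) - t.count i) = 1 := by
      simp_rw [fun i => zpow_sub₀ (h0 i) (s.count i : ℤ) (t.count i : ℤ), zpow_natCast]
      rw [Finset.prod_div_distrib, ← hm, ← hm, hp]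
      exact div_self (by rw [hm]; exact Finset.prod_ne_zero_iff.2 fun i _ => pow_ne_zero _ (h0 i))
    have hsum : ∀ u : Multiset (Fin r), ∑ i, u.count i = u.card := fun u =>
      Multiset.sum_count_eq_card fun i _ => Finset.mem_univ i
    obtain ⟨o⟩ : Nonempty (Fin r) := ⟨⟨0, hr⟩⟩
    have hd : ∀ i, (s.count i : ℤ) - t.count i = (s.count o : ℤ) - t.count o :=
      fun i => hind _ h1 i o
    have htot : ∑ i, ((s.count i : ℤ) - t.count i) = 0 := by
      rw [Finset.sum_sub_distrib, ← Nat.cast_sum, ← Nat.cast_sum, hsum, hsum, hc, sub_self]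
    simp_rw [hd, Finset.sum_const, Finset.card_univ, Fintype.card_fin, nsmul_eq_mul] at htot
    ext i
    have h2 := hd i
    have h3 : (s.count o : ℤ) - t.count o = 0 :=
      (mul_eq_zero.1 htot).resolve_left (Nat.cast_ne_zero.2 hr.ne')
    omega
  refine ⟨Indep.injective hind h0, fun i k p q h => ?_, fun a b c p q s hpq hqs hps h => ?_⟩
  · have h1 := key {i, k} {p, q} rfl (by simpa using h)
    have h2 : i ∈ ({p, q} : Multiset (Fin r)) := by rw [← h1]; simp
    simp at h2
    rcases h2 with rfl | rfl
    · simp at h1; simp [h1]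
    · rw [Multiset.pair_comm p i] at h1
      simp at h1; simp [h1]
  · have h1 := key {a, b, c} {p, q, s} rfl (by simpa [mul_assoc] using h)
    have hnd : ({a, b, c} : Multiset (Fin r)).Nodup := by
      rw [h1]; simp [hpq, hqs, hps]
    simp at hnd
    obtain ⟨⟨hab, hac⟩, hbc⟩ := hnd
    have ha : a ∈ ({p, q, s} : Multiset (Fin r)) := by rw [← h1]; simp
    have hb : b ∈ ({p, q, s} : Multiset (Fin r)) := by rw [← h1]; simp
    have hc : c ∈ ({p, q, s} : Multiset (Fin r)) := by rw [← h1]; simp
    simp at ha hb hc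
    rcases ha with rfl | rfl | rfl <;> rcases hb with rfl | rfl | rfl <;>
      rcases hc with rfl | rfl | rfl <;> simp_all

end Vale.Agent.P002.Surf
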