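import Vale.Agent.P002.Surf.Witness
import Vale.Agent.P002.Surf.Curve

/-!
P002, surface groups: at a generic handlebody point the velocities of the twist and bridge flows
span the kernel of the linearised relation.
-/

namespace Vale.Agent.P002.Surf

open Matrix

variable {g r : ℕ}

/-- The curve of a flow at the handlebody point with first entries `A`. -/
noncomputable def baseCurve : Curve g → (Fin g → Mat r) → Mat r
  | .twist j, A => A j
  | .bridge i j _ l, A => A i * (A j ^ l)⁻¹

/-- The velocity of the second entries along a flow. -/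
noncomputable def vel : Curve g → (Fin g → Mat r) → Mat r → Fin g → Mat r
  | .twist j, _, Y => Pi.single j Y
  | .bridge i j _ l, A, Y => Pi.single i ((A i)⁻¹ * Y * A i) +
      Pi.single j (-∑ u ∈ Finset.range l, (A j ^ (u + 1))⁻¹ * Y * A j ^ (u + 1))

/-- The linearised relation on the second entries. -/
noncomputable def delta (A : Fin g → Mat r) : (Fin g → Mat r) →ₗ[ℂ] Mat r where
  toFun b := ∑ i, (A i * b i * (A i)⁻¹ - b i)
  map_add' b b' := by
    rw [← Finset.sum_add_distrib]
    exact Finset.sum_congr rfl fun i _ => by simp [Matrix.mul_add, Matrix.add_mul]; abel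
  map_smul' c b := by
    rw [RingHom.id_apply, Finset.smul_sum]
    exact Finset.sum_congr rfl fun i _ => by simp [smul_sub]

/-- The span of the velocities along powers of the curves. -/
noncomputable def gens (A : Fin g → Mat r) : Submodule ℂ (Fin g → Mat r) :=
  Submodule.span ℂ (Set.range fun p : Curve g × ℕ => vel p.1 A (baseCurve p.1 A ^ p.2))

/-- The coboundary of `R` at `a`. -/
noncomputable def dcob (a R : Mat r) : Mat r := a⁻¹ * R * a - R

theorem trace_cob_left (a R Y : Mat r) (ha : IsUnit a.det) :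
    trace (dcob a R * (a⁻¹ * Y * a)) = trace (R * Y) - trace (R * (a⁻¹ * Y * a)) := by
  rw [dcob, Matrix.sub_mul, Matrix.trace_sub]
  congr 1
  calc trace (a⁻¹ * R * a * (a⁻¹ * Y * a)) = trace (a⁻¹ * (R * (a * a⁻¹) * Y) * a) := by
        simp only [Matrix.mul_assoc]
    _ = trace (R * Y) := by
        rw [Matrix.mul_nonsing_inv a ha, Matrix.mul_one, Matrix.trace_mul_cycle,
          Matrix.mul_nonsing_inv a ha, Matrix.one_mul]

theorem trace_cob_sum (a R Y : Mat r) (ha : IsUnit a.det) (l : ℕ) :
    trace (dcob a R * ∑ u ∈ Finset.range l, (a ^ (u + 1))⁻¹ * Y * a ^ (u + 1)) =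
      trace (R * Y) - trace (R * ((a ^ l)⁻¹ * Y * a ^ l)) := by
  induction l with
  | zero => simp
  | succ l ih =>
    rw [Finset.sum_range_succ, Matrix.mul_add, Matrix.trace_add, ih]
    have h1 : trace (dcob a R * ((a ^ (l + 1))⁻¹ * Y * a ^ (l + 1))) =
        trace (R * ((a ^ l)⁻¹ * Y * a ^ l)) -
          trace (R * ((a ^ (l + 1))⁻¹ * Y * a ^ (l + 1))) := by
      have h2 : (a ^ (l + 1))⁻¹ * Y * a ^ (l + 1) = a⁻¹ * ((a ^ l)⁻¹ * Y * a ^ l) * a := by
        rw [pow_succ, Matrix.mul_inv_rev]; simp only [Matrix.mul_assoc]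
      rw [h2]; exact trace_cob_left a R _ ha
    rw [h1]; ring

theorem conj_eq_of_commute (a L Y : Mat r) (ha : IsUnit a.det) (hL : IsUnit L.det)
    (h : Commute Y (a * L⁻¹)) : a⁻¹ * Y * a = L⁻¹ * Y * L := by
  have h1 := congrArg (fun Z => a⁻¹ * Z * L) h.eq
  simp only [Matrix.mul_assoc, Matrix.nonsing_inv_mul L hL, Matrix.mul_one] at h1
  rw [← Matrix.mul_assoc a⁻¹ a, Matrix.nonsing_inv_mul a ha, Matrix.one_mul] at h1
  simpa only [Matrix.mul_assoc] using h1

theorem exists_trace_rep (φ : Module.Dual ℂ (Fin g → Mat r)) :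
    ∃ β : Fin g → Mat r, ∀ b, φ b = ∑ i, trace (β i * b i) := by
  classical
  refine ⟨fun i => Matrix.of fun k l => φ (Pi.single i (single l k 1)), fun b => ?_⟩
  have hb : b = ∑ i, ∑ l, ∑ k, b i l k • Pi.single (M := fun _ => Mat r) i (single l k 1) := by
    funext i₀
    rw [Finset.sum_apply, Fintype.sum_eq_single i₀ fun i hi => by
      simp [Finset.sum_apply, Pi.single_eq_of_ne (Ne.symm hi)]]
    conv_lhs => rw [Matrix.matrix_eq_sum_single (b i₀)]
    simp [Finset.sum_apply, Matrix.smul_single]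
  conv_lhs => rw [hb]
  simp only [map_sum, map_smul, smul_eq_mul, Matrix.trace, Matrix.diag_apply, Matrix.mul_apply,
    Matrix.of_apply]
  refine Finset.sum_congr rfl fun i _ => ?_
  rw [Finset.sum_comm]
  exact Finset.sum_congr rfl fun k _ => Finset.sum_congr rfl fun l _ => mul_comm _ _

theorem sum_trace_single (β : Fin g → Mat r) (j : Fin g) (Y : Mat r) :
    ∑ i, trace (β i * (Pi.single j Y : Fin g → Mat r) i) = trace (β j * Y) := by
  rw [Fintype.sum_eq_single j fun i hi => by simp [Pi.single_eq_of_ne hi]]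
  simp

theorem sum_trace_bridge (β : Fin g → Mat r) (i j : Fin g) (hij : i < j) (l : ℕ)
    (A : Fin g → Mat r) (Y : Mat r) :
    ∑ k, trace (β k * vel (.bridge i j hij l) A Y k) = trace (β i * ((A i)⁻¹ * Y * A i)) -
      trace (β j * ∑ u ∈ Finset.range l, (A j ^ (u + 1))⁻¹ * Y * A j ^ (u + 1)) := by
  simp only [vel, Pi.add_apply, Matrix.mul_add, Matrix.trace_add, Finset.sum_add_distrib,
    sum_trace_single, Matrix.mul_neg, Matrix.trace_neg]
  ring

/-- The hypotheses on a handlebody point. -/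
structure BaseOK (o z : Fin g) (e : Fin r) (A : Fin g → Mat r) : Prop where
  det_one : ∀ i, (A i).det = 1
  diag : ∃ μ : Fin r → ℂ, A o = diagonal μ ∧ DistinctProducts μ⁻¹
  genPos : ∀ i, i ≠ o → GenPos (A i)
  sep : ∀ i, i ≠ o → i ≠ z → (sepMat e (A z) (A i)).det ≠ 0

theorem BaseOK.isUnit {o z : Fin g} {e : Fin r} {A : Fin g → Mat r} (h : BaseOK o z e A)
    (i : Fin g) : IsUnit (A i).det := by rw [h.det_one i]; exact isUnit_one

theorem pair_cob (hr : 0 < r) {o z : Fin g} {e : Fin r} {A : Fin g → Mat r} (hA : BaseOK o z e A)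
    {β : Fin g → Mat r} {i : Fin g} (hio : i < o)
    (htw : ∀ n : ℕ, trace (β o * A o ^ n) = 0)
    (hbr : ∀ l n : ℕ, ∑ k, trace (β k *
      vel (.bridge i o hio l) A ((A i * (A o ^ l)⁻¹) ^ n) k) = 0) :
    ∃ R, β i = dcob (A i) R ∧ β o = dcob (A o) R := by
  obtain ⟨μ, hμ, hDP⟩ := hA.diag
  have hμ1 : ∏ p, μ p = 1 := by rw [← det_diagonal, ← hμ, hA.det_one]
  have hμ0 : ∀ p, μ p ≠ 0 := fun p hp =>
    absurd (Finset.prod_eq_zero (Finset.mem_univ p) hp) (by rw [hμ1]; exact one_ne_zero)
  have hμinj : Function.Injective μ := fun p q h => hDP.one (by simp [h])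
  have hμi : (A o)⁻¹ = diagonal μ⁻¹ := by
    refine Matrix.inv_eq_right_inv ?_
    rw [hμ, diagonal_mul_diagonal]
    simp [hμ0]
  have hd : ∀ p, β o p p = 0 := by
    intro p
    have h := expSum_eq_zero μ (fun k => β o k k) (fun n => by
      rw [← htw n, hμ, Matrix.diagonal_pow]; simp [Matrix.trace, Matrix.mul_diagonal]) (μ p)
    rwa [Finset.filter_congr (q := fun k => k = p) fun k _ => hμinj.eq_iff, Finset.filter_eq',
      if_pos (Finset.mem_univ p), Finset.sum_singleton] at h
  let R0 : Mat r := Matrix.of fun p q => if p = q then 0 else β o p q / (μ q / μ p - 1)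
  have hR0 : β o = dcob (A o) R0 := by
    ext p q
    rw [dcob, hμi, hμ, Matrix.sub_apply, Matrix.mul_diagonal, Matrix.diagonal_mul]
    by_cases hpq : p = q
    · subst hpq; simp [R0, hd]
    · have h1 : μ q / μ p - 1 ≠ 0 := by
        rw [sub_ne_zero, Ne, div_eq_one_iff_eq (hμ0 p)]
        exact fun h => hpq (hμinj h).symm
      simp only [R0, Matrix.of_apply, if_neg hpq, Pi.inv_apply]
      generalize hc : β o p q / (μ q / μ p - 1) = c
      rw [(div_eq_iff h1).1 hc]
      field_simp [hμ0 p]
  let D : Mat r := A i * (β i - dcob (A i) R0)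
  have hui := hA.isUnit i
  have huo := hA.isUnit o
  have hD : ∀ l n : ℕ, trace (D * ((A i)⁻¹ * (A i * (A o ^ l)⁻¹) ^ n)) = 0 := by
    intro l n
    have h := hbr l n
    rw [sum_trace_bridge, hR0, trace_cob_sum _ _ _ huo] at h
    have hL : IsUnit (A o ^ l).det := by rw [Matrix.det_pow]; exact huo.pow l
    have hconj := conj_eq_of_commute (A i) (A o ^ l) ((A i * (A o ^ l)⁻¹) ^ n) hui hL
      ((Commute.refl _).pow_left n)
    set Y := (A i * (A o ^ l)⁻¹) ^ n
    have h2 : trace ((β i - dcob (A i) R0) * ((A i)⁻¹ * Y * A i)) = 0 := by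
      rw [Matrix.sub_mul, Matrix.trace_sub, trace_cob_left _ _ _ hui]
      rw [← hconj] at h
      exact h
    calc trace (D * ((A i)⁻¹ * Y))
        = trace (A i * ((β i - dcob (A i) R0) * ((A i)⁻¹ * Y))) := by
          simp only [D, Matrix.mul_assoc]
      _ = trace ((β i - dcob (A i) R0) * ((A i)⁻¹ * Y * A i)) := by
          rw [Matrix.trace_mul_comm]; simp only [Matrix.mul_assoc]
      _ = 0 := h2
  have hΛ : ∀ l : ℕ, (A o ^ l)⁻¹ = diagonal fun p => μ⁻¹ p ^ l := by
    intro l
    refine Matrix.inv_eq_right_inv ?_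
    rw [hμ, Matrix.diagonal_pow, diagonal_mul_diagonal]
    simp [hμ0]
  have hred : ∀ X : Mat r, (A i)⁻¹ * (A i * X) = X := fun X => by
    rw [← Matrix.mul_assoc, Matrix.nonsing_inv_mul _ hui, Matrix.one_mul]
  obtain ⟨s, hs⟩ := diag_coboundary hr hDP (hA.genPos i (ne_of_lt hio)) (D := D)
    (fun l => by simpa [hΛ, hred] using hD l 1)
    (fun l => by simpa [hΛ, hred, pow_succ, Matrix.mul_assoc] using hD l 2)
    (fun l => by simpa [hΛ, hred, pow_succ, Matrix.mul_assoc] using hD l 3)
  refine ⟨R0 + diagonal s, ?_, ?_⟩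
  · have h1 : β i - dcob (A i) R0 = (A i)⁻¹ * D := (hred _).symm
    rw [hs, Matrix.mul_sub, hred, ← Matrix.mul_assoc] at h1
    simp only [dcob, Matrix.mul_add, Matrix.add_mul] at h1 ⊢
    rw [sub_eq_iff_eq_add] at h1
    rw [h1]; abel
  · have h1 : (A o)⁻¹ * diagonal s * A o = diagonal s := by
      rw [Matrix.mul_assoc, hμ, (Matrix.commute_diagonal s μ).eq, ← Matrix.mul_assoc, ← hμ,
        Matrix.nonsing_inv_mul _ huo, Matrix.one_mul]
    rw [hR0]
    simp only [dcob, Matrix.mul_add, Matrix.add_mul, h1]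
    abel

/-- The velocities span the kernel of the linearised relation. -/
theorem ker_le_gens (hr : 0 < r) {o z : Fin g} {e : Fin r} (hzo : z < o) (ho : ∀ i, i ≠ o → i < o)
    (hz : ∀ i, i ≠ z → z < i) {A : Fin g → Mat r} (hA : BaseOK o z e A) :
    LinearMap.ker (delta A) ≤ gens A := by
  intro b hb
  by_contra hbg
  obtain ⟨φ, hφb, hφ⟩ := Submodule.exists_dual_map_eq_bot_of_notMem hbg inferInstance
  obtain ⟨β, hβ⟩ := exists_trace_rep φ
  have hkill : ∀ c n, ∑ k, trace (β k * vel c A (baseCurve c A ^ n) k) = 0 := by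
    intro c n
    rw [← hβ]
    have : φ (vel c A (baseCurve c A ^ n)) ∈ (gens A).map φ :=
      Submodule.mem_map_of_mem (Submodule.subset_span ⟨(c, n), rfl⟩)
    rw [hφ] at this
    exact (Submodule.mem_bot ℂ).1 this
  have htw : ∀ n : ℕ, trace (β o * A o ^ n) = 0 := fun n => by
    have h := hkill (.twist o) n
    simp only [vel, baseCurve] at h
    rwa [sum_trace_single] at h
  choose R hRi hRo using fun (i : Fin g) (hi : i < o) =>
    pair_cob hr hA hi htw fun l n => hkill (.bridge i o hi l) n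
  obtain ⟨μ, hμ, hDP⟩ := hA.diag
  have hμinj : Function.Injective μ := fun p q h => hDP.one (by simp [h])
  have hall : ∀ i, β i = dcob (A i) (R z hzo) := by
    intro i
    by_cases hio : i = o
    · rw [hio]; exact hRo z hzo
    by_cases hiz : i = z
    · rw [hiz]; exact hRi z hzo
    have hi := ho i hio
    have hzi := hz i hiz
    set D := R i hi - R z hzo with hD
    have hcomm : A o * D = D * A o := by
      have h1 : dcob (A o) D = 0 := by
        have h2 := (hRo i hi).symm.trans (hRo z hzo)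
        simp only [dcob, hD, Matrix.mul_sub, Matrix.sub_mul] at h2 ⊢
        linear_combination (norm := abel) h2
      rw [dcob, sub_eq_zero] at h1
      have h3 := congrArg (A o * ·) h1
      simp only [← Matrix.mul_assoc, Matrix.mul_nonsing_inv _ (hA.isUnit o),
        Matrix.one_mul] at h3
      exact h3.symm
    have hDd : D = diagonal fun p => D p p := by
      ext p q
      by_cases hpq : p = q
      · subst hpq; simp
      · have h4 := congrFun (congrFun hcomm p) q
        rw [hμ, Matrix.diagonal_mul, Matrix.mul_diagonal] at h4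
        rw [diagonal_apply_ne _ hpq]
        have h5 : D p q * (μ p - μ q) = 0 := by linear_combination h4
        exact (mul_eq_zero.1 h5).resolve_right (sub_ne_zero.2 fun h => hpq (hμinj h))
    have hui := hA.isUnit i
    have hsep := diag_const_of_sep (hA.sep i hio hiz) (fun p => D p p) fun l => by
      have h := hkill (.bridge z i hzi l) 1
      simp only [baseCurve, pow_one] at h
      have hL : IsUnit (A i ^ l).det := by rw [Matrix.det_pow]; exact hui.pow l
      have hconj := conj_eq_of_commute (A z) (A i ^ l) (A z * (A i ^ l)⁻¹) (hA.isUnit z) hL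
        (Commute.refl _)
      have hsplit : β i = dcob (A i) (R z hzo) + dcob (A i) D := by
        rw [hRi i hi]; simp only [dcob, hD, Matrix.mul_sub, Matrix.sub_mul]; abel
      rw [sum_trace_bridge, hRi z hzo, hsplit, Matrix.add_mul, Matrix.trace_add,
        trace_cob_left _ _ _ (hA.isUnit z), trace_cob_sum _ _ _ hui, trace_cob_sum _ _ _ hui,
        hconj] at h
      rw [← hDd]
      have hinv : (A i).adjugate ^ l = (A i ^ l)⁻¹ := by
        refine (Matrix.inv_eq_right_inv ?_).symm
        have hc : Commute (A i) (A i).adjugate := by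
          rw [Commute, SemiconjBy, Matrix.mul_adjugate, Matrix.adjugate_mul]
        rw [← hc.mul_pow, Matrix.mul_adjugate, hA.det_one, one_smul, one_pow]
      rw [hinv, Matrix.sub_mul, Matrix.trace_sub]
      have hLc : (A i ^ l)⁻¹ * (A z * (A i ^ l)⁻¹) * A i ^ l = (A i ^ l)⁻¹ * A z := by
        simp only [Matrix.mul_assoc, Matrix.nonsing_inv_mul _ hL, Matrix.mul_one]
      rw [hLc] at h
      rw [Matrix.trace_mul_comm (A z * D), ← Matrix.mul_assoc ((A i ^ l)⁻¹) (A z) D,
        Matrix.trace_mul_comm _ D, Matrix.mul_assoc D (A z)]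
      linear_combination -h
    have hDs : D = D e e • (1 : Mat r) := by
      rw [hDd, Matrix.smul_one_eq_diagonal]
      simp only [diagonal_apply_eq]
      exact congrArg diagonal (funext hsep)
    rw [hRi i hi]
    have h0 : dcob (A i) D = 0 := by
      rw [hDs, dcob]; simp [Matrix.nonsing_inv_mul _ hui]
    simp only [dcob, hD, Matrix.mul_sub, Matrix.sub_mul] at h0 ⊢
    linear_combination (norm := abel) h0
  apply hφb
  rw [hβ]
  have : ∑ i, trace (β i * b i) = trace (R z hzo * delta A b) := by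
    simp only [delta, LinearMap.coe_mk, AddHom.coe_mk, Matrix.mul_sum, Matrix.trace_sum]
    refine Finset.sum_congr rfl fun i _ => ?_
    rw [hall i, dcob, Matrix.sub_mul, Matrix.mul_sub, Matrix.trace_sub, Matrix.trace_sub]
    congr 1
    rw [Matrix.mul_assoc, Matrix.mul_assoc, Matrix.trace_mul_comm]
    simp only [Matrix.mul_assoc]
  rw [this, LinearMap.mem_ker.1 hb]
  simp

/-- The matrix deciding irreducibility of a handlebody point. -/
noncomputable def hbWord (o z : Fin g) (A : Fin g → Mat r) :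
    Matrix (Fin r × Fin r) (Fin r × Fin r) ℂ :=
  Matrix.of fun ab pq => (A o ^ ab.1.val * A z * A o ^ ab.2.val) pq.1 pq.2

theorem irred_of_hbWord {o z : Fin g} {A : Fin g → Mat r} (h : (hbWord o z A).det ≠ 0)
    (W : Submodule ℂ (Fin r → ℂ)) (hW : ∀ i, ∀ v ∈ W, A i *ᵥ v ∈ W) : W = ⊥ ∨ W = ⊤ := by
  classical
  by_contra hne
  push Not at hne
  obtain ⟨w, hw, hw0⟩ := (Submodule.ne_bot_iff W).1 hne.1
  obtain ⟨u, hu⟩ : ∃ u, u ∉ W := by
    by_contra hall
    push Not at hall
    exact hne.2 (eq_top_iff.2 fun u _ => hall u)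
  obtain ⟨ψ, hψu, hψ⟩ := Submodule.exists_dual_map_eq_bot_of_notMem hu inferInstance
  have hψW : ∀ v ∈ W, ψ v = 0 := fun v hv => by
    have := Submodule.mem_map_of_mem (f := ψ) hv
    rw [hψ] at this
    exact (Submodule.mem_bot ℂ).1 this
  let x : Fin r × Fin r → ℂ := fun pq => ψ (Pi.single pq.1 1) * w pq.2
  have hψrep : ∀ v, ψ v = ∑ p, ψ (Pi.single p 1) * v p := fun v => by
    conv_lhs => rw [pi_eq_sum_univ' v]
    simp [map_sum, mul_comm]
  have hx : hbWord o z A *ᵥ x = 0 := by
    funext ab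
    have hpow : ∀ n : ℕ, ∀ v ∈ W, A o ^ n *ᵥ v ∈ W := by
      intro n
      induction n with
      | zero => intro v hv; simpa using hv
      | succ n ih =>
        intro v hv; rw [pow_succ, ← Matrix.mulVec_mulVec]; exact ih _ (hW o v hv)
    have hmem : (A o ^ ab.1.val * A z * A o ^ ab.2.val) *ᵥ w ∈ W := by
      rw [← Matrix.mulVec_mulVec, ← Matrix.mulVec_mulVec]
      exact hpow _ _ (hW z _ (hpow _ _ hw))
    rw [Pi.zero_apply, ← hψW _ hmem, hψrep]
    simp only [Matrix.mulVec, dotProduct, hbWord, Matrix.of_apply, x, Fintype.sum_prod_type,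
      Finset.mul_sum]
    exact Finset.sum_congr rfl fun p _ => Finset.sum_congr rfl fun q _ => by ring
  have hx0 := Matrix.eq_zero_of_mulVec_eq_zero h hx
  obtain ⟨q, hq⟩ := Function.ne_iff.1 hw0
  apply hψu
  rw [hψrep]
  refine Finset.sum_eq_zero fun p _ => ?_
  have := congrFun hx0 (p, q)
  simp only [x, Pi.zero_apply, mul_eq_zero] at this
  rw [this.resolve_right hq, zero_mul]

/-- A generic handlebody point exists. -/
theorem exists_baseOK (hg : 2 ≤ g) (hr : 2 ≤ r) :
    ∃ (o z : Fin g) (A : Fin g → Mat r), z < o ∧ (∀ i, (A i).det = 1) ∧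
      (hbWord o z A).det ≠ 0 ∧ LinearMap.ker (delta A) ≤ gens A := by
  classical
  let o : Fin g := ⟨g - 1, by omega⟩
  let z : Fin g := ⟨0, by omega⟩
  let e : Fin r := ⟨0, by omega⟩
  have hzo : z < o := by simp [o, z, Fin.lt_def]; omega
  have ho : ∀ i, i ≠ o → i < o := fun i hi => by
    simp [o, Fin.lt_def, Fin.ext_iff] at hi ⊢; omega
  have hz : ∀ i, i ≠ z → z < i := fun i hi => by
    simp [z, Fin.lt_def, Fin.ext_iff] at hi ⊢; omega
  obtain ⟨μ, hμ1, hμI⟩ := exists_indep_diagonal (r := r) (by omega)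
  have hμ0 : ∀ i, μ i ≠ 0 := fun i hi =>
    absurd (Finset.prod_eq_zero (Finset.mem_univ i) hi) (by rw [hμ1]; exact one_ne_zero)
  have hroots : (diagonal μ).charpoly.roots = Finset.univ.val.map μ := by
    rw [charpoly_diagonal, Polynomial.roots_prod] <;>
      simp [Finset.prod_ne_zero_iff, Polynomial.X_sub_C_ne_zero]
  have hind : ∀ a : Fin r → ℤ, ∏ i, μ i ^ a i = 1 → ∀ i j, a i = a j := by
    intro a ha i j
    by_contra hne
    have h1 := hμI.relPoly_ne_zero (by rw [det_diagonal, hμ1]) ⟨a, i, j, hne⟩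
    rw [relPoly_eq a hroots, Finset.prod_ne_zero_iff] at h1
    refine h1 1 (Finset.mem_univ _) (sub_eq_zero.2 ?_)
    simp only [Equiv.Perm.one_apply]
    have : ∀ i, μ i ^ a i = μ i ^ (a i).toNat / μ i ^ (-a i).toNat := fun i => by
      rw [← zpow_natCast, ← zpow_natCast, ← zpow_sub₀ (hμ0 i), Int.toNat_sub_toNat_neg]
    simp_rw [this, Finset.prod_div_distrib] at ha
    exact (div_eq_one_iff_eq (Finset.prod_ne_zero_iff.2 fun i _ => pow_ne_zero _ (hμ0 i))).1 ha
  have hDP : DistinctProducts μ⁻¹ := distinctProducts_of_indep (by omega)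
    (fun i => inv_ne_zero (hμ0 i)) fun a ha i j => by
      have := hind (fun i => -a i) (by simpa [_root_.zpow_neg, _root_.inv_zpow] using ha) i j
      simpa using this
  let Xm : (Fin g × Fin r × Fin r → ℂ) → Fin g → Mat r := fun x i => Matrix.of fun p q => x (i, p, q)
  let A : (Fin g × Fin r × Fin r → ℂ) → Fin g → Mat r := fun x i =>
    if i = o then diagonal μ else slNorm e (Xm x i)
  let D : Set (Fin g × Fin r × Fin r → ℂ) := {x | ∀ i, (Xm x i).det ≠ 0}
  have hDo : IsOpen D := by
    have : D = ⋂ i, {x | (Xm x i).det ≠ 0} := by ext; simp [D]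
    rw [this]
    refine isOpen_iInter_of_finite fun i => IsOpen.preimage (f := fun x => (Xm x i).det)
      (Continuous.matrix_det (continuous_pi fun p => continuous_pi fun q => ?_)) isOpen_ne
    exact continuous_apply (i, p, q)
  have hA : ∀ i, RatMat (fun a : D => (a : Fin g × Fin r × Fin r → ℂ)) fun a => A a i := by
    intro i
    by_cases hi : i = o
    · exact (RatMat.const (diagonal μ)).congr fun a => by simp [A, hi]
    · refine (ratMat_slNorm e (X := fun a : D => Xm a i) (fun p q => ?_) fun a => a.2 i).congr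
        fun a => by simp [A, hi]
      exact (RatFn.coord (i, p, q)).congr fun a => by simp [Xm]
  let f : (Fin g × Fin r × Fin r) ⊕ (Fin g × Fin r × Fin r × Fin r) ⊕ Fin g →
      (Fin g × Fin r × Fin r → ℂ) → ℂ := fun k x => match k with
    | .inl (i, p, q) => A x i p q + (if i = o then 1 - A x i p q else 0)
    | .inr (.inl (i, p, q, s)) => if i = o ∨ p = q ∨ q = s ∨ p = s then 1 else
        A x i p q * A x i q s * A x i s p - A x i q p * A x i p s * A x i s q
    | .inr (.inr i) => if i = o ∨ i = z then 1 else (sepMat e (A x z) (A x i)).det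
  have hrat : ∀ k, RatFn (fun a : D => (a : Fin g × Fin r × Fin r → ℂ)) fun a => f k a := by
    rintro (⟨i, p, q⟩ | ⟨i, p, q, s⟩ | i)
    · by_cases hi : i = o
      · exact (RatFn.const 1).congr fun a => by simp [f, hi]
      · exact (hA i p q).congr fun a => by simp [f, hi]
    · by_cases hi : i = o ∨ p = q ∨ q = s ∨ p = s
      · exact (RatFn.const 1).congr fun a => by simp [f, hi]
      · exact ((((hA i p q).mul (hA i q s)).mul (hA i s p)).sub
          (((hA i q p).mul (hA i p s)).mul (hA i s q))).congr fun a => by simp [f, hi]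
    · by_cases hi : i = o ∨ i = z
      · exact (RatFn.const 1).congr fun a => by simp [f, hi]
      · refine (RatMat.det (M := fun a : D => sepMat e (A a z) (A a i)) fun l c => ?_).congr
          fun a => by simp [f, hi]
        by_cases hc : c = e
        · exact (RatFn.const (if l = e then 1 else 0)).congr fun a => by simp [sepMat, hc]
        · refine (RatFn.sum Finset.univ fun p _ => ?_).congr fun a => by
            simp only [sepMat, Matrix.of_apply, if_neg hc]; rfl
          exact ((((RatMat.const (single c c 1)).mul (hA z)).add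
            (RatMat.smul (RatFn.const (-1)) ((hA z).mul (RatMat.const (single c c 1))))).mul
              ((RatMat.adjugate (hA i)).pow l.val)).congr
            (N := fun a : D => (single c c 1 * A a z - A a z * single c c 1) *
              (A a i).adjugate ^ l.val) (fun a => by simp [sub_eq_add_neg]) p p
  have put : ∀ Bs : Fin g → Mat r, (∀ i, (Bs i).det = 1) →
      ∃ x ∈ D, ∀ i, i ≠ o → A x i = Bs i := by
    intro Bs hB
    refine ⟨fun v => Bs v.1 v.2.1 v.2.2, fun i => ?_, fun i hi => ?_⟩
    · show (Matrix.of fun p q => Bs i p q).det ≠ 0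
      rw [show (Matrix.of fun p q => Bs i p q) = Bs i from rfl, hB]
      exact one_ne_zero
    · simp only [A, if_neg hi, Xm]
      exact slNorm_of_det_one e (hB i)
  have hne : ∀ k, ∃ x ∈ D, f k x ≠ 0 := by
    obtain ⟨M, hM, hG⟩ := exists_genPos (r := r) (by omega)
    rintro (⟨i, p, q⟩ | ⟨i, p, q, s⟩ | i)
    · by_cases hpq : p = q
      · obtain ⟨x, hx, hxA⟩ := put (fun _ => 1) fun _ => det_one
        refine ⟨x, hx, ?_⟩
        by_cases hi : i = o <;> simp [f, hi, hxA, hpq]
      · obtain ⟨x, hx, hxA⟩ := put (fun _ => M) fun _ => hM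
        refine ⟨x, hx, ?_⟩
        by_cases hi : i = o
        · simp [f, hi]
        · simpa [f, hi, hxA] using hG.entry_ne p q hpq
    · obtain ⟨x, hx, hxA⟩ := put (fun _ => M) fun _ => hM
      refine ⟨x, hx, ?_⟩
      by_cases hi : i = o ∨ p = q ∨ q = s ∨ p = s
      · simp [f, hi]
      · simp only [f, if_neg hi]
        push Not at hi
        rw [hxA i hi.1]
        exact sub_ne_zero.2 (hG.orient p q s hi.2.1 hi.2.2.1 hi.2.2.2)
    · obtain ⟨Az, Ai, hAz, hAi, hsep⟩ := exists_sep hr e rfl
      obtain ⟨x, hx, hxA⟩ := put (fun k => if k = z then Az else Ai) fun k => by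
        split
        · exact hAz
        · exact hAi
      refine ⟨x, hx, ?_⟩
      by_cases hi : i = o ∨ i = z
      · simp [f, hi]
      · simp only [f, if_neg hi]
        push Not at hi
        rw [hxA z (ne_of_lt hzo), hxA i hi.1]
        simpa [hi.2] using hsep
  obtain ⟨x, ⟨-, hx⟩, hfx⟩ := dense_ratFn_ne_zero hDo f hrat hne isOpen_univ (by
    obtain ⟨x, hx, -⟩ := put (fun _ => 1) fun _ => det_one
    exact ⟨x, trivial, hx⟩)
  have hdet : ∀ i, (A x i).det = 1 := by
    intro i
    by_cases hi : i = o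
    · simp [A, hi, hμ1]
    · simp only [A, if_neg hi]; exact det_slNorm e (hx i)
  have hne' : ∀ i, i ≠ o → ∀ p q, A x i p q ≠ 0 := fun i hi p q => by
    simpa [f, hi] using hfx (.inl (i, p, q))
  have hOK : BaseOK o z e (A x) := {
    det_one := hdet
    diag := ⟨μ, by simp [A], hDP⟩
    genPos := fun i hi => ⟨fun p q _ => hne' i hi p q, fun p q s h1 h2 h3 => by
      simpa [f, hi, h1, h2, h3, sub_ne_zero] using hfx (.inr (.inl (i, p, q, s)))⟩
    sep := fun i hi hiz => by simpa [f, hi, hiz] using hfx (.inr (.inr i)) }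
  refine ⟨o, z, A x, hzo, hdet, ?_, ker_le_gens (by omega) hzo ho hz hOK⟩
  rw [Ne, ← Matrix.exists_mulVec_eq_zero_iff]
  rintro ⟨w, hw0, hw⟩
  apply hw0
  have hμinj : Function.Injective μ := Indep.injective hind hμ0
  have h1 : ∀ a b : Fin r, ∑ p, (∑ q, A x z p q * w (p, q) * μ q ^ b.val) * μ p ^ a.val = 0 := by
    intro a b
    have h := congrFun hw (a, b)
    simp only [Matrix.mulVec, dotProduct, hbWord, Matrix.of_apply, Pi.zero_apply,
      Fintype.sum_prod_type] at h
    have hAo : A x o = diagonal μ := by simp [A]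
    rw [hAo, Matrix.diagonal_pow, Matrix.diagonal_pow] at h
    rw [← h]
    simp only [Matrix.mul_diagonal, Matrix.diagonal_mul, Pi.pow_apply, Finset.sum_mul]
    exact Finset.sum_congr rfl fun p _ => Finset.sum_congr rfl fun q _ => by ring
  funext ⟨p, q⟩
  have h2 : ∀ b : Fin r, ∑ q, A x z p q * w (p, q) * μ q ^ b.val = 0 := fun b =>
    congrFun (Matrix.eq_zero_of_forall_pow_sum_mul_pow_eq_zero (f := μ)
      (v := fun p => ∑ q, A x z p q * w (p, q) * μ q ^ b.val) hμinj fun a => h1 a b) p
  have h3 := congrFun (Matrix.eq_zero_of_forall_pow_sum_mul_pow_eq_zero (f := μ)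
    (v := fun q => A x z p q * w (p, q)) hμinj fun b => h2 b) q
  exact (mul_eq_zero.1 h3).resolve_left (hne' z (ne_of_lt hzo) p q)

end Vale.Agent.P002.Surf
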