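import Vale.Agent.P002.Surf.Stage

/-!
P002, surface groups: a handlebody point at which finitely many flows with independent curves span
the kernel of the linearised relation.
-/

namespace Vale.Agent.P002.Surf

open Matrix Module
open scoped Topology Matrix.Norms.Operator

variable {g r : ℕ}

theorem ratMat_inv_of_det_one {α ι : Type*} {ev : α → ι → ℂ} {A : α → Mat r} (hA : RatMat ev A)
    (h : ∀ a, (A a).det = 1) : RatMat ev fun a => (A a)⁻¹ :=
  (RatMat.adjugate hA).congr fun a => by rw [Matrix.inv_def, h a]; simp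

/-- A generic handlebody point with finitely many spanning flows. -/
theorem exists_spanning (hg : 2 ≤ g) (hr : 2 ≤ r) :
    ∃ (o z : Fin g) (A : Fin g → Matrix.SpecialLinearGroup (Fin r) ℂ) (M : ℕ) (L : Fin M → Curve g)
      (n : Fin M → ℕ),
      (hbWord o z fun i => (A i).1).det ≠ 0 ∧ (∀ m, Indep (baseCurve (L m) fun i => (A i).1)) ∧
      LinearMap.ker (delta fun i => (A i).1) ≤ Submodule.span ℂ (Set.range fun m =>
        vel (L m) (fun i => (A i).1) (baseCurve (L m) (fun i => (A i).1) ^ n m)) := by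
  classical
  obtain ⟨o, z, A1, -, hdet1, hW1, hker⟩ := exists_baseOK hg hr
  obtain ⟨b, hbsub, hbspan, hbli⟩ := exists_linearIndependent ℂ
    (Set.range fun p : Curve g × ℕ => vel p.1 A1 (baseCurve p.1 A1 ^ p.2))
  have hbfin : Finite b := hbli.finite
  obtain ⟨M, ⟨e⟩⟩ : ∃ M, Nonempty (Fin M ≃ b) := ⟨_, ⟨(Finite.equivFin b).symm⟩⟩
  choose cn hcn using fun m => hbsub (e m).2
  let V : (Fin g → Mat r) → Fin M → Fin g → Mat r := fun A m =>
    vel (cn m).1 A (baseCurve (cn m).1 A ^ (cn m).2)
  have hV1 : V A1 = fun m => (e m).1 := funext fun m => hcn m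
  have hVli : LinearIndependent ℂ (V A1) := by
    rw [hV1]; exact hbli.comp e e.injective
  have hgens : finrank ℂ (gens A1) = M := by
    have h1 : Submodule.span ℂ (Set.range (V A1)) = gens A1 := by
      have h2 : Set.range (V A1) = b := by
        rw [hV1]
        exact Set.Subset.antisymm (Set.range_subset_iff.2 fun m => (e m).2)
          fun y hy => ⟨e.symm ⟨y, hy⟩, by simp⟩
      rw [h2, hbspan]; rfl
    rw [← h1, finrank_span_eq_card hVli, Fintype.card_fin]
  let k := finrank ℂ (LinearMap.range (delta A1))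
  have hk : finrank ℂ (Fin g → Mat r) ≤ k + M := by
    rw [← LinearMap.finrank_range_add_finrank_ker (delta A1), ← hgens]
    exact Nat.add_le_add_left (Submodule.finrank_mono hker) _
  let B := Module.finBasis ℂ (LinearMap.range (delta A1))
  choose w hw using fun i => LinearMap.mem_range.1 (B i).2
  have hwli : LinearIndependent ℂ fun i => delta A1 (w i) := by
    have h0 := B.linearIndependent.map' (LinearMap.range (delta A1)).subtype
      (Submodule.ker_subtype _)
    rw [show (fun i => delta A1 (w i)) = (LinearMap.range (delta A1)).subtype ∘ B from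
      funext fun i => hw i]
    exact h0
  let Ap : (Fin g × Fin r × Fin r → ℂ) → Fin g → Mat r := fun x i =>
    slNorm ⟨0, by omega⟩ (Matrix.of fun p q => x (i, p, q))
  let D : Set (Fin g × Fin r × Fin r → ℂ) := {x | ∀ i, (Matrix.of fun p q => x (i, p, q)).det ≠ 0}
  have hDo : IsOpen D := by
    have : D = ⋂ i, {x | (Matrix.of fun p q => x (i, p, q)).det ≠ 0} := by ext; simp [D]
    rw [this]
    exact isOpen_iInter_of_finite fun i => IsOpen.preimage
      (f := fun x : Fin g × Fin r × Fin r → ℂ => (Matrix.of fun p q => x (i, p, q)).det)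
      (by fun_prop) isOpen_ne
  have hdet : ∀ x ∈ D, ∀ i, (Ap x i).det = 1 := fun x hx i => det_slNorm _ (hx i)
  have hA : ∀ i, RatMat (fun a : D => (a : Fin g × Fin r × Fin r → ℂ)) fun a => Ap a.1 i := fun i =>
    ratMat_slNorm _ (X := fun a : D => Matrix.of fun p q => a.1 (i, p, q))
      (fun p q => (RatFn.coord (i, p, q)).congr fun a => by simp) fun a => a.2 i
  have hbase : ∀ c : Curve g, RatMat (fun a : D => (a : Fin g × Fin r × Fin r → ℂ))
      fun a => baseCurve c (Ap a.1) := by
    intro c
    cases c with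
    | twist j => exact hA j
    | bridge i j hij l =>
      exact (hA i).mul (ratMat_inv_of_det_one ((hA j).pow l) fun a => by
        rw [Matrix.det_pow, hdet a.1 a.2, one_pow])
  have hvel : ∀ m i, RatMat (fun a : D => (a : Fin g × Fin r × Fin r → ℂ))
      fun a => V (Ap a.1) m i := by
    intro m i
    simp only [V]
    generalize (cn m).1 = c
    generalize (cn m).2 = p
    have hY := (hbase c).pow p
    cases c with
    | twist j =>
      by_cases h : i = j
      · subst h; exact hY.congr fun a => by simp [vel, baseCurve]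
      · exact (RatMat.const 0).congr fun a => by simp [vel, h]
    | bridge i' j hij l =>
      have h1 := ((ratMat_inv_of_det_one (hA i') fun a => hdet a.1 a.2 i').mul hY).mul (hA i')
      have h2 := RatMat.smul (RatFn.const (-1)) (RatMat.sum (Finset.range l)
        fun u _ => ((ratMat_inv_of_det_one ((hA j).pow (u + 1)) fun a => by
          rw [Matrix.det_pow, hdet a.1 a.2, one_pow]).mul hY).mul ((hA j).pow (u + 1)))
      by_cases h : i = i'
      · subst h; exact h1.congr fun a => by simp [vel, ne_of_lt hij]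
      · by_cases h' : i = j
        · subst h'; exact h2.congr fun a => by simp [vel, h]
        · exact (RatMat.const 0).congr fun a => by simp [vel, h, h']
  have hcont : ∀ (F : (Fin g × Fin r × Fin r → ℂ) → Mat r),
      RatMat (fun a : D => (a : Fin g × Fin r × Fin r → ℂ)) (fun a => F a.1) →
        ContinuousOn F D := fun F hF =>
    continuousOn_pi.2 fun p => continuousOn_pi.2 fun q =>
      RatFn.continuousOn (f := fun x => F x p q) (hF p q)
  have hdw : ∀ i, RatMat (fun a : D => (a : Fin g × Fin r × Fin r → ℂ))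
      fun a => delta (Ap a.1) (w i) := fun i =>
    (RatMat.sum Finset.univ fun j _ => (((hA j).mul (RatMat.const (w i j))).mul
      (ratMat_inv_of_det_one (hA j) fun a => hdet a.1 a.2 j)).add
        (RatMat.const (-w i j))).congr fun a => by simp [delta, sub_eq_add_neg]
  have hwd : RatFn (fun a : D => (a : Fin g × Fin r × Fin r → ℂ))
      fun a => (hbWord o z (Ap a.1)).det :=
    RatMat.det fun ab pq =>
      ((((RatMat.pow (hA o) ab.1.val).mul (hA z)).mul (RatMat.pow (hA o) ab.2.val))
        pq.1 pq.2).congr fun a => by simp [hbWord]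
  let U : Set (Fin g × Fin r × Fin r → ℂ) :=
    (D ∩ (fun x => V (Ap x)) ⁻¹' {f | LinearIndependent ℂ f}) ∩
      (D ∩ (fun x i => delta (Ap x) (w i)) ⁻¹' {f | LinearIndependent ℂ f}) ∩
      (D ∩ (fun x => (hbWord o z (Ap x)).det) ⁻¹' {c | c ≠ 0})
  have hU : IsOpen U := by
    refine IsOpen.inter (IsOpen.inter ?_ ?_) ?_
    · exact (continuousOn_pi.2 fun m => continuousOn_pi.2 fun i =>
        hcont (fun x => V (Ap x) m i) (hvel m i)).isOpen_inter_preimage hDo
          isOpen_setOfPred_linearIndependent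
    · exact (continuousOn_pi.2 fun i => hcont (fun x => delta (Ap x) (w i))
        (hdw i)).isOpen_inter_preimage hDo isOpen_setOfPred_linearIndependent
    · exact (RatFn.continuousOn (f := fun x => (hbWord o z (Ap x)).det) hwd).isOpen_inter_preimage
        hDo isOpen_ne
  have put : ∀ Bs : Fin g → Mat r, (∀ i, (Bs i).det = 1) → ∃ x ∈ D, Ap x = Bs := by
    intro Bs hB
    refine ⟨fun v => Bs v.1 v.2.1 v.2.2, fun i => ?_, funext fun i => slNorm_of_det_one _ (hB i)⟩
    show (Matrix.of fun p q => Bs i p q).det ≠ 0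
    rw [show (Matrix.of fun p q => Bs i p q) = Bs i from rfl, hB]
    exact one_ne_zero
  obtain ⟨μ, hμ1, hμI⟩ := exists_indep_diagonal (r := r) (by omega)
  have hμd : (diagonal μ).det = 1 := by rw [det_diagonal, hμ1]
  have hne : ∀ q : Fin M × RelExp r, ∃ x ∈ D, relPoly q.2.1 (baseCurve (cn q.1).1 (Ap x)) ≠ 0 := by
    rintro ⟨m, a⟩
    generalize (cn m).1 = c
    cases c with
    | twist j =>
      obtain ⟨x, hx, hxA⟩ := put (fun _ => diagonal μ) fun _ => hμd
      refine ⟨x, hx, ?_⟩
      rw [hxA]
      exact hμI.relPoly_ne_zero hμd a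
    | bridge i j hij l =>
      obtain ⟨x, hx, hxA⟩ := put (fun q => if q = i then diagonal μ else 1) fun q => by
        split
        · exact hμd
        · exact det_one
      refine ⟨x, hx, ?_⟩
      rw [hxA]
      simpa [baseCurve, ne_of_gt hij] using hμI.relPoly_ne_zero hμd a
  obtain ⟨x1, hx1, hx1A⟩ := put A1 hdet1
  obtain ⟨x, ⟨hxU, hxD⟩, hx⟩ := dense_ratFn_ne_zero hDo
    (fun (q : Fin M × RelExp r) x => relPoly q.2.1 (baseCurve (cn q.1).1 (Ap x)))
    (fun q => ratFn_relPoly (hbase (cn q.1).1) q.2.1) hne hU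
    ⟨x1, ⟨⟨⟨hx1, by show LinearIndependent ℂ (V (Ap x1)); rw [hx1A]; exact hVli⟩,
      ⟨hx1, by show LinearIndependent ℂ fun i => delta (Ap x1) (w i); rw [hx1A]; exact hwli⟩⟩,
      ⟨hx1, by show (hbWord o z (Ap x1)).det ≠ 0; rw [hx1A]; exact hW1⟩⟩, hx1⟩
  obtain ⟨⟨⟨-, hli⟩, -, hrk⟩, -, hWx⟩ := hxU
  let A : Fin g → Matrix.SpecialLinearGroup (Fin r) ℂ := fun i => ⟨Ap x i, hdet x hxD i⟩
  have hcurve : ∀ m, (baseCurve (cn m).1 (Ap x)).det = 1 := fun m => by
    rw [show baseCurve (cn m).1 (Ap x) = (curveElt (cn m).1 (handlePt A)).1 from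
      (curveElt_handlePt (cn m).1 A).symm]
    exact (curveElt (cn m).1 (handlePt A)).2
  refine ⟨o, z, A, M, fun m => (cn m).1, fun m => (cn m).2, hWx,
    fun m => indep_of_relPoly (hcurve m) fun a => hx (m, a), ?_⟩
  have hsub : Submodule.span ℂ (Set.range (V (Ap x))) ≤ LinearMap.ker (delta (Ap x)) := by
    rw [Submodule.span_le, Set.range_subset_iff]
    exact fun m => LinearMap.mem_ker.2 (delta_vel
      (fun i => by rw [hdet x hxD i]; exact isUnit_one) _ _ ((Commute.refl _).pow_left _))
  refine le_of_eq (Submodule.eq_of_le_of_finrank_le hsub ?_).symm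
  rw [finrank_span_eq_card hli, Fintype.card_fin]
  have h1 : k ≤ finrank ℂ (LinearMap.range (delta (Ap x))) := by
    have h2 := finrank_span_eq_card hrk
    rw [Fintype.card_fin] at h2
    refine h2.symm.le.trans ?_
    exact Submodule.finrank_mono (Submodule.span_le.2 (Set.range_subset_iff.2 fun i =>
      LinearMap.mem_range_self _ _))
  have h2 := LinearMap.finrank_range_add_finrank_ker (delta (Ap x))
  omega

end Vale.Agent.P002.Surf
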