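import Vale.Agent.P002.Surf.Bricks

/-!
P002, surface groups: block sums of two non-isomorphic irreducible representations are limits of
bricks (non-split extensions).
-/

namespace Vale.Agent.P002.Surf

open Matrix Module Filter
open scoped Matrix.Norms.Operator Topology

variable {g r : ℕ} {a b : ℕ}

/-- Conjugation of a tuple. -/
noncomputable def cj (S : Mat r) (x : Pt g r) : Pt g r :=
  fun i => (S * (x i).1 * S⁻¹, S * (x i).2 * S⁻¹)

theorem conj_mul {S : Mat r} (hS : IsUnit S.det) (A B : Mat r) :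
    S * A * S⁻¹ * (S * B * S⁻¹) = S * (A * B) * S⁻¹ := by
  simp only [mul_assoc]
  rw [← mul_assoc S⁻¹ S, inv_mul_self' hS, one_mul]

theorem conj_inv {S : Mat r} (hS : IsUnit S.det) {A : Mat r} (hA : IsUnit A.det) :
    (S * A * S⁻¹)⁻¹ = S * A⁻¹ * S⁻¹ := by
  refine Matrix.inv_eq_right_inv ?_
  rw [conj_mul hS, mul_inv_self' hA, mul_one, mul_inv_self' hS]

theorem det_conj' {S : Mat r} (hS : IsUnit S.det) (A : Mat r) : (S * A * S⁻¹).det = A.det := by
  rw [det_mul, det_mul, det_nonsing_inv, mul_comm S.det, mul_assoc,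
    Ring.mul_inverse_cancel _ hS, mul_one]

theorem isGL_cj {S : Mat r} (hS : IsUnit S.det) {x : Pt g r} (hx : IsGL x) : IsGL (cj S x) :=
  fun i => ⟨by simpa only [cj, det_conj' hS] using (hx i).1,
    by simpa only [cj, det_conj' hS] using (hx i).2⟩

theorem pre_cj {S : Mat r} (hS : IsUnit S.det) {x : Pt g r} (hx : IsGL x) :
    ∀ k, pre (cj S x) k = S * pre x k * S⁻¹
  | 0 => by simp [pre, mul_inv_self' hS]
  | k + 1 => by
    have hc : cm (cj S x) k = S * cm x k * S⁻¹ := by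
      unfold cm
      split
      · simp only [comm, cj, conj_inv hS (hx _).1, conj_inv hS (hx _).2, conj_mul hS]
      · simp [mul_inv_self' hS]
    rw [pre, pre, pre_cj hS hx k, hc, conj_mul hS]

theorem relProd_cj {S : Mat r} (hS : IsUnit S.det) {x : Pt g r} (hx : IsGL x) :
    relProd (cj S x) = S * relProd x * S⁻¹ := by
  rw [relProd_eq_pre, relProd_eq_pre, pre_cj hS hx]

theorem isRep_cj {S : Mat r} (hS : IsUnit S.det) {x : Pt g r} (hx : IsRep x) :
    IsRep (cj S x) :=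
  ⟨isGL_cj hS hx.1, by rw [relProd_cj hS hx.1, hx.2, mul_one, mul_inv_self' hS]⟩

theorem brick_cj {S : Mat r} (hS : IsUnit S.det) {x : Pt g r} (hb : Brick x) :
    Brick (cj S x) := by
  intro Z hZ
  have key : ∀ A, Commute Z (S * A * S⁻¹) → Commute (S⁻¹ * Z * S) A := by
    intro A h
    have h' := congrArg (fun M => S⁻¹ * M * S) h.eq
    simp only [mul_assoc] at h'
    simp only [inv_mul_self' hS, mul_one] at h'
    rw [← mul_assoc S⁻¹ S, inv_mul_self' hS, one_mul] at h'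
    simpa [Commute, SemiconjBy, mul_assoc] using h'
  obtain ⟨c, hc⟩ := hb (S⁻¹ * Z * S) fun i => ⟨key _ (hZ i).1, key _ (hZ i).2⟩
  refine ⟨c, ?_⟩
  have h' := congrArg (fun M => S * M * S⁻¹) hc
  simp only [← mul_assoc, mul_inv_self' hS, one_mul] at h'
  simpa [mul_assoc, mul_inv_self' hS] using h'

/-- The block matrix, its rows and columns renumbered. -/
noncomputable def blk (e : Fin a ⊕ Fin b ≃ Fin r) (A : Mat a) (E : Matrix (Fin a) (Fin b) ℂ)
    (B : Mat b) : Mat r :=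
  reindexAlgEquiv ℂ ℂ e (fromBlocks A E 0 B)

/-- The upper triangular extension of two tuples. -/
noncomputable def tri (e : Fin a ⊕ Fin b ≃ Fin r) (x₁ : Pt g a) (x₂ : Pt g b)
    (E : Fin g → Matrix (Fin a) (Fin b) ℂ × Matrix (Fin a) (Fin b) ℂ) : Pt g r :=
  fun i => (blk e (x₁ i).1 (E i).1 (x₂ i).1, blk e (x₁ i).2 (E i).2 (x₂ i).2)

theorem det_blk (e : Fin a ⊕ Fin b ≃ Fin r) (A : Mat a) (E : Matrix (Fin a) (Fin b) ℂ) (B : Mat b) :
    (blk e A E B).det = A.det * B.det := by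
  rw [blk, det_reindexAlgEquiv, det_fromBlocks_zero₂₁]

theorem isGL_tri {e : Fin a ⊕ Fin b ≃ Fin r} {x₁ : Pt g a} {x₂ : Pt g b} (h₁ : IsGL x₁)
    (h₂ : IsGL x₂) (E : Fin g → Matrix (Fin a) (Fin b) ℂ × Matrix (Fin a) (Fin b) ℂ) :
    IsGL (tri e x₁ x₂ E) := fun i =>
  ⟨by simpa only [tri, det_blk] using (h₁ i).1.mul (h₂ i).1,
    by simpa only [tri, det_blk] using (h₁ i).2.mul (h₂ i).2⟩

theorem blk_mul (e : Fin a ⊕ Fin b ≃ Fin r) (A A' : Mat a) (B B' : Mat b) :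
    blk e A 0 B * blk e A' 0 B' = blk e (A * A') 0 (B * B') := by
  rw [blk, blk, blk, ← map_mul, fromBlocks_multiply]
  simp

theorem blk_one (e : Fin a ⊕ Fin b ≃ Fin r) : blk e 1 0 1 = 1 := by
  rw [blk, fromBlocks_one, map_one]

theorem blk_inv (e : Fin a ⊕ Fin b ≃ Fin r) {A : Mat a} {B : Mat b} (hA : IsUnit A.det)
    (hB : IsUnit B.det) : (blk e A 0 B)⁻¹ = blk e A⁻¹ 0 B⁻¹ := by
  refine Matrix.inv_eq_right_inv ?_
  rw [blk_mul, mul_inv_self' hA, mul_inv_self' hB, blk_one]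

theorem pre_tri_zero {e : Fin a ⊕ Fin b ≃ Fin r} {x₁ : Pt g a} {x₂ : Pt g b} (h₁ : IsGL x₁)
    (h₂ : IsGL x₂) : ∀ k, pre (tri e x₁ x₂ 0) k = blk e (pre x₁ k) 0 (pre x₂ k)
  | 0 => by simp [pre, blk_one]
  | k + 1 => by
    have hc : cm (tri e x₁ x₂ 0) k = blk e (cm x₁ k) 0 (cm x₂ k) := by
      unfold cm
      split
      · simp only [comm, tri, Pi.zero_apply, Prod.fst_zero, Prod.snd_zero,
          blk_inv e (h₁ _).1 (h₂ _).1, blk_inv e (h₁ _).2 (h₂ _).2, blk_mul]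
      · simp [blk_one]
    rw [pre, pre, pre, pre_tri_zero h₁ h₂ k, hc, blk_mul]

theorem isRep_tri_zero {e : Fin a ⊕ Fin b ≃ Fin r} {x₁ : Pt g a} {x₂ : Pt g b} (h₁ : IsRep x₁)
    (h₂ : IsRep x₂) : IsRep (tri e x₁ x₂ 0) := by
  refine ⟨isGL_tri h₁.1 h₂.1 0, ?_⟩
  rw [relProd_eq_pre, pre_tri_zero h₁.1 h₂.1, ← relProd_eq_pre, ← relProd_eq_pre, h₁.2, h₂.2,
    blk_one]

theorem isRep_of_tri_zero {e : Fin a ⊕ Fin b ≃ Fin r} {x₁ : Pt g a} {x₂ : Pt g b}
    (h : IsRep (tri e x₁ x₂ 0)) : IsRep x₁ ∧ IsRep x₂ := by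
  have hgl : IsGL x₁ ∧ IsGL x₂ := by
    have key : ∀ i, IsUnit ((x₁ i).1.det * (x₂ i).1.det) ∧ IsUnit ((x₁ i).2.det * (x₂ i).2.det) :=
      fun i => by simpa only [tri, det_blk] using h.1 i
    exact ⟨fun i => ⟨(IsUnit.mul_iff.1 (key i).1).1, (IsUnit.mul_iff.1 (key i).2).1⟩,
      fun i => ⟨(IsUnit.mul_iff.1 (key i).1).2, (IsUnit.mul_iff.1 (key i).2).2⟩⟩
  have h' := h.2
  rw [relProd_eq_pre, pre_tri_zero hgl.1 hgl.2, ← relProd_eq_pre, ← relProd_eq_pre,
    ← blk_one e, blk, blk, EmbeddingLike.apply_eq_iff_eq, fromBlocks_inj] at h'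
  exact ⟨⟨hgl.1, h'.1⟩, hgl.2, h'.2.2.2⟩

theorem blk_add (e : Fin a ⊕ Fin b ≃ Fin r) (A A' : Mat a) (E E' : Matrix (Fin a) (Fin b) ℂ)
    (B B' : Mat b) : blk e A E B + blk e A' E' B' = blk e (A + A') (E + E') (B + B') := by
  rw [blk, blk, blk, ← map_add, fromBlocks_add, add_zero]

theorem blk_smul (e : Fin a ⊕ Fin b ≃ Fin r) (c : ℂ) (A : Mat a) (E : Matrix (Fin a) (Fin b) ℂ)
    (B : Mat b) : c • blk e A E B = blk e (c • A) (c • E) (c • B) := by
  rw [blk, blk, ← map_smul, fromBlocks_smul, smul_zero]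

/-- The extension directions inside the tuples. -/
noncomputable def offLin (e : Fin a ⊕ Fin b ≃ Fin r) :
    (Fin g → Matrix (Fin a) (Fin b) ℂ × Matrix (Fin a) (Fin b) ℂ) →ₗ[ℂ] Pt g r where
  toFun E := fun i => (blk e 0 (E i).1 0, blk e 0 (E i).2 0)
  map_add' E F := by
    ext i : 1
    simp [blk_add]
  map_smul' c E := by
    ext i : 1
    simp [blk_smul]

theorem tri_smul (e : Fin a ⊕ Fin b ≃ Fin r) (x₁ : Pt g a) (x₂ : Pt g b)
    (E : Fin g → Matrix (Fin a) (Fin b) ℂ × Matrix (Fin a) (Fin b) ℂ) (t : ℂ) :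
    tri e x₁ x₂ (t • E) = tri e x₁ x₂ 0 + t • offLin e E := by
  ext i : 1
  simp [tri, offLin, blk_smul, blk_add]

/-- The diagonal scaling of the first block. -/
noncomputable def sclVec (e : Fin a ⊕ Fin b ≃ Fin r) (t : ℂ) (k : Fin r) : ℂ :=
  Sum.elim (fun _ => t) (fun _ => 1) (e.symm k)

theorem scl_conj_apply (e : Fin a ⊕ Fin b ≃ Fin r) {t : ℂ} (ht : t ≠ 0) (M : Mat r) (k l : Fin r) :
    (diagonal (sclVec e t) * M * (diagonal (sclVec e t))⁻¹) k l
      = sclVec e t k * M k l * (sclVec e t l)⁻¹ := by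
  have hne : ∀ k, sclVec e t k ≠ 0 := fun k => by
    rcases h : e.symm k with i | i <;> simp [sclVec, h, ht]
  have hinv : (diagonal (sclVec e t))⁻¹ = diagonal fun k => (sclVec e t k)⁻¹ := by
    refine Matrix.inv_eq_right_inv ?_
    rw [diagonal_mul_diagonal]
    simp [hne]
  rw [hinv, mul_diagonal, diagonal_mul]

theorem isUnit_det_scl (e : Fin a ⊕ Fin b ≃ Fin r) {t : ℂ} (ht : t ≠ 0) :
    IsUnit (diagonal (sclVec e t)).det := by
  rw [det_diagonal, isUnit_iff_ne_zero, Finset.prod_ne_zero_iff]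
  intro k _
  rcases h : e.symm k with i | i <;> simp [sclVec, h, ht]

theorem cj_scl_tri (e : Fin a ⊕ Fin b ≃ Fin r) {t : ℂ} (ht : t ≠ 0) (x₁ : Pt g a) (x₂ : Pt g b)
    (E : Fin g → Matrix (Fin a) (Fin b) ℂ × Matrix (Fin a) (Fin b) ℂ) :
    cj (diagonal (sclVec e t)) (tri e x₁ x₂ E) = tri e x₁ x₂ (t • E) := by
  funext i
  refine Prod.ext ?_ ?_ <;>
  · ext k l
    simp only [cj, scl_conj_apply e ht, tri, blk, reindexAlgEquiv_apply, reindex_apply,
      submatrix_apply, sclVec]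
    rcases e.symm k with k' | k' <;> rcases e.symm l with l' | l' <;> simp [ht, mul_comm]

/-- The first order obstruction of an extension. -/
noncomputable def obst (e : Fin a ⊕ Fin b ≃ Fin r) (x₁ : Pt g a) (x₂ : Pt g b) :
    (Fin g → Matrix (Fin a) (Fin b) ℂ × Matrix (Fin a) (Fin b) ℂ) →ₗ[ℂ]
      Matrix (Fin a) (Fin b) ℂ :=
  { toFun := fun E => of fun i j => dRel (tri e x₁ x₂ 0) (offLin e E) (e (.inl i)) (e (.inr j))
    map_add' := fun E F => by ext i j; simp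
    map_smul' := fun c E => by ext i j; simp }

theorem isRep_tri_of_obst {e : Fin a ⊕ Fin b ≃ Fin r} {x₁ : Pt g a} {x₂ : Pt g b}
    (h₁ : IsRep x₁) (h₂ : IsRep x₂)
    {E : Fin g → Matrix (Fin a) (Fin b) ℂ × Matrix (Fin a) (Fin b) ℂ}
    (hE : obst e x₁ x₂ E = 0) : IsRep (tri e x₁ x₂ E) := by
  refine ⟨isGL_tri h₁.1 h₂.1 E, ?_⟩
  have hu := isRep_tri_zero (e := e) h₁ h₂
  set u := tri e x₁ x₂ 0
  set M := relProd (tri e x₁ x₂ E) with hM
  have key : ∀ t : ℂ, t ≠ 0 → ∀ k l,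
      relProd (u + t • offLin e E) k l = sclVec e t k * M k l * (sclVec e t l)⁻¹ := by
    intro t ht k l
    rw [← tri_smul, ← cj_scl_tri e ht, relProd_cj (isUnit_det_scl e ht) (isGL_tri h₁.1 h₂.1 E),
      scl_conj_apply e ht]
  have hd : ∀ k l, HasDerivAt (fun t : ℂ => relProd (u + t • offLin e E) k l)
      (dRel u (offLin e E) k l) 0 := fun k l =>
    hasDerivAt_pi.1 (hasDerivAt_pi.1 (hasDerivAt_relProd_line hu) k) l
  have h0 : ∀ k l, relProd (u + (0 : ℂ) • offLin e E) k l = (1 : Mat r) k l := by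
    intro k l
    rw [zero_smul, add_zero, hu.2]
  -- the limit of the diagonal blocks
  have hconst : ∀ k l, sclVec e 2 k = sclVec e 2 l → M k l = (1 : Mat r) k l := by
    intro k l hkl
    have hlim := ((hd k l).continuousAt.continuousWithinAt (s := {0}ᶜ)).tendsto
    rw [h0] at hlim
    refine tendsto_nhds_unique (tendsto_const_nhds.congr' ?_) hlim
    filter_upwards [self_mem_nhdsWithin] with t (ht : t ≠ 0)
    rw [key t ht]
    rcases hk : e.symm k with k' | k' <;> rcases hl : e.symm l with l' | l' <;>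
      simp [sclVec, hk, hl, ht] at hkl ⊢ <;> first
      | (field_simp; done) | norm_num at hkl
  have hlow : ∀ i j, M (e (.inr i)) (e (.inl j)) = 0 := by
    intro i j
    have hne : e (Sum.inr i) ≠ e (Sum.inl j) := fun h => Sum.inr_ne_inl (e.injective h)
    have hlim : Tendsto (fun t : ℂ => t * relProd (u + t • offLin e E) (e (.inr i)) (e (.inl j)))
        (𝓝[{0}ᶜ] 0) (𝓝 0) := by
      have := ((continuousAt_id.mul (hd (e (.inr i)) (e (.inl j))).continuousAt).continuousWithinAt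
        (s := ({0}ᶜ : Set ℂ))).tendsto
      simpa [Pi.mul_def] using this
    refine tendsto_nhds_unique (tendsto_const_nhds.congr' ?_) hlim
    filter_upwards [self_mem_nhdsWithin] with t (ht : t ≠ 0)
    rw [key t ht]
    simp [sclVec]
    field_simp
  have hup : ∀ i j, M (e (.inl i)) (e (.inr j)) = 0 := by
    intro i j
    have h : dRel u (offLin e E) (e (.inl i)) (e (.inr j)) = 0 := congrFun (congrFun hE i) j
    have hlin : HasDerivAt (fun t : ℂ => t * M (e (.inl i)) (e (.inr j)))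
        (M (e (.inl i)) (e (.inr j))) 0 := by
      simpa using (hasDerivAt_id (0 : ℂ)).mul_const (M (e (.inl i)) (e (.inr j)))
    have heq : (fun t : ℂ => relProd (u + t • offLin e E) (e (.inl i)) (e (.inr j)))
        = fun t : ℂ => t * M (e (.inl i)) (e (.inr j)) := by
      funext t
      rcases eq_or_ne t 0 with rfl | ht
      · rw [h0, one_apply_ne (fun h => Sum.inl_ne_inr (e.injective h)), zero_mul]
      · rw [key t ht]
        simp [sclVec]
    have := hd (e (.inl i)) (e (.inr j))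
    rw [heq, h] at this
    exact hlin.unique this
  ext k l
  obtain ⟨k', rfl⟩ := e.surjective k
  obtain ⟨l', rfl⟩ := e.surjective l
  rcases k' with k' | k' <;> rcases l' with l' | l'
  · exact hconst _ _ (by simp [sclVec])
  · rw [hup, one_apply_ne (fun h => Sum.inl_ne_inr (e.injective h))]
  · rw [hlow, one_apply_ne (fun h => Sum.inr_ne_inl (e.injective h))]
  · exact hconst _ _ (by simp [sclVec])

/-- The coboundary of a matrix between the two blocks. -/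
noncomputable def cob (x₁ : Pt g a) (x₂ : Pt g b) :
    Matrix (Fin a) (Fin b) ℂ →ₗ[ℂ] (Fin g → Matrix (Fin a) (Fin b) ℂ × Matrix (Fin a) (Fin b) ℂ) where
  toFun Z := fun i => ((x₁ i).1 * Z - Z * (x₂ i).1, (x₁ i).2 * Z - Z * (x₂ i).2)
  map_add' Z W := by ext i : 1; simp [Matrix.mul_add, Matrix.add_mul, add_sub_add_comm]
  map_smul' c Z := by ext i : 1; simp [smul_sub]

theorem exists_extension (hg : 2 ≤ g) (ha : 0 < a) (hb : 0 < b) (e : Fin a ⊕ Fin b ≃ Fin r)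
    (x₁ : Pt g a) (x₂ : Pt g b) :
    ∃ E, obst e x₁ x₂ E = 0 ∧ E ∉ LinearMap.range (cob x₁ x₂) := by
  by_contra hcon
  push Not at hcon
  have hle : LinearMap.ker (obst e x₁ x₂) ≤ LinearMap.range (cob x₁ x₂) :=
    fun E hE => hcon E hE
  have h1 := Submodule.finrank_mono hle
  have h2 := LinearMap.finrank_range_le (cob x₁ x₂)
  have h3 := (obst e x₁ x₂).finrank_range_add_finrank_ker
  have h4 := Submodule.finrank_le (LinearMap.range (obst e x₁ x₂))
  have e1 : finrank ℂ (Matrix (Fin a) (Fin b) ℂ) = a * b := by simp [finrank_matrix]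
  have e2 : finrank ℂ (Fin g → Matrix (Fin a) (Fin b) ℂ × Matrix (Fin a) (Fin b) ℂ)
      = g * (2 * (a * b)) := by
    rw [finrank_pi_fintype]
    simp [finrank_prod, e1, two_mul]
  rw [e2] at h3
  rw [e1] at h2 h4
  have hpos : 0 < a * b := Nat.mul_pos ha hb
  have hgab : 2 * (2 * (a * b)) ≤ g * (2 * (a * b)) := Nat.mul_le_mul_right _ hg
  omega

theorem scalar_of_irred {n : ℕ} {x : Pt g n} (hn : 0 < n) (hirr : Irred x) {Z : Mat n}
    (hZ : ∀ i, Commute Z (x i).1 ∧ Commute Z (x i).2) : ∃ c : ℂ, Z = c • (1 : Mat n) := by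
  have : Nonempty (Fin n) := ⟨⟨0, hn⟩⟩
  obtain ⟨μ, hμ⟩ := Module.End.exists_eigenvalue (Matrix.toLin' Z)
  set W := Module.End.eigenspace (Matrix.toLin' Z) μ
  have hW : ∀ i, PairInv (x i) W := by
    intro i v hv
    rw [Module.End.mem_eigenspace_iff, toLin'_apply] at hv
    constructor <;> rw [Module.End.mem_eigenspace_iff, toLin'_apply, mulVec_mulVec]
    · rw [(hZ i).1.eq, ← mulVec_mulVec, hv, mulVec_smul]
    · rw [(hZ i).2.eq, ← mulVec_mulVec, hv, mulVec_smul]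
  have htop : W = ⊤ := (hirr W hW).resolve_left hμ
  refine ⟨μ, Matrix.ext_of_mulVec_single fun j => ?_⟩
  have hj : Pi.single j (1 : ℂ) ∈ W := htop ▸ Submodule.mem_top
  rw [Module.End.mem_eigenspace_iff, toLin'_apply] at hj
  rw [hj, smul_mulVec, one_mulVec]

theorem hom_eq_zero {n m : ℕ} {x : Pt g n} {y : Pt g m} (hx : Irred x) (hy : Irred y) (i0 : Fin g)
    (hdet : (x i0).1.det ≠ (y i0).1.det) {Z : Matrix (Fin n) (Fin m) ℂ}
    (hZ : ∀ i, (x i).1 * Z = Z * (y i).1 ∧ (x i).2 * Z = Z * (y i).2) : Z = 0 := by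
  by_contra hZ0
  have hker : LinearMap.ker (Matrix.toLin' Z) = ⊥ := by
    refine (hy _ fun i v hv => ?_).resolve_right fun h => hZ0 ?_
    · rw [LinearMap.mem_ker, toLin'_apply] at hv ⊢
      constructor
      · rw [mulVec_mulVec, ← (hZ i).1, ← mulVec_mulVec, hv,
          mulVec_zero]
      · rw [LinearMap.mem_ker, toLin'_apply, mulVec_mulVec, ← (hZ i).2, ← mulVec_mulVec, hv,
          mulVec_zero]
    · exact Matrix.toLin'.injective (by rw [map_zero]; exact LinearMap.ker_eq_top.1 h)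
  have hrange : LinearMap.range (Matrix.toLin' Z) = ⊤ := by
    refine (hx _ fun i v hv => ?_).resolve_left fun h => hZ0 ?_
    · obtain ⟨w, rfl⟩ := hv
      simp only [toLin'_apply, mulVec_mulVec, (hZ i).1, (hZ i).2]
      simp only [← mulVec_mulVec]
      exact ⟨⟨_, toLin'_apply _ _⟩, ⟨_, toLin'_apply _ _⟩⟩
    · exact Matrix.toLin'.injective (by rw [map_zero]; exact LinearMap.range_eq_bot.1 h)
  let L := LinearEquiv.ofBijective (Matrix.toLin' Z)
    ⟨LinearMap.ker_eq_bot.1 hker, LinearMap.range_eq_top.1 hrange⟩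
  have hconj : (L : (Fin m → ℂ) →ₗ[ℂ] Fin n → ℂ) ∘ₗ Matrix.toLin' (y i0).1 ∘ₗ
      (L.symm : (Fin n → ℂ) →ₗ[ℂ] Fin m → ℂ) = Matrix.toLin' (x i0).1 := by
    refine LinearMap.ext fun v => ?_
    obtain ⟨w, rfl⟩ := L.surjective v
    simp only [LinearMap.comp_apply, LinearEquiv.coe_coe, LinearEquiv.symm_apply_apply]
    change Matrix.toLin' Z (Matrix.toLin' (y i0).1 w) = Matrix.toLin' (x i0).1 (Matrix.toLin' Z w)
    simp [toLin'_apply, mulVec_mulVec, (hZ i0).1]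
  apply hdet
  rw [← LinearMap.det_toLin', ← hconj, LinearMap.det_conj, LinearMap.det_toLin']

theorem brick_tri {e : Fin a ⊕ Fin b ≃ Fin r} {x₁ : Pt g a} {x₂ : Pt g b} (ha : 0 < a)
    (hb : 0 < b) (hi₁ : Irred x₁) (hi₂ : Irred x₂) (i0 : Fin g)
    (hdet : (x₁ i0).1.det ≠ (x₂ i0).1.det)
    {E : Fin g → Matrix (Fin a) (Fin b) ℂ × Matrix (Fin a) (Fin b) ℂ}
    (hE : E ∉ LinearMap.range (cob x₁ x₂)) : Brick (tri e x₁ x₂ E) := by
  intro Z hZ
  obtain ⟨N, rfl⟩ := (reindexAlgEquiv ℂ ℂ e).surjective Z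
  rw [← fromBlocks_toBlocks N] at hZ ⊢
  set P := N.toBlocks₁₁
  set Q := N.toBlocks₁₂
  set R := N.toBlocks₂₁
  set T := N.toBlocks₂₂
  have hZ' : ∀ i, fromBlocks P Q R T * fromBlocks (x₁ i).1 (E i).1 0 (x₂ i).1
        = fromBlocks (x₁ i).1 (E i).1 0 (x₂ i).1 * fromBlocks P Q R T ∧
      fromBlocks P Q R T * fromBlocks (x₁ i).2 (E i).2 0 (x₂ i).2
        = fromBlocks (x₁ i).2 (E i).2 0 (x₂ i).2 * fromBlocks P Q R T := by
    intro i
    have h1 := (hZ i).1.eq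
    have h2 := (hZ i).2.eq
    simp only [tri, blk, ← map_mul] at h1 h2
    exact ⟨(reindexAlgEquiv ℂ ℂ e).injective h1, (reindexAlgEquiv ℂ ℂ e).injective h2⟩
  simp only [fromBlocks_multiply, fromBlocks_inj, Matrix.zero_mul, Matrix.mul_zero, zero_add,
    add_zero] at hZ'
  have hR : R = 0 := hom_eq_zero hi₂ hi₁ i0 hdet.symm fun i =>
    ⟨(hZ' i).1.2.2.1.symm, (hZ' i).2.2.2.1.symm⟩
  simp only [hR, Matrix.mul_zero, Matrix.zero_mul, add_zero, zero_add] at hZ'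
  obtain ⟨α, hα⟩ := scalar_of_irred ha hi₁ (Z := P) fun i => ⟨(hZ' i).1.1, (hZ' i).2.1⟩
  obtain ⟨β, hβ⟩ := scalar_of_irred hb hi₂ (Z := T) fun i => ⟨(hZ' i).1.2.2.2, (hZ' i).2.2.2.2⟩
  have hcob : cob x₁ x₂ Q = (α - β) • E := by
    funext i
    have h1 := (hZ' i).1.2.1
    have h2 := (hZ' i).2.2.1
    simp only [hα, hβ, Matrix.smul_mul, Matrix.mul_smul, Matrix.one_mul, Matrix.mul_one] at h1 h2
    refine Prod.ext ?_ ?_
    · change (x₁ i).1 * Q - Q * (x₂ i).1 = (α - β) • (E i).1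
      rw [sub_smul, sub_eq_sub_iff_add_eq_add, ← h1]
    · change (x₁ i).2 * Q - Q * (x₂ i).2 = (α - β) • (E i).2
      rw [sub_smul, sub_eq_sub_iff_add_eq_add, ← h2]
  have hαβ : α = β := by
    by_contra hne
    refine hE ⟨(α - β)⁻¹ • Q, ?_⟩
    rw [map_smul, hcob, smul_smul, inv_mul_cancel₀ (sub_ne_zero.2 hne), one_smul]
  rw [hαβ, sub_self, zero_smul] at hcob
  have hQ : Q = 0 := hom_eq_zero hi₁ hi₂ i0 hdet fun i => by
    have := congrFun hcob i
    exact ⟨sub_eq_zero.1 (congrArg Prod.fst this), sub_eq_zero.1 (congrArg Prod.snd this)⟩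
  refine ⟨α, ?_⟩
  rw [hR, hQ, hα, hβ, ← hαβ]
  rw [← map_one (reindexAlgEquiv ℂ ℂ e), ← map_smul, ← fromBlocks_one, fromBlocks_smul]
  simp

/-- A sum of two irreducible representations with different determinants is a limit of bricks. -/
theorem mem_closure_brick_split (hg : 2 ≤ g) {e : Fin a ⊕ Fin b ≃ Fin r} (ha : 0 < a) (hb : 0 < b)
    {x₁ : Pt g a} {x₂ : Pt g b} (h₁ : IsRep x₁) (h₂ : IsRep x₂) (hi₁ : Irred x₁) (hi₂ : Irred x₂)
    (i0 : Fin g) (hdet : (x₁ i0).1.det ≠ (x₂ i0).1.det) {S : Mat r} (hS : IsUnit S.det) :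
    cj S (tri e x₁ x₂ 0) ∈ closure {y | IsRep y ∧ Brick y} := by
  obtain ⟨E, hE, hE'⟩ := exists_extension hg ha hb e x₁ x₂
  have hc : Continuous fun t : ℂ => cj S (tri e x₁ x₂ (t • E)) := by
    simp only [tri_smul]
    unfold cj
    fun_prop
  have hlim : Tendsto (fun t : ℂ => cj S (tri e x₁ x₂ (t • E))) (𝓝[{0}ᶜ] 0)
      (𝓝 (cj S (tri e x₁ x₂ 0))) := by
    have := (hc.continuousWithinAt (s := ({0}ᶜ : Set ℂ)) (x := 0)).tendsto
    simpa using this
  refine mem_closure_of_tendsto hlim ?_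
  filter_upwards [self_mem_nhdsWithin] with t (ht : t ≠ 0)
  refine ⟨isRep_cj hS (isRep_tri_of_obst h₁ h₂ (by rw [map_smul, hE, smul_zero])),
    brick_cj hS (brick_tri ha hb hi₁ hi₂ i0 hdet fun hmem => hE' ?_)⟩
  have := Submodule.smul_mem _ t⁻¹ hmem
  rwa [smul_smul, inv_mul_cancel₀ ht, one_smul] at this

end Vale.Agent.P002.Surf
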