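import Vale.Agent.P002.Surf.Base

/-!
P002, surface groups: the composite of finitely many flows starting from the handlebody points,
as a rational map whose values are forced representations.
-/

namespace Vale.Agent.P002.Surf

open Matrix
open scoped Topology

variable {g r M : ℕ}

theorem RatFn.restrict {ι : Type*} {D D' : Set (ι → ℂ)} (hs : D' ⊆ D) {f : (ι → ℂ) → ℂ}
    (hf : RatFn (fun a : D => (a : ι → ℂ)) fun a => f a) :
    RatFn (fun a : D' => (a : ι → ℂ)) fun a => f a := by
  obtain ⟨P, Q, h⟩ := hf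
  exact ⟨P, Q, fun a => h ⟨a.1, hs a.2⟩⟩

/-- The parameters: a matrix for each handle and a coefficient vector for each flow. -/
abbrev Pix (g r M : ℕ) := (Fin g × Fin r × Fin r) ⊕ (Fin M × Fin r)

/-- The coefficient vector of one flow. -/
def qPart (p : Pix g r M → ℂ) (m : Fin M) : Fin r → ℂ := fun k => p (Sum.inr (m, k))

/-- The matrix parameter of one handle. -/
def xMat (p : Pix g r M → ℂ) (i : Fin g) : Mat r :=
  1 + Matrix.of fun k l => p (Sum.inl (i, k, l))

/-- A polynomial in a matrix, near one for small coefficients. -/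
noncomputable def qMat (c : Mat r) (v : Fin r → ℂ) : Mat r := 1 + ∑ k, v k • c ^ k.val

/-- The element of the centraliser attached to coefficients. -/
noncomputable def hFn (c : Matrix.SpecialLinearGroup (Fin r) ℂ) (v : Fin r → ℂ) :
    Matrix.SpecialLinearGroup (Fin r) ℂ :=
  if h : (qMat c.1 v).det ≠ 0 then
    ⟨((qMat c.1 v).det)⁻¹ • qMat c.1 v ^ r, by
      rw [Matrix.det_smul, Matrix.det_pow, Fintype.card_fin, inv_pow]
      exact inv_mul_cancel₀ (pow_ne_zero r h)⟩
  else 1

theorem hFn_coe {c : Matrix.SpecialLinearGroup (Fin r) ℂ} {v : Fin r → ℂ}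
    (h : (qMat c.1 v).det ≠ 0) : (hFn c v).1 = ((qMat c.1 v).det)⁻¹ • qMat c.1 v ^ r := by
  exact congrArg Subtype.val (dif_pos h)

theorem commute_qMat (c : Mat r) (v : Fin r → ℂ) : Commute (qMat c v) c :=
  (Commute.one_left c).add_left
    (Commute.sum_left _ _ _ fun k _ => ((Commute.refl c).pow_left k.val).smul_left (v k))

theorem commute_hFn (c : Matrix.SpecialLinearGroup (Fin r) ℂ) (v : Fin r → ℂ) :
    Commute (hFn c v) c := by
  by_cases h : (qMat c.1 v).det ≠ 0
  · refine Subtype.ext ?_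
    show (hFn c v).1 * c.1 = c.1 * (hFn c v).1
    rw [hFn_coe h]
    exact (((commute_qMat c.1 v).pow_left r).smul_left _).eq
  · have he : hFn c v = 1 := dif_neg h
    rw [he]
    exact Commute.one_left c

theorem hFn_zero (c : Matrix.SpecialLinearGroup (Fin r) ℂ) : hFn c 0 = 1 := by
  have h : qMat c.1 (0 : Fin r → ℂ) = 1 := by simp [qMat]
  refine Subtype.ext ?_
  rw [hFn_coe (by rw [h, det_one]; exact one_ne_zero), h]
  simp

theorem flow_one (c : Curve g) {G : Type*} [Group G] (x : Fin g → G × G) : flow c x 1 = x := by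
  funext k
  cases c with
  | twist j => by_cases hk : k = j <;> simp [flow, hk]
  | bridge i j hij l =>
    simp only [flow, mul_one, inv_one, one_mul]
    split_ifs with h1 h2 h3
    · subst h1; simp
    · subst h2
      simp only [right_basis_self]
    · rfl
    · rfl

section Stage

variable (e : Fin r) (A0 : Fin g → Matrix.SpecialLinearGroup (Fin r) ℂ) (L : Fin M → Curve g)
  (o z : Fin g)

/-- The perturbed first entries. -/
noncomputable def baseA (p : Pix g r M → ℂ) (i : Fin g) : Matrix.SpecialLinearGroup (Fin r) ℂ :=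
  if h : (xMat p i).det ≠ 0 then A0 i * ⟨slNorm e (xMat p i), det_slNorm e h⟩ else A0 i

/-- The composite of the first `m` flows. -/
noncomputable def stage (p : Pix g r M → ℂ) : ℕ → SLPt g r ℂ
  | 0 => handlePt (baseA e A0 p)
  | m + 1 => if h : m < M then
      flow (L ⟨m, h⟩) (stage p m) (hFn (curveElt (L ⟨m, h⟩) (stage p m)) (qPart p ⟨m, h⟩))
    else stage p m

/-- The domain of the first `m` flows. -/
def Dom : ℕ → Set (Pix g r M → ℂ)
  | 0 => {p | (∀ i, (xMat p i).det ≠ 0) ∧ (hbWord o z fun i => (baseA e A0 p i).1).det ≠ 0}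
  | m + 1 => {p | p ∈ Dom m ∧ ∀ h : m < M,
      (qMat (curveElt (L ⟨m, h⟩) (stage e A0 L p m)).1 (qPart p ⟨m, h⟩)).det ≠ 0}

theorem baseA_zero (i : Fin g) : baseA e A0 (0 : Pix g r M → ℂ) i = A0 i := by
  have h1 : xMat (0 : Pix g r M → ℂ) i = 1 := by
    simp [xMat, ← Matrix.ext_iff]
  have h : (xMat (0 : Pix g r M → ℂ) i).det ≠ 0 := by rw [h1, det_one]; exact one_ne_zero
  rw [baseA, dif_pos h]
  refine Subtype.ext ?_
  show (A0 i).1 * slNorm e (xMat (0 : Pix g r M → ℂ) i) = (A0 i).1
  rw [h1, slNorm_of_det_one e det_one, Matrix.mul_one]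

theorem stage_of_zero {p : Pix g r M → ℂ} : ∀ m,
    (∀ k : Fin M, k.val < m → qPart p k = 0) → stage e A0 L p m = handlePt (baseA e A0 p)
  | 0, _ => rfl
  | m + 1, h => by
    have ih := stage_of_zero m fun k hk => h k (Nat.lt_succ_of_lt hk)
    simp only [stage]
    split
    · rename_i hm
      rw [h ⟨m, hm⟩ (Nat.lt_succ_self m), hFn_zero, flow_one, ih]
    · exact ih

theorem gpre_stage (p : Pix g r M → ℂ) : ∀ m, gpre (stage e A0 L p m) g = 1
  | 0 => gpre_handlePt _ g
  | m + 1 => by
    simp only [stage]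
    split
    · rw [gpre_flow _ _ _ (commute_hFn _ _), gpre_stage p m]
    · exact gpre_stage p m

theorem isSLRep_stage (p : Pix g r M → ℂ) (m : ℕ) : IsSLRep (toPt (stage e A0 L p m)) :=
  ⟨isSL_toPt _, by rw [relProd_toPt, gpre_stage]; rfl⟩

theorem dom_succ_subset (m : ℕ) : Dom e A0 L o z (m + 1) ⊆ Dom e A0 L o z m := fun _ hp => hp.1

theorem zero_mem_dom (hW : (hbWord o z fun i => (A0 i).1).det ≠ 0) :
    ∀ m, (0 : Pix g r M → ℂ) ∈ Dom e A0 L o z m
  | 0 => by
    refine ⟨fun i => ?_, ?_⟩
    · rw [show xMat (0 : Pix g r M → ℂ) i = 1 by simp [xMat, ← Matrix.ext_iff], det_one]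
      exact one_ne_zero
    · simpa [baseA_zero] using hW
  | m + 1 => ⟨zero_mem_dom hW m, fun h => by
      have h1 : qPart (0 : Pix g r M → ℂ) ⟨m, h⟩ = 0 := rfl
      rw [h1, show qMat (curveElt (L ⟨m, h⟩) (stage e A0 L 0 m)).1 (0 : Fin r → ℂ) = 1 by
        simp [qMat], det_one]
      exact one_ne_zero⟩

/-- What holds on the domain of the first `m` flows. -/
structure StageOK (m : ℕ) : Prop where
  isOpen : IsOpen (Dom e A0 L o z m)
  rat : ∀ i, RatSL (fun a : Dom e A0 L o z m => (a : Pix g r M → ℂ))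
      (fun a => (stage e A0 L a.1 m i).1) ∧
    RatSL (fun a : Dom e A0 L o z m => (a : Pix g r M → ℂ)) fun a => (stage e A0 L a.1 m i).2
  forced : ∀ p ∈ Dom e A0 L o z m, Forced (toPt (stage e A0 L p m))

theorem stageOK_zero : StageOK e A0 L o z 0 := by
  have hopen1 : IsOpen {p : Pix g r M → ℂ | ∀ i, (xMat p i).det ≠ 0} := by
    have : {p : Pix g r M → ℂ | ∀ i, (xMat p i).det ≠ 0} = ⋂ i, {p | (xMat p i).det ≠ 0} := by
      ext; simp
    rw [this]
    exact isOpen_iInter_of_finite fun i => IsOpen.preimage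
      (f := fun p : Pix g r M → ℂ => (xMat p i).det) (by unfold xMat; fun_prop) isOpen_ne
  have hA1 : ∀ i, RatSL (fun a : {p : Pix g r M → ℂ | ∀ i, (xMat p i).det ≠ 0} =>
      (a : Pix g r M → ℂ)) fun a => baseA e A0 a.1 i := by
    intro i
    have hx : RatMat (fun a : {p : Pix g r M → ℂ | ∀ i, (xMat p i).det ≠ 0} =>
        (a : Pix g r M → ℂ)) fun a => slNorm e (xMat a.1 i) :=
      ratMat_slNorm e (fun k l => ((RatFn.const ((1 : Mat r) k l)).add
        (RatFn.coord (Sum.inl (i, k, l)))).congr fun a => by simp [xMat]) fun a => a.2 i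
    refine (RatMat.mul (RatMat.const (A0 i).1) hx).congr fun a => ?_
    show _ = (baseA e A0 a.1 i).1
    rw [baseA, dif_pos (a.2 i)]
    rfl
  have hd : RatFn (fun a : {p : Pix g r M → ℂ | ∀ i, (xMat p i).det ≠ 0} =>
      (a : Pix g r M → ℂ)) fun a => (hbWord o z fun i => (baseA e A0 a.1 i).1).det :=
    RatMat.det fun ab pq =>
      ((((RatMat.pow (hA1 o) ab.1.val).mul (hA1 z)).mul (RatMat.pow (hA1 o) ab.2.val))
        pq.1 pq.2).congr fun a => by simp [hbWord]
  refine ⟨?_, fun i => ⟨?_, ?_⟩, fun p hp => ?_⟩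
  · exact (RatFn.continuousOn (f := fun p : Pix g r M → ℂ =>
      (hbWord o z fun i => (baseA e A0 p i).1).det) hd).isOpen_inter_preimage hopen1 isOpen_ne
  · exact fun k l => RatFn.restrict (fun p hp => hp.1)
      (f := fun p => (baseA e A0 p i).1 k l) (hA1 i k l)
  · exact (RatSL.const 1 : RatSL (fun a : Dom e A0 L o z 0 => (a : Pix g r M → ℂ)) fun _ => 1)
  · exact (forced_handlePt _ hp.2).1

theorem stageOK (hW : (hbWord o z fun i => (A0 i).1).det ≠ 0)
    (hL : ∀ m, Indep (baseCurve (L m) fun i => (A0 i).1)) :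
    ∀ m, StageOK e A0 L o z m
  | 0 => stageOK_zero e A0 L o z
  | m + 1 => by
    have ih := stageOK hW hL m
    by_cases hm : m < M
    swap
    · have h1 : Dom e A0 L o z (m + 1) = Dom e A0 L o z m :=
        Set.ext fun p => ⟨fun hp => hp.1, fun hp => ⟨hp, fun h => absurd h hm⟩⟩
      have h2 : ∀ p, stage e A0 L p (m + 1) = stage e A0 L p m := fun p => by
        simp [stage, hm]
      refine ⟨by rw [h1]; exact ih.isOpen, fun i => ⟨fun k l => ?_, fun k l => ?_⟩, fun p hp => ?_⟩
      · simp only [h2]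
        exact RatFn.restrict (fun p hp => hp.1)
          (f := fun p => (stage e A0 L p m i).1.1 k l) ((ih.rat i).1 k l)
      · simp only [h2]
        exact RatFn.restrict (fun p hp => hp.1)
          (f := fun p => (stage e A0 L p m i).2.1 k l) ((ih.rat i).2 k l)
      · rw [h2]; exact ih.forced p hp.1
    · set c := L ⟨m, hm⟩ with hc
      have hcurve : RatSL (fun a : Dom e A0 L o z m => (a : Pix g r M → ℂ))
          fun a => curveElt c (stage e A0 L a.1 m) := ratSL_curveElt c ih.rat
      have hq : RatMat (fun a : Dom e A0 L o z m => (a : Pix g r M → ℂ))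
          fun a => qMat (curveElt c (stage e A0 L a.1 m)).1 (qPart a.1 ⟨m, hm⟩) :=
        (RatMat.const 1).add (RatMat.sum _ fun k _ =>
          RatMat.smul (RatFn.coord (Sum.inr ((⟨m, hm⟩ : Fin M), k))) (RatMat.pow hcurve k.val))
      have hopen : IsOpen (Dom e A0 L o z (m + 1)) := by
        have h1 := (RatFn.continuousOn (f := fun p : Pix g r M → ℂ =>
          (qMat (curveElt c (stage e A0 L p m)).1 (qPart p ⟨m, hm⟩)).det)
          (RatMat.det hq)).isOpen_inter_preimage ih.isOpen isOpen_ne (t := {w : ℂ | w ≠ 0})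
        have h2 : Dom e A0 L o z (m + 1) = Dom e A0 L o z m ∩
            (fun p => (qMat (curveElt c (stage e A0 L p m)).1 (qPart p ⟨m, hm⟩)).det) ⁻¹'
              {w : ℂ | w ≠ 0} :=
          Set.ext fun p => ⟨fun hp => ⟨hp.1, hp.2 hm⟩, fun hp => ⟨hp.1, fun _ => hp.2⟩⟩
        rw [h2]
        exact h1
      have hst : ∀ p, stage e A0 L p (m + 1) = flow c (stage e A0 L p m)
          (hFn (curveElt c (stage e A0 L p m)) (qPart p ⟨m, hm⟩)) := fun p => by
        simp [stage, hm, hc]
      have hrat : ∀ i, RatSL (fun a : Dom e A0 L o z (m + 1) => (a : Pix g r M → ℂ))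
          (fun a => (stage e A0 L a.1 (m + 1) i).1) ∧
        RatSL (fun a : Dom e A0 L o z (m + 1) => (a : Pix g r M → ℂ))
          fun a => (stage e A0 L a.1 (m + 1) i).2 := by
        have hx : ∀ i, RatSL (fun a : Dom e A0 L o z (m + 1) => (a : Pix g r M → ℂ))
            (fun a => (stage e A0 L a.1 m i).1) ∧
          RatSL (fun a : Dom e A0 L o z (m + 1) => (a : Pix g r M → ℂ))
            fun a => (stage e A0 L a.1 m i).2 := fun i =>
          ⟨fun k l => RatFn.restrict (fun p hp => hp.1)
              (f := fun p => (stage e A0 L p m i).1.1 k l) ((ih.rat i).1 k l),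
           fun k l => RatFn.restrict (fun p hp => hp.1)
              (f := fun p => (stage e A0 L p m i).2.1 k l) ((ih.rat i).2 k l)⟩
        have hq' : RatMat (fun a : Dom e A0 L o z (m + 1) => (a : Pix g r M → ℂ))
            fun a => qMat (curveElt c (stage e A0 L a.1 m)).1 (qPart a.1 ⟨m, hm⟩) :=
          fun k l => RatFn.restrict (fun p hp => hp.1)
            (f := fun p => qMat (curveElt c (stage e A0 L p m)).1 (qPart p ⟨m, hm⟩) k l) (hq k l)
        have hh : RatSL (fun a : Dom e A0 L o z (m + 1) => (a : Pix g r M → ℂ))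
            fun a => hFn (curveElt c (stage e A0 L a.1 m)) (qPart a.1 ⟨m, hm⟩) := by
          refine (RatMat.smul ((RatMat.det hq').inv fun a => a.2.2 hm)
            (RatMat.pow hq' r)).congr fun a => ?_
          exact (hFn_coe (a.2.2 hm)).symm
        intro i
        simp only [hst]
        exact ratSL_flow c hx hh i
      refine ⟨hopen, hrat, fun p hp => ?_⟩
      have hcont : ContinuousOn (fun p => toPt (stage e A0 L p (m + 1)))
          (Dom e A0 L o z (m + 1)) := by
        refine continuousOn_pi.2 fun i => ContinuousOn.prodMk ?_ ?_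
        · exact continuousOn_pi.2 fun k => continuousOn_pi.2 fun l =>
            RatFn.continuousOn (f := fun p => (stage e A0 L p (m + 1) i).1.1 k l) ((hrat i).1 k l)
        · exact continuousOn_pi.2 fun k => continuousOn_pi.2 fun l =>
            RatFn.continuousOn (f := fun p => (stage e A0 L p (m + 1) i).2.1 k l) ((hrat i).2 k l)
      by_contra hF
      have hbad : IsOpen (Dom e A0 L o z (m + 1) ∩
          (fun p => toPt (stage e A0 L p (m + 1))) ⁻¹' {x | ¬ Forced x}) :=
        hcont.isOpen_inter_preimage hopen isClosed_forced.isOpen_compl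
      obtain ⟨p', ⟨hp'U, hp'D⟩, hne⟩ := dense_ratFn_ne_zero ih.isOpen
        (fun (a : RelExp r) p => relPoly a.1 (curveElt c (stage e A0 L p m)).1)
        (fun a => ratFn_relPoly hcurve a.1)
        (fun a => ⟨0, zero_mem_dom e A0 L o z hW m, by
          rw [stage_of_zero e A0 L m fun k _ => rfl, curveElt_handlePt]
          simp only [baseA_zero]
          exact (hL ⟨m, hm⟩).relPoly_ne_zero (by
            rw [← curveElt_handlePt]; exact (curveElt (L ⟨m, hm⟩) (handlePt A0)).2) a⟩)
        hbad ⟨p, ⟨hp, hF⟩, hp.1⟩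
      refine hp'U.2 ?_
      show Forced (toPt (stage e A0 L p' (m + 1)))
      rw [hst]
      exact forced_flow c (ih.forced p' hp'D) (indep_of_relPoly (curveElt c (stage e A0 L p' m)).2 hne) _
        (commute_hFn _ _)

end Stage

end Vale.Agent.P002.Surf
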