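import Vale.Agent.P002.Surf.Defs

/-!
P002, surface groups: a matrix with multiplicatively independent eigenvalues has powers that are
dense in its centraliser torus, and independence is the nonvanishing of countably many polynomials
in the coefficients of the characteristic polynomial.
-/

namespace Vale.Agent.P002.Surf

open Matrix

variable {r : ℕ}

/-- Diagonalisable, and the eigenvalues satisfy only the relation of determinant one. -/
def Indep (c : Mat r) : Prop :=
  ∃ (P : Mat r) (l : Fin r → ℂ), IsUnit P.det ∧ c = P * diagonal l * P⁻¹ ∧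
    ∀ e : Fin r → ℤ, ∏ i, l i ^ e i = 1 → ∀ i j, e i = e j

/-- A function on powers that vanishes for all exponents vanishes on each value class. -/
theorem powerSum_eq_zero {κ : Type*} (S : Finset ℂ) (s : Finset κ) (v : κ → ℂ) (a : κ → ℂ)
    (hS : ∀ k ∈ s, v k ∈ S) (h : ∀ n : ℕ, ∑ k ∈ s, a k * v k ^ n = 0) (w : ℂ) :
    ∑ k ∈ s with v k = w, a k = 0 := by
  classical
  by_cases hw : w ∈ S
  · let p : Polynomial ℂ := ∏ u ∈ S.erase w, (Polynomial.X - Polynomial.C u)
    have hpw : p.eval w ≠ 0 := by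
      simp only [p, Polynomial.eval_prod, Polynomial.eval_sub, Polynomial.eval_X,
        Polynomial.eval_C, Finset.prod_ne_zero_iff, sub_ne_zero]
      exact fun u hu => (Finset.ne_of_mem_erase hu).symm
    have hzero : ∑ k ∈ s, a k * p.eval (v k) = 0 := by
      simp_rw [Polynomial.eval_eq_sum_range, Finset.mul_sum]
      rw [Finset.sum_comm]
      refine Finset.sum_eq_zero fun n _ => ?_
      rw [show ∑ k ∈ s, a k * (p.coeff n * v k ^ n) = p.coeff n * ∑ k ∈ s, a k * v k ^ n by
        rw [Finset.mul_sum]; exact Finset.sum_congr rfl fun k _ => by ring, h n, mul_zero]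
    rw [← Finset.sum_filter_add_sum_filter_not s (fun k => v k = w)] at hzero
    have h2 : ∑ k ∈ s with ¬ v k = w, a k * p.eval (v k) = 0 := by
      refine Finset.sum_eq_zero fun k hk => ?_
      obtain ⟨hks, hkw⟩ := Finset.mem_filter.1 hk
      have hp : p.eval (v k) = 0 := by
        simp only [p, Polynomial.eval_prod, Finset.prod_eq_zero_iff]
        exact ⟨v k, Finset.mem_erase.2 ⟨hkw, hS k hks⟩, by simp⟩
      rw [hp, mul_zero]
    rw [h2, add_zero] at hzero
    have h3 : ∑ k ∈ s with v k = w, a k * p.eval (v k) =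
        (∑ k ∈ s with v k = w, a k) * p.eval w := by
      rw [Finset.sum_mul]
      exact Finset.sum_congr rfl fun k hk => by rw [(Finset.mem_filter.1 hk).2]
    rw [h3] at hzero
    exact (mul_eq_zero.1 hzero).resolve_right hpw
  · refine Finset.sum_eq_zero fun k hk => absurd ?_ hw
    obtain ⟨hks, hkw⟩ := Finset.mem_filter.1 hk
    exact hkw ▸ hS k hks

/-- A polynomial vanishing at all powers of an independent point of the torus vanishes on the
torus. -/
theorem torus_vanish (l t : Fin r → ℂ) (hl : ∏ i, l i = 1) (ht : ∏ i, t i = 1)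
    (hind : ∀ e : Fin r → ℤ, ∏ i, l i ^ e i = 1 → ∀ i j, e i = e j)
    (ψ : MvPolynomial (Fin r) ℂ) (h : ∀ n : ℕ, MvPolynomial.eval (fun i => l i ^ n) ψ = 0) :
    MvPolynomial.eval t ψ = 0 := by
  classical
  have hl0 : ∀ i, l i ≠ 0 := fun i hi =>
    absurd (Finset.prod_eq_zero (Finset.mem_univ i) hi) (by rw [hl]; exact one_ne_zero)
  let μ : (Fin r →₀ ℕ) → ℂ := fun m => ∏ i, l i ^ m i
  have hsum : ∀ n : ℕ, ∑ m ∈ ψ.support, ψ.coeff m * μ m ^ n = 0 := by
    intro n
    rw [← h n, MvPolynomial.eval_eq']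
    refine Finset.sum_congr rfl fun m _ => ?_
    simp only [μ, ← Finset.prod_pow, ← pow_mul]
    congr 1
    exact Finset.prod_congr rfl fun i _ => by rw [mul_comm]
  have hclass : ∀ m m' : Fin r →₀ ℕ, μ m = μ m' →
      ∏ i, t i ^ m i = ∏ i, t i ^ m' i := by
    intro m m' he
    rcases Nat.eq_zero_or_pos r with hr | hr
    · subst hr; simp
    have h1 : ∏ i, l i ^ ((m i : ℤ) - m' i) = 1 := by
      have : ∀ i, l i ^ ((m i : ℤ) - m' i) = l i ^ m i / l i ^ m' i := fun i => by
        rw [zpow_sub₀ (hl0 i), zpow_natCast, zpow_natCast]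
      simp_rw [this]
      rw [Finset.prod_div_distrib]
      exact (div_eq_one_iff_eq (Finset.prod_ne_zero_iff.2 fun i _ => pow_ne_zero _ (hl0 i))).2 he
    obtain ⟨i₀⟩ : Nonempty (Fin r) := ⟨⟨0, hr⟩⟩
    have hd : ∀ i, (m i : ℤ) - m' i = (m i₀ : ℤ) - m' i₀ := fun i => hind _ h1 i i₀
    have ht0 : ∀ i, t i ≠ 0 := fun i hi =>
      absurd (Finset.prod_eq_zero (Finset.mem_univ i) hi) (by rw [ht]; exact one_ne_zero)
    have h2 : ∏ i, t i ^ ((m i : ℤ) - m' i) = 1 := by
      simp_rw [hd]
      rw [Finset.prod_zpow, ht, _root_.one_zpow]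
    have : ∀ i, t i ^ ((m i : ℤ) - m' i) = t i ^ m i / t i ^ m' i := fun i => by
      rw [zpow_sub₀ (ht0 i), zpow_natCast, zpow_natCast]
    simp_rw [this, Finset.prod_div_distrib] at h2
    exact (div_eq_one_iff_eq (Finset.prod_ne_zero_iff.2 fun i _ => pow_ne_zero _ (ht0 i))).1 h2
  rw [MvPolynomial.eval_eq', ← Finset.sum_fiberwise_of_maps_to
    (g := μ) (t := ψ.support.image μ) fun m hm => Finset.mem_image_of_mem μ hm]
  refine Finset.sum_eq_zero fun w hw => ?_
  obtain ⟨m₀, _, rfl⟩ := Finset.mem_image.1 hw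
  have hS := powerSum_eq_zero (ψ.support.image μ) ψ.support μ (fun m => ψ.coeff m)
    (fun m hm => Finset.mem_image_of_mem μ hm) hsum (μ m₀)
  calc ∑ m ∈ ψ.support with μ m = μ m₀, ψ.coeff m * ∏ i, t i ^ m i
      = ∑ m ∈ ψ.support with μ m = μ m₀, ψ.coeff m * ∏ i, t i ^ m₀ i :=
        Finset.sum_congr rfl fun m hm => by rw [hclass m m₀ (Finset.mem_filter.1 hm).2]
    _ = 0 := by rw [← Finset.sum_mul, hS, zero_mul]

theorem Indep.injective {l : Fin r → ℂ}
    (hind : ∀ e : Fin r → ℤ, ∏ i, l i ^ e i = 1 → ∀ i j, e i = e j) (hl : ∀ i, l i ≠ 0) :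
    Function.Injective l := by
  intro i j hij
  by_contra hne
  let e : Fin r → ℤ := fun k => if k = i then 1 else if k = j then -1 else 0
  have h1 : ∏ k, l k ^ e k = 1 := by
    rw [Fintype.prod_eq_mul i j hne fun k hk => by simp [e, hk.1, hk.2]]
    simp [e, Ne.symm hne, hij, hl j]
  have := hind e h1 i j
  simp [e, Ne.symm hne] at this

/-- A polynomial in the entries vanishing at all powers of `c` vanishes at every matrix of
determinant one commuting with `c`. -/
theorem Indep.vanish {c : Mat r} (hc : Indep c) (hdet : c.det = 1)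
    (φ : MvPolynomial (Fin r × Fin r) ℂ)
    (h : ∀ n : ℕ, MvPolynomial.eval (fun x => (c ^ n) x.1 x.2) φ = 0)
    (H : Mat r) (hH : Commute H c) (hHdet : H.det = 1) :
    MvPolynomial.eval (fun x => H x.1 x.2) φ = 0 := by
  obtain ⟨P, l, hP, rfl, hind⟩ := hc
  have hPr : P * P⁻¹ = 1 := Matrix.mul_nonsing_inv P hP
  have hPl : P⁻¹ * P = 1 := Matrix.nonsing_inv_mul P hP
  have hl : ∏ i, l i = 1 := by
    rwa [Matrix.det_conj ((Matrix.isUnit_iff_isUnit_det P).2 hP), det_diagonal] at hdet
  have hl0 : ∀ i, l i ≠ 0 := fun i hi =>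
    absurd (Finset.prod_eq_zero (Finset.mem_univ i) hi) (by rw [hl]; exact one_ne_zero)
  have hinj := Indep.injective hind hl0
  let K : Mat r := P⁻¹ * H * P
  have hK : K * diagonal l = diagonal l * K := by
    calc K * diagonal l = P⁻¹ * (H * (P * diagonal l * P⁻¹)) * P := by
          simp only [K, Matrix.mul_assoc, hPl, Matrix.mul_one]
      _ = P⁻¹ * ((P * diagonal l * P⁻¹) * H) * P := by rw [hH.eq]
      _ = diagonal l * K := by
          simp only [K, ← Matrix.mul_assoc, hPl, Matrix.one_mul]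
  have hKd : K = diagonal fun i => K i i := by
    ext i j
    by_cases hij : i = j
    · subst hij; simp
    · have h0 := congrFun (congrFun hK i) j
      rw [mul_diagonal, diagonal_mul] at h0
      rw [diagonal_apply_ne _ hij]
      have h1 : K i j * (l j - l i) = 0 := by linear_combination h0
      exact (mul_eq_zero.1 h1).resolve_right (sub_ne_zero.2 fun he => hij (hinj he).symm)
  have hHK : H = P * K * P⁻¹ := by
    simp only [K, ← Matrix.mul_assoc, hPr, Matrix.one_mul]
    rw [Matrix.mul_assoc, hPr, Matrix.mul_one]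
  let ψ : MvPolynomial (Fin r) ℂ := MvPolynomial.bind₁ (fun x : Fin r × Fin r =>
    ∑ i, MvPolynomial.C (P x.1 i * P⁻¹ i x.2) * MvPolynomial.X i) φ
  have hψ : ∀ t : Fin r → ℂ, MvPolynomial.eval t ψ =
      MvPolynomial.eval (fun x => (P * diagonal t * P⁻¹) x.1 x.2) φ := by
    intro t
    simp only [ψ, MvPolynomial.eval, MvPolynomial.eval₂Hom_bind₁]
    congr 2 with x
    simp [Matrix.mul_apply, diagonal_apply, mul_assoc, mul_comm, mul_left_comm]
  have hpow : ∀ n : ℕ, (P * diagonal l * P⁻¹) ^ n = P * diagonal (fun i => l i ^ n) * P⁻¹ := by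
    intro n
    induction n with
    | zero => simp [hPr]
    | succ n ih =>
      rw [pow_succ, ih, show (fun i => l i ^ (n + 1)) = fun i => l i ^ n * l i from
        funext fun i => pow_succ _ _, ← diagonal_mul_diagonal]
      simp only [Matrix.mul_assoc]
      rw [← Matrix.mul_assoc P⁻¹ P, hPl, Matrix.one_mul]
  rw [hHK, hKd, ← hψ]
  refine torus_vanish l _ hl ?_ hind ψ fun n => ?_
  · rw [← det_diagonal, ← hKd]
    rw [hHK, Matrix.det_conj ((Matrix.isUnit_iff_isUnit_det P).2 hP)] at hHdet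
    exact hHdet
  · rw [hψ, ← hpow]; exact h n

end Vale.Agent.P002.Surf
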